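import Mathlib

/-!
# Row 218 (helper41): admissibility from first-order data, norm-only form
-/

set_option autoImplicit false
set_option linter.unusedSectionVars false
open Set Filter Topology Metric

noncomputable section

namespace Crest.Agent.N218.Ad

variable {V : Type*} [NormedAddCommGroup V] [NormedSpace ℝ V] [FiniteDimensional ℝ V]

/-- a pencil that is injective on a closed cone of odd vectors is uniformly injective -/
theorem pencil (m D n : V →L[ℝ] V)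
    (h : ∀ (a b : ℝ) (v : V), 0 ≤ a → 0 ≤ b → a + b = 1 → m v = v → a • D v + b • n v = 0 → v = 0) :
    ∃ c : ℝ, 0 < c ∧ ∀ (s : ℝ) (v : V), 0 ≤ s → m v = v → c * (1 + s) * ‖v‖ ≤ ‖D v + s • n v‖ := by
  have hc : IsCompact ((Icc (0 : ℝ) 1) ×ˢ (sphere (0 : V) 1 ∩ {v | m v = v})) :=
    isCompact_Icc.prod ((isCompact_sphere _ _).inter_right (isClosed_eq m.continuous continuous_id))
  let g : ℝ × V → ℝ := fun x => ‖(1 - x.1) • D x.2 + x.1 • n x.2‖
  have hg : Continuous g := by fun_prop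
  obtain ⟨c, c0, hd⟩ := hc.exists_forall_le' hg.continuousOn (a := 0) fun x hx =>
    norm_pos_iff.2 fun e => by
      have := h _ _ _ (sub_nonneg.2 hx.1.2) hx.1.1 (by ring) hx.2.2 e
      have k := hx.2.1
      rw [this] at k
      simp at k
  refine ⟨c, c0, fun s v s0 hv => ?_⟩
  rcases eq_or_ne v 0 with rfl | v0
  · simp
  have p : 0 < ‖v‖ := norm_pos_iff.2 v0
  have q : 0 < 1 + s := by positivity
  have a := hd (s / (1 + s), ‖v‖⁻¹ • v) ⟨⟨by positivity, (div_le_one q).2 (by linarith)⟩,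
    by simp [norm_smul, p.ne'], by simp [hv]⟩
  have e : D v + s • n v = ((1 + s) * ‖v‖) •
      ((1 - s / (1 + s)) • D (‖v‖⁻¹ • v) + (s / (1 + s)) • n (‖v‖⁻¹ • v)) := by
    simp only [map_smul, smul_add, smul_smul]
    rw [show (1 + s) * ‖v‖ * ((1 - s / (1 + s)) * ‖v‖⁻¹) = 1 by field_simp; ring,
      show (1 + s) * ‖v‖ * (s / (1 + s) * ‖v‖⁻¹) = s by field_simp, one_smul]
  rw [e, norm_smul, Real.norm_of_nonneg (by positivity), mul_assoc, mul_comm c]
  exact mul_le_mul_of_nonneg_left a (by positivity)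

variable {T : Type*} [TopologicalSpace T]

/-- `D` is a strict derivative of the family `P` at `(t, w)`, locally uniformly in `t` -/
def Sd (P : T × V → V) (D : V →L[ℝ] V) (x : T × V) : Prop :=
  ∀ ε : ℝ, 0 < ε → ∀ᶠ y : T × V × V in 𝓝 (x.1, x.2, x.2),
    ‖P (y.1, y.2.1) - P (y.1, y.2.2) - D (y.2.1 - y.2.2)‖ ≤ ε * ‖y.2.1 - y.2.2‖

/-- **local admissibility**: near a symmetric point with an injective pencil the odd part of the
equation has no solution.  `τ` is the involution, the odd part of `w` is `(w - τ w) / 2`. -/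
theorem loc (τ : V →L[ℝ] V) (hτ : ∀ v, τ (τ v) = v) {P : T × V → V} {n : T → V →L[ℝ] V}
    {D : V →L[ℝ] V} {x : T × V} (hn : ContinuousAt n x.1) (hD : Sd P D x) (hx : τ x.2 = x.2)
    (h : ∀ (a b : ℝ) (v : V), 0 ≤ a → 0 ≤ b → a + b = 1 → τ v = -v →
      a • D v + b • n x.1 v = 0 → v = 0) :
    ∀ᶠ y : T × V in 𝓝 x, ∀ s : ℝ, 0 ≤ s →
      P y - P (y.1, τ y.2) + s • n y.1 (y.2 - τ y.2) = 0 → τ y.2 = y.2 := by
  obtain ⟨c, c0, hc⟩ := pencil (-τ) D (n x.1) fun a b v a0 b0 e hv =>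
    h a b v a0 b0 e (neg_eq_iff_eq_neg.1 hv)
  have t1 : Tendsto (fun y : T × V => (y.1, y.2, τ y.2)) (𝓝 x) (𝓝 (x.1, x.2, τ x.2)) :=
    Continuous.tendsto (by fun_prop) _
  rw [hx] at t1
  have t2 : ∀ᶠ y : T × V in 𝓝 x, ‖n y.1 - n x.1‖ < c / 2 := by
    have : Tendsto (fun y : T × V => ‖n y.1 - n x.1‖) (𝓝 x) (𝓝 ‖n x.1 - n x.1‖) :=
      ((hn.comp continuousAt_fst).sub continuousAt_const).norm
    exact this.eventually (gt_mem_nhds (by simpa using c0))
  filter_upwards [t1.eventually (hD (c / 2) (by positivity)), t2] with y a b s s0 e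
  set v := y.2 - τ y.2 with hv
  have k := hc s v s0 (by simp [hv, hτ])
  have r : D v + s • n x.1 v = -(P y - P (y.1, τ y.2) - D v) - s • (n y.1 - n x.1) v := by
    rw [sub_apply, eq_neg_of_add_eq_zero_left e]; module
  have u : ‖s • (n y.1 - n x.1) v‖ ≤ s * (c / 2 * ‖v‖) := by
    rw [norm_smul, Real.norm_of_nonneg s0]
    exact mul_le_mul_of_nonneg_left (((n y.1 - n x.1).le_opNorm v).trans
      (mul_le_mul_of_nonneg_right b.le (norm_nonneg _))) s0
  rw [r] at k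
  have w := (norm_sub_le _ _).trans (add_le_add ((norm_neg _).le.trans a) u) |> k.trans
  have z : ‖v‖ ≤ 0 := by
    by_contra! p
    nlinarith [mul_pos c0 p, mul_nonneg s0 (mul_pos c0 p).le]
  exact (sub_eq_zero.1 (norm_le_zero_iff.1 z)).symm

/-- **globalisation**: an open property of all exact zeros holds for all approximate zeros -/
theorem glob {O : Set (T × V)} {P : T × V → V} (hP : ContinuousOn P O)
    {r : ℝ} (hr : 0 < r) (hK : IsCompact {y | y ∈ O ∧ ‖P y‖ ≤ r}) {Q : T × V → Prop}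
    (h : ∀ x ∈ O, P x = 0 → ∀ᶠ y in 𝓝 x, Q y) :
    ∃ δ : ℝ, 0 < δ ∧ ∀ y ∈ O, ‖P y‖ ≤ δ → Q y := by
  have hc := hK.diff (isOpen_interior (s := {y | Q y}))
  obtain ⟨d, d0, hd⟩ := hc.exists_forall_le' (f := fun y => ‖P y‖)
    (hP.norm.mono fun y hy => hy.1.1) (a := 0) fun x hx =>
      norm_pos_iff.2 fun e => hx.2 (mem_interior_iff_mem_nhds.2 (h x hx.1.1 e))
  refine ⟨min r (d / 2), by positivity, fun y hy e => by_contra fun k => ?_⟩
  have := hd y ⟨⟨hy, e.trans (min_le_left _ _)⟩, fun i => k (interior_subset i)⟩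
  linarith [e.trans (min_le_right _ _)]

/-- **ADM** -/
theorem adm [CompactSpace T] (τ : V →L[ℝ] V) (hτ : ∀ v, τ (τ v) = v) {O : Set (T × V)}
    {P : T × V → V} {n : T → V →L[ℝ] V} (hP : ContinuousOn P O) (hn : Continuous n)
    {r : ℝ} (hr : 0 < r) (hK : IsCompact {y | y ∈ O ∧ ‖P y‖ ≤ r})
    (eP : ∀ y ∈ O, P (y.1, τ y.2) = τ (P y)) (en : ∀ t v, n t (τ v) = τ (n t v))
    (h : ∀ x ∈ O, P x = 0 → τ x.2 = x.2 ∧ ∃ D : V →L[ℝ] V, Sd P D x ∧
      ∀ (a b : ℝ) (v : V), 0 ≤ a → 0 ≤ b → a + b = 1 → τ v = -v →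
        a • D v + b • n x.1 v = 0 → v = 0) :
    ∃ δ : ℝ, 0 < δ ∧ ∀ y ∈ O, ∀ s : ℝ, 0 ≤ s → ‖s • (y.2 - τ y.2)‖ ≤ δ →
      P y + s • n y.1 (y.2 - τ y.2) = 0 → τ y.2 = y.2 := by
  obtain ⟨d, d0, hd⟩ := glob hP hr hK fun x hx e => by
    obtain ⟨a, D, b, c⟩ := h x hx e
    exact loc τ hτ hn.continuousAt b a c
  obtain ⟨C, hC⟩ := isCompact_univ.exists_bound_of_continuousOn hn.continuousOn
  refine ⟨d / (|C| + 1), by positivity, fun y hy s s0 a e => hd y hy ?_ (2 * s) (by positivity) ?_⟩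
  · rw [eq_neg_of_add_eq_zero_left e, norm_neg, ← map_smul]
    refine ((n y.1).le_opNorm _).trans ((mul_le_mul ((hC _ (mem_univ _)).trans
      ((le_abs_self C).trans (le_add_of_nonneg_right zero_le_one))) a (norm_nonneg _)
      (by positivity)).trans (le_of_eq ?_))
    field_simp
  · have o : τ (n y.1 (y.2 - τ y.2)) = -n y.1 (y.2 - τ y.2) := by
      rw [← en, ← map_neg]; simp [hτ]
    rw [eP y hy, eq_neg_of_add_eq_zero_left e, map_neg, map_smul, o]; module

/-! ### sources of strict derivatives -/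

theorem Sd.of_lin {P : T × V → V} {L : T → V →L[ℝ] V} {c : T → V} {x : T × V}
    (hL : ContinuousAt L x.1) (h : ∀ᶠ y in 𝓝 x, P y = c y.1 + L y.1 y.2) : Sd P (L x.1) x := by
  intro ε e
  have t1 : Tendsto (fun y : T × V × V => (y.1, y.2.1)) (𝓝 (x.1, x.2, x.2)) (𝓝 x) :=
    Continuous.tendsto' (by fun_prop) _ _ rfl
  have t2 : Tendsto (fun y : T × V × V => (y.1, y.2.2)) (𝓝 (x.1, x.2, x.2)) (𝓝 x) :=
    Continuous.tendsto' (by fun_prop) _ _ rfl
  have t3 : Tendsto (fun y : T × V × V => ‖L y.1 - L x.1‖) (𝓝 (x.1, x.2, x.2))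
      (𝓝 ‖L x.1 - L x.1‖) :=
    ((hL.comp (f := fun y : T × V × V => y.1) continuousAt_fst).sub continuousAt_const).norm
  filter_upwards [t1.eventually h, t2.eventually h,
    t3.eventually (gt_mem_nhds (by simpa using e))] with y a b d
  rw [a, b, show c y.1 + L y.1 y.2.1 - (c y.1 + L y.1 y.2.2) - L x.1 (y.2.1 - y.2.2) =
    (L y.1 - L x.1) (y.2.1 - y.2.2) by simp only [sub_apply, map_sub]; abel]
  exact ((L y.1 - L x.1).le_opNorm _).trans (mul_le_mul_of_nonneg_right d.le (norm_nonneg _))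

/-- fibrewise differentiable with jointly continuous derivative -/
theorem Sd.of_c1 {P : T × V → V} {D : T × V → V →L[ℝ] V} {x : T × V} (hD : ContinuousAt D x)
    (h : ∀ᶠ y in 𝓝 x, HasFDerivAt (fun w => P (y.1, w)) (D y) y.2) : Sd P (D x) x := by
  intro ε e
  have t3 : Tendsto (fun y => ‖D y - D x‖) (𝓝 x) (𝓝 ‖D x - D x‖) :=
    (hD.sub continuousAt_const).norm
  have k := h.and (t3.eventually (gt_mem_nhds (by simpa using e)))
  rw [← Prod.mk.eta (p := x), nhds_prod_eq] at k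
  obtain ⟨A, hA, B, hB, k⟩ := eventually_prod_iff.1 k
  obtain ⟨ρ, r0, hb⟩ := Metric.eventually_nhds_iff_ball.1 hB
  rw [nhds_prod_eq, nhds_prod_eq]
  have hw : ∀ᶠ w in 𝓝 x.2, w ∈ ball x.2 ρ := ball_mem_nhds x.2 r0
  filter_upwards [hA.prod_mk (hw.prod_mk hw)] with y hy
  exact (convex_ball x.2 ρ).norm_image_sub_le_of_norm_hasFDerivWithin_le'
    (f := fun w => P (y.1, w)) (f' := fun w => D (y.1, w))
    (fun w hw => (k hy.1 (hb w hw)).1.hasFDerivWithinAt) (fun w hw => (k hy.1 (hb w hw)).2.le)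
    hy.2.2 hy.2.1

/-! ### linear pencils -/

/-- an even power of a symmetric operator has no negative eigenvalue -/
theorem sym_pow {E : Type*} [NormedAddCommGroup E] [InnerProductSpace ℝ E] {M : E →ₗ[ℝ] E}
    (hM : M.IsSymmetric) {j : ℕ} {a : ℝ} (ha : 0 < a) {v : E} (h : (M ^ (2 * j)) v = -(a • v)) :
    v = 0 := by
  have k := (hM.pow j) ((M ^ j) v) v
  rw [← Module.End.mul_apply, ← pow_add, ← two_mul, h, inner_neg_left, real_inner_smul_left,
    real_inner_self_eq_norm_sq, real_inner_self_eq_norm_sq] at k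
  have : ‖v‖ ^ 2 ≤ 0 := by nlinarith [sq_nonneg ‖(M ^ j) v‖]
  simpa using le_antisymm this (sq_nonneg _)

/-- a sequence with `a z (i+1) = M z i`, `M` symmetric, and `z (2 j) = - z 0` starts at `0` -/
theorem sym_seq {E : Type*} [NormedAddCommGroup E] [InnerProductSpace ℝ E] {M : E →ₗ[ℝ] E}
    (hM : M.IsSymmetric) {j : ℕ} {a : ℝ} (ha : a ≠ 0) {z : ℕ → E} (h : ∀ i, a • z (i + 1) = M (z i))
    (e : z (2 * j) = -z 0) : z 0 = 0 := by
  have k : ∀ i, (M ^ i) (z 0) = a ^ i • z i := fun i => by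
    induction i with
    | zero => simp
    | succ i ih => rw [pow_succ', Module.End.mul_apply, ih, map_smul, ← h, smul_smul, pow_succ]
  refine sym_pow hM (j := j) (a := a ^ (2 * j)) (by rw [pow_mul]; positivity) ?_
  rw [k, e, smul_neg]

end Crest.Agent.N218.Ad
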