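import Crest.Agent.N218.Pm.Kit1

/-!
# Row 218 (helper80): postcomposition; linear maps of the invariant part change the invariants
by a sign only
-/

set_option autoImplicit false
set_option linter.unusedSectionVars false

open Set Topology unitInterval

noncomputable section

namespace Crest.Agent.N218.Pm

section lin
variable {k : ℕ} {E E' : Type} [NormedAddCommGroup E] [NormedSpace ℝ E]
  [NormedAddCommGroup E'] [NormedSpace ℝ E']

variable (k E) in
/-- the average -/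
def av : V k E →L[ℝ] E := (Fintype.card (Ix k) : ℝ)⁻¹ • ∑ i, ContinuousLinearMap.proj i
variable (k E) in
/-- the constants -/
def cs : E →L[ℝ] V k E := ContinuousLinearMap.pi fun _ => ContinuousLinearMap.id ℝ E

theorem av_apply (y : V k E) : av k E y = (Fintype.card (Ix k) : ℝ)⁻¹ • ∑ i, y i := by simp [av]
@[simp] theorem cs_apply (a : E) (i : Ix k) : cs k E a i = a := rfl
@[simp] theorem av_cs (a : E) : av k E (cs k E a) = a := by
  simp only [av_apply, cs_apply, Finset.sum_const, Finset.card_univ, ← Nat.cast_smul_eq_nsmul ℝ]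
  exact inv_smul_smul₀ (by simp) a
theorem av_add (y : V k E) (j : Ix k) : av k E (fun i => y (i + j)) = av k E y := by
  rw [av_apply, av_apply, ← Equiv.sum_comp (Equiv.addRight j) y]; rfl
@[simp] theorem av_sh (y : V k E) : av k E (sh k E y) = av k E y := by
  have := av_add y (-1)
  simp only [← sub_eq_add_neg] at this
  exact this
@[simp] theorem sh_cs (a : E) : sh k E (cs k E a) = cs k E a := rfl
@[simp] theorem av_mn (y : V k E) : av k E (mn y) = 0 := by
  have : mn y = (1 / 2 : ℝ) • (y - fun i => y (i + 2 ^ k)) := rfl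
  rw [this, map_smul, map_sub, av_add, sub_self, smul_zero]
theorem norm_cs (a : E) : ‖cs k E a‖ ≤ ‖a‖ := (pi_norm_le_iff_of_nonneg (norm_nonneg _)).2 fun _ => le_rfl
theorem av_pr (y : V k E) (z : V k E') : av k (E × E') (pr y z) = (av k E y, av k E' z) := by
  simp only [av_apply, pr, Prod.ext_iff, Prod.smul_fst, Prod.smul_snd, Prod.fst_sum, Prod.snd_sum,
    and_self]

/-- `A` on the invariant part, the identity on its complement -/
def rf (A : E → E) (y : V k E) : V k E := y + cs k E (A (av k E y) - av k E y)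

theorem av_rf (A : E → E) (y : V k E) : av k E (rf A y) = A (av k E y) := by simp [rf]
theorem rf_rf (A A' : E → E) (y : V k E) : rf A (rf A' y) = rf (A ∘ A') y := by
  rw [rf, av_rf, rf, rf, add_assoc, ← map_add]; simp
theorem rf_id (y : V k E) : rf id y = y := by simp [rf]
theorem rf_sh (A : E → E) (y : V k E) : rf A (sh k E y) = sh k E (rf A y) := by simp [rf]
theorem rf_zero {A : E → E} {y : V k E} : rf A y = 0 ↔ y = cs k E (av k E y) ∧ A (av k E y) = 0 := by
  refine ⟨fun h => ?_, fun h => by rw [rf, h.2, zero_sub, map_neg, ← h.1, add_neg_cancel]⟩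
  have e : A (av k E y) = 0 := (av_rf A y).symm.trans (by rw [h, map_zero])
  rw [rf, e, zero_sub, map_neg, add_neg_eq_zero] at h
  exact ⟨h, e⟩
theorem rf_zero' {A : E → E} (h : ∀ a, A a = 0 ↔ a = 0) {y : V k E} : rf A y = 0 ↔ y = 0 := by
  rw [rf_zero, h]
  exact ⟨fun e => by rw [e.1, e.2, map_zero], fun e => by simp [e]⟩
theorem cont_rf {T : Type} [TopologicalSpace T] {A : T → E → E} {y : T → V k E}
    (hA : Continuous fun x : T × E => A x.1 x.2) (hy : Continuous y) :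
    Continuous fun t => rf (A t) (y t) := by
  have a : Continuous fun t => av k E (y t) := (av k E).continuous.comp hy
  exact hy.add ((cs k E).continuous.comp ((hA.comp (continuous_id.prodMk a)).sub a))
end lin

namespace Pb
variable {B : Type} [TopologicalSpace B] {k : ℕ} {E E' : Type}
  [NormedAddCommGroup E] [NormedSpace ℝ E] [NormedAddCommGroup E'] [NormedSpace ℝ E']
  {P Q : Pb B k E}

/-- postcompose with a family of maps -/
def pf (L : B × V k E → V k E) (P : Pb B k E) : Pb B k E := ⟨P.O, fun x => L (x.1, P.h x)⟩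
/-- a second slot with the map `φ` -/
def ad (P : Pb B k E) (φ : B × V k E' → V k E') : Pb B k (E × E') :=
  ⟨{x | (x.1, s1 x.2) ∈ P.O}, fun x => pr (P.h (x.1, s1 x.2)) (φ (x.1, s2 x.2))⟩

theorem Ok.cyl (h : P.Ok) : (P.pull (Prod.fst : B × I → B)).Ok where
  op := h.op.preimage (by fun_prop)
  inv x := h.inv (x.1.1, x.2)
  ct := h.ct.comp (by fun_prop) fun _ e => e
  eq x := h.eq (x.1.1, x.2)
  cp := by
    convert (h.cp.prod (isCompact_univ (X := I))).image
      (f := fun x => ((x.1.1, x.2), x.1.2)) (by fun_prop)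
    ext x
    exact ⟨fun e => ⟨((x.1.1, x.2), x.1.2), ⟨e, trivial⟩, rfl⟩, by rintro ⟨y, e, rfl⟩; exact e.1⟩
  fr x := h.fr (x.1.1, x.2)

theorem Ok.pf (h : P.Ok) {L : B × V k E → V k E} (c : Continuous L)
    (e : ∀ b y, L (b, sh k E y) = sh k E (L (b, y))) (z : ∀ b y, L (b, y) = 0 ↔ y = 0) :
    (P.pf L).Ok where
  op := h.op
  inv := h.inv
  ct := c.comp_continuousOn (continuousOn_fst.prodMk h.ct)
  eq x hx := (congrArg (fun y => L (x.1, y)) (h.eq x hx)).trans (e _ _)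
  cp := by convert h.cp using 1; exact Set.ext fun x => and_congr_right fun _ => z _ _
  fr := h.fr

theorem Ok.ht_pf (h : P.Ok) {L : (B × I) × V k E → V k E} (c : Continuous L)
    (e : ∀ b y, L (b, sh k E y) = sh k E (L (b, y))) (z : ∀ b y, L (b, y) = 0 ↔ y = 0) :
    Eqv (P.pf fun x => L ((x.1, 0), x.2)) (P.pf fun x => L ((x.1, 1), x.2)) :=
  .rel _ _ (.inl ⟨_, h.cyl.pf c e z, ⟨rfl, fun _ _ => rfl⟩, rfl, fun _ _ => rfl⟩)

theorem Ok.ad [FiniteDimensional ℝ E'] (h : P.Ok) {φ : B × V k E' → V k E'} (c : Continuous φ)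
    (e : ∀ b y, φ (b, sh k E' y) = sh k E' (φ (b, y))) {R : ℝ} (z : ∀ b y, φ (b, y) = 0 → ‖y‖ ≤ R) :
    (P.ad φ).Ok := by
  have c1 : Continuous fun x : B × V k (E × E') => (x.1, s1 x.2) :=
    continuous_fst.prodMk (cont_s1 continuous_snd)
  refine ⟨h.op.preimage c1, fun x => h.inv (x.1, s1 x.2),
    (cont_pr continuous_fst continuous_snd).comp_continuousOn
    ((h.ct.comp c1.continuousOn fun _ e => e).prodMk (c.comp (continuous_fst.prodMk
      (cont_s2 continuous_snd))).continuousOn), fun x hx => ?_, ?_, fun x hx y => ?_⟩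
  · exact congrArg₂ pr (h.eq (x.1, s1 x.2) hx) (e x.1 (s2 x.2))
  · convert ((h.cp.prod (isCompact_closedBall (0 : V k E') R)).inter_right (isClosed_eq
      (c.comp (f := fun x => (x.1.1, x.2)) (by fun_prop)) continuous_zero)).image
      (f := fun x => (x.1.1, pr x.1.2 x.2)) (by fun_prop)
    ext x
    refine ⟨fun a => ⟨((x.1, s1 x.2), s2 x.2), ⟨⟨⟨a.1, (pr_eq_zero.1 a.2).1⟩,
      mem_closedBall_zero_iff.2 (z _ _ (pr_eq_zero.1 a.2).2)⟩, (pr_eq_zero.1 a.2).2⟩, rfl⟩, ?_⟩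
    rintro ⟨y, a, rfl⟩
    exact ⟨a.1.1.1, pr_eq_zero.2 ⟨a.1.1.2, a.2⟩⟩
  · exact h.fr _ hx (funext fun i => congrArg Prod.fst (congrFun y i))

theorem Ok.ht_ad [FiniteDimensional ℝ E'] (h : P.Ok) {φ : (B × I) × V k E' → V k E'}
    (c : Continuous φ) (e : ∀ b y, φ (b, sh k E' y) = sh k E' (φ (b, y))) {R : ℝ}
    (z : ∀ b y, φ (b, y) = 0 → ‖y‖ ≤ R) :
    Eqv (P.ad fun x => φ ((x.1, 0), x.2)) (P.ad fun x => φ ((x.1, 1), x.2)) :=
  .rel _ _ (.inl ⟨_, h.cyl.ad c e z, ⟨rfl, fun _ _ => rfl⟩, rfl, fun _ _ => rfl⟩)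

theorem Ok.st0 [FiniteDimensional ℝ E'] (h : P.Ok) : (P.st E').Ok :=
  h.ad (φ := Prod.snd) continuous_snd (fun _ _ => rfl) (R := 0) fun _ _ e => (norm_eq_zero.2 e).le

/-- `Q` on `N` is a restriction of `P` -/
theorem Ok.gm_rs (h : P.Ok) {N : Set (B × V k E)} (o : IsOpen (Q.O ∩ N))
    (i : ∀ x ∈ Q.O ∩ N, (x.1, sh k E x.2) ∈ Q.O ∩ N) (s : Q.O ∩ N ⊆ P.O)
    (e : EqOn Q.h P.h (Q.O ∩ N)) (z : P.Z ⊆ Q.O ∩ N) : Gm P (Q.rs N) := by
  refine ⟨h, ⟨o, i, (h.ct.mono s).congr e, fun x hx => ?_, ?_, fun x hx => h.fr x (s hx)⟩, s, e, z⟩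
  · exact (e (i x hx)).trans ((h.eq x (s hx)).trans (congrArg _ (e hx).symm))
  · convert h.cp using 1
    exact Set.ext fun x => ⟨fun a => ⟨s a.1, (e a.1).symm.trans a.2⟩,
      fun a => ⟨z a, (e (z a)).trans a.2⟩⟩
end Pb

/-- the part of the axioms that is shared by `pa` and `an` -/
structure Iv {B : Type} [TopologicalSpace B] {k : ℕ} {A : Type} [AddCommGroup A]
    (ν : ∀ S : Sp, Pb B k S.E → A) : Prop where
  eqv : ∀ S P Q, Pb.Eqv P Q → ν S P = ν S Q
  sum : ∀ (S : Sp) (P : Pb B k S.E) N N', P.Ok → (P.rs N).Ok → (P.rs N').Ok →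
    Disjoint N N' → P.Z ⊆ N ∪ N' → ν S P = ν S (P.rs N) + ν S (P.rs N')
  st : ∀ (S S' : Sp) (P : Pb B k S.E), P.Ok → Pe (ν (sp (S.E × S'.E)) (P.st S'.E)) (ν S P)

theorem Th.iv_pa {X A : Type} [TopologicalSpace X] [AddCommGroup A] (T : Th X A) {k : ℕ}
    (h : 16 ≤ k) : Iv (T.pa k) :=
  ⟨fun S P Q => T.pa_eqv k S P Q h, fun S P N N' => T.pa_sum k S P N N' h,
    fun S S' P => T.pa_st k S S' P h⟩

theorem Th.iv_an {X A : Type} [TopologicalSpace X] [AddCommGroup A] (T : Th X A) {k : ℕ}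
    (h : 16 ≤ k) : Iv (T.an k) :=
  ⟨fun S P Q => T.an_eqv k S P Q h, fun S P N N' => T.an_sum k S P N N' h,
    fun S S' P => T.an_st k S S' P h⟩

/-- injective linear maps are products of maps of rank one plus the identity -/
theorem gl_ind {E : Type} [AddCommGroup E] [Module ℝ E] [FiniteDimensional ℝ E]
    {S : (E →ₗ[ℝ] E) → Prop} (h1 : S 1) (h : ∀ (A : E →ₗ[ℝ] E) (f : E →ₗ[ℝ] ℝ) (v : E),
      Function.Injective A → 1 + f v ≠ 0 → S ((1 + f.smulRight v) * A) → S A)
    (A : E →ₗ[ℝ] E) (hA : Function.Injective A) : S A := by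
  induction' e : Module.finrank ℝ E - Module.finrank ℝ (LinearMap.ker (A - 1))
    using Nat.strong_induction_on with n ih generalizing A
  by_cases z : A = 1
  · exact z ▸ h1
  obtain ⟨v, hv⟩ : ∃ v, v ∉ LinearMap.ker (A - 1) := by
    by_contra! c; exact z (sub_eq_zero.1 (LinearMap.ext c))
  have m : ∀ u, u ∈ LinearMap.ker (A - 1) ↔ A u = u := fun u => by simp [sub_eq_zero]
  have hv' : A v ∉ LinearMap.ker (A - 1) := fun c => hv ((m _).2 (hA ((m _).1 c)))
  obtain ⟨f, f0, f1, f2⟩ : ∃ f : E →ₗ[ℝ] ℝ, (∀ u ∈ LinearMap.ker (A - 1), f u = 0) ∧ f v ≠ 0 ∧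
      f (A v) ≠ 0 := by
    obtain ⟨f, a, b⟩ := Submodule.exists_dual_map_eq_bot_of_notMem hv inferInstance
    obtain ⟨g, a', b'⟩ := Submodule.exists_dual_map_eq_bot_of_notMem hv' inferInstance
    have b1 : ∀ u ∈ LinearMap.ker (A - 1), f u = 0 := fun u hu => by
      simpa [b] using Submodule.mem_map_of_mem (f := f) hu
    have b2 : ∀ u ∈ LinearMap.ker (A - 1), g u = 0 := fun u hu => by
      simpa [b'] using Submodule.mem_map_of_mem (f := g) hu
    by_cases c : f (A v) = 0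
    · by_cases c' : g v = 0
      · exact ⟨f + g, fun u hu => by simp [b1 u hu, b2 u hu], by simpa [c'], by simpa [c]⟩
      · exact ⟨g, b2, c', a'⟩
    · exact ⟨f, b1, a, c⟩
  have d : 1 + f ((f (A v))⁻¹ • (v - A v)) ≠ 0 := by
    rw [map_smul, map_sub, smul_eq_mul]; field_simp; simpa using ⟨f1, f2⟩
  have inj : Function.Injective (1 + f.smulRight ((f (A v))⁻¹ • (v - A v)) : E →ₗ[ℝ] E) :=
    (injective_iff_map_eq_zero _).2 fun u hu => by
      have hu' : u + f u • (f (A v))⁻¹ • (v - A v) = 0 := hu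
      have := congrArg f hu'
      rw [map_add, map_smul, map_zero, smul_eq_mul, ← mul_one_add, mul_eq_zero] at this
      simpa [this.resolve_right d] using hu'
  refine h A f _ hA d (ih _ ?_ _ (inj.comp hA) rfl)
  have lt : LinearMap.ker (A - 1) <
      LinearMap.ker ((1 + f.smulRight ((f (A v))⁻¹ • (v - A v))) * A - 1) :=
    SetLike.lt_iff_le_and_exists.2 ⟨fun u hu => by simp [(m u).1 hu, f0 u hu], v, by
      simp [smul_smul, f2], hv⟩
  have := Submodule.finrank_lt_finrank_of_lt lt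
  have := Submodule.finrank_le
    (LinearMap.ker ((1 + f.smulRight ((f (A v))⁻¹ • (v - A v))) * A - 1))
  omega

namespace Iv
variable {B : Type} [TopologicalSpace B] {k : ℕ} {A : Type} [AddCommGroup A]
  {ν : ∀ S : Sp, Pb B k S.E → A} {S : Sp} {P : Pb B k S.E}

theorem gm (h : Iv ν) {Q : Pb B k S.E} (g : Pb.Gm P Q) : ν S P = ν S Q :=
  h.eqv _ _ _ (.rel _ _ (.inr g))

theorem emp (h : Iv ν) (o : P.Ok) (z : P.Z = ∅) : ν S P = 0 := by
  have g : Pb.Gm P (P.rs ∅) := o.gm_rs (by simp) (by simp) (by simp) (by simp) (by simp [z])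
  have := h.sum S P ∅ ∅ o g.2.1 g.2.1 (by simp) (by simp [z])
  rw [← h.gm g] at this
  exact left_eq_add.1 this

/-- the fold -/
theorem fold (h : Iv ν) (o : P.Ok) {m : ℝ} (m0 : 0 < m) :
    ν (sp (S.E × ℝ)) (P.ad fun x => rf (fun a => -m * a) x.2) = -ν (sp (S.E × ℝ)) (P.st ℝ) := by
  have bd : ∀ {A : ℝ → ℝ} {R : ℝ}, (∀ a, A a = 0 → |a| ≤ R) → ∀ y : V k ℝ, rf A y = 0 → ‖y‖ ≤ R :=
    fun hA y e => by rw [(rf_zero.1 e).1]; exact (norm_cs _).trans (hA _ (rf_zero.1 e).2)
  have ok : ∀ {A : ℝ → ℝ} {R : ℝ}, Continuous A → (∀ a, A a = 0 → |a| ≤ R) →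
      (P.ad fun x => rf A x.2).Ok := fun c hA =>
    o.ad (cont_rf (c.comp continuous_snd) continuous_snd) (fun _ => rf_sh _) fun _ => bd hA
  have ht : ∀ {A : ℝ × ℝ → ℝ} {R : ℝ}, Continuous A → (∀ s ∈ I, ∀ a, A (s, a) = 0 → |a| ≤ R) →
      ν (sp (S.E × ℝ)) (P.ad fun x => rf (fun a => A (0, a)) x.2) =
        ν (sp (S.E × ℝ)) (P.ad fun x => rf (fun a => A (1, a)) x.2) := fun {A R} c hA =>
    h.eqv _ _ _ (o.ht_ad (φ := fun x => rf (fun a => A (x.1.2, a)) x.2)
      (cont_rf (by fun_prop) continuous_snd) (fun b => rf_sh fun a => A (b.2, a))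
      fun b => bd (hA _ b.2.2))
  have mi := inv_pos.2 m0
  have b1 : ∀ a, a ≤ 1 → -m * a ≤ 1 → |a| ≤ 1 + m⁻¹ := fun a u v => abs_le.2
    ⟨by have := mul_le_mul_of_nonneg_left v mi.le; field_simp at this ⊢; nlinarith, by linarith⟩
  have e0 := ht (A := fun x => max x.2 (-m * x.2) + 1 - 2 * x.1) (R := 1 + m⁻¹) (by fun_prop)
    fun s hs a e => b1 a (by linarith [le_max_left a (-m * a), hs.2])
      (by linarith [le_max_right a (-m * a), hs.2])
  have nn : ∀ a, 0 ≤ max a (-m * a) := fun a => (le_total 0 a).elim le_max_of_le_left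
    fun e => le_max_of_le_right (by nlinarith)
  rw [h.emp (ok (R := 0) (by fun_prop) fun a e => by linarith [nn a]) (eq_empty_of_forall_notMem
    fun x hx => by linarith [nn (av k ℝ (s2 x.2)), (rf_zero.1 (pr_eq_zero.1 hx.2).2).2])] at e0
  have ca : Continuous fun x : B × V k (S.E × ℝ) => av k ℝ (s2 x.2) :=
    (av k ℝ).continuous.comp (cont_s2 continuous_snd)
  set Q := P.ad fun x => rf (fun a => max a (-m * a) + 1 - 2 * 1) x.2
  have oQ : Q.Ok := ok (R := 1 + m⁻¹) (by fun_prop) fun a e =>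
    b1 a (by linarith [le_max_left a (-m * a)]) (by linarith [le_max_right a (-m * a)])
  have sa : ∀ y : V k (S.E × ℝ), av k ℝ (s2 (sh k _ y)) = av k ℝ (s2 y) := fun y => av_sh (s2 y)
  have g1 : Pb.Gm (P.ad fun x => rf (fun a => a - 1) x.2) (Q.rs {x | 0 < av k ℝ (s2 x.2)}) :=
    (ok (R := 1) (by fun_prop) fun a e => by rw [sub_eq_zero.1 e, abs_one]).gm_rs
      (oQ.op.inter (isOpen_lt continuous_const ca))
      (fun x hx => ⟨oQ.inv x hx.1, lt_of_lt_of_eq hx.2 (sa x.2).symm⟩) inter_subset_left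
      (fun x hx => congrArg (pr _) (by
        have : 0 < av k ℝ (s2 x.2) := hx.2
        simp only [rf]; rw [max_eq_left (by nlinarith)]; ring_nf))
      fun x hx => ⟨hx.1, by
        have := (rf_zero.1 (pr_eq_zero.1 hx.2).2).2
        change 0 < av k ℝ (s2 x.2); linarith⟩
  have g2 : Pb.Gm (P.ad fun x => rf (fun a => -m * a - 1) x.2) (Q.rs {x | av k ℝ (s2 x.2) < 0}) :=
    (ok (R := 1 + m⁻¹) (by fun_prop) fun a e => b1 a (by nlinarith) (by linarith)).gm_rs
      (oQ.op.inter (isOpen_lt ca continuous_const))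
      (fun x hx => ⟨oQ.inv x hx.1, lt_of_eq_of_lt (sa x.2) hx.2⟩) inter_subset_left
      (fun x hx => congrArg (pr _) (by
        have : av k ℝ (s2 x.2) < 0 := hx.2
        simp only [rf]; rw [max_eq_right (by nlinarith)]; ring_nf))
      fun x hx => ⟨hx.1, by
        have := (rf_zero.1 (pr_eq_zero.1 hx.2).2).2
        change av k ℝ (s2 x.2) < 0; nlinarith⟩
  have e1 := h.sum (sp (S.E × ℝ)) Q _ _ oQ g1.2.1 g2.2.1
    (disjoint_left.2 fun x (a : 0 < av k ℝ (s2 x.2)) b => lt_asymm a b) fun x hx =>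
      (lt_or_gt_of_ne fun z : 0 = av k ℝ (s2 x.2) => by
        have := (rf_zero.1 (pr_eq_zero.1 hx.2).2).2
        simp only [← z] at this; norm_num at this)
  have e2 := ht (A := fun x => x.2 - x.1) (R := 1) (by fun_prop) fun s hs a e => by
    exact abs_le.2 ⟨by linarith [hs.1], by linarith [hs.2]⟩
  have e3 := ht (A := fun x => -m * x.2 - x.1) (R := 1 + m⁻¹) (by fun_prop) fun s hs a e =>
    b1 a (by nlinarith [hs.1]) (by linarith [hs.2])
  simp only [sub_zero] at e2 e3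
  rw [← h.gm (S := sp (S.E × ℝ)) g1, ← h.gm (S := sp (S.E × ℝ)) g2, ← e0, ← e2, ← e3] at e1
  rw [eq_neg_iff_add_eq_zero, add_comm, e1]
  congr 2
  exact congrArg P.ad (funext fun x => (rf_id x.2).symm)

theorem rk_zero {E : Type} [AddCommGroup E] [Module ℝ E] (f : E →ₗ[ℝ] ℝ) {v : E} (d : 1 + f v ≠ 0)
    (u : E) : u + f u • v = 0 ↔ u = 0 := ⟨fun e => by
  have := congrArg f e
  rw [map_add, map_smul, map_zero, smul_eq_mul, ← mul_one_add, mul_eq_zero] at this
  simpa [this.resolve_right d] using e, fun e => by simp [e]⟩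

/-- maps of rank one plus the identity -/
theorem rk (h : Iv ν) (o : P.Ok) (f : S.E →ₗ[ℝ] ℝ) {v : S.E} (d : 1 + f v ≠ 0) :
    Pe (ν S (P.pf fun x => rf (fun u => u + f u • v) x.2)) (ν S P) := by
  have cf := f.continuous_of_finiteDimensional
  rcases d.lt_or_gt with n | n
  swap
  · have := h.eqv _ _ _ (o.ht_pf (L := fun x => rf (fun u => u + f u • (x.1.2 : ℝ) • v) x.2)
      (cont_rf (by fun_prop) continuous_snd) (fun b => rf_sh fun u => u + f u • (b.2 : ℝ) • v)
      fun b _ => rf_zero' (rk_zero f (v := (b.2 : ℝ) • v) (by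
        rw [map_smul, smul_eq_mul]
        rcases le_total 0 (f v) with a | a <;> nlinarith [b.2.2.1, b.2.2.2])))
    simp only [Icc.coe_zero, Icc.coe_one, zero_smul, smul_zero, add_zero, one_smul] at this
    exact .inl (this.symm.trans (congrArg _ (congrArg (Pb.mk P.O) (funext fun x => rf_id _))))
  let g : ℝ → S.E × ℝ →ₗ[ℝ] ℝ := fun s =>
    √(1 - s) • f ∘ₗ LinearMap.fst ℝ _ _ + √s • LinearMap.snd ℝ _ _
  have := h.eqv (sp (S.E × ℝ)) _ _ ((o.st0 (E' := ℝ)).ht_pf (L := fun x => rf (fun u =>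
      u + g x.1.2 u • (√(1 - x.1.2) • v, √x.1.2 * f v)) x.2)
    (cont_rf (by simp only [g, LinearMap.add_apply, LinearMap.smul_apply, LinearMap.comp_apply,
      LinearMap.fst_apply, LinearMap.snd_apply]; fun_prop) continuous_snd)
    (fun b => rf_sh fun u => u + g b.2 u • (√(1 - b.2) • v, √b.2 * f v))
    fun b _ => rf_zero' (rk_zero (g b.2) (v := (√(1 - b.2) • v, √b.2 * f v)) (by
      have a1 := Real.mul_self_sqrt (sub_nonneg.2 b.2.2.2)
      have a2 := Real.mul_self_sqrt b.2.2.1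
      simp only [g, LinearMap.add_apply, LinearMap.smul_apply, LinearMap.comp_apply,
        LinearMap.fst_apply, LinearMap.snd_apply, map_smul, smul_eq_mul, ← mul_assoc, a1, a2]
      linarith)))
  have o' : (P.pf fun x => rf (fun u => u + f u • v) x.2).Ok :=
    o.pf (cont_rf (by fun_prop) continuous_snd) (fun _ => rf_sh _) fun _ _ => rf_zero' (rk_zero f d)
  refine (h.st S (sp ℝ) _ o').symm.trans (Pe.trans (.inr ?_) (h.st S (sp ℝ) _ o))
  rw [← h.fold o (neg_pos.2 n)]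
  refine Eq.trans (congrArg _ ?_) (this.trans (congrArg _ ?_))
  · refine congrArg (Pb.mk _) (funext fun x => funext fun i => ?_)
    simp [Pb.pf, Pb.st, rf, av_pr, g, pr]
  · refine congrArg (Pb.mk _) (funext fun x => funext fun i => ?_)
    simp [Pb.st, rf, av_pr, g, pr]; ring

/-- **linear maps of the invariant part** -/
theorem rfl' (h : Iv ν) (L : S.E →ₗ[ℝ] S.E) (hL : Function.Injective L) (o : P.Ok) :
    Pe (ν S (P.pf fun x => rf L x.2)) (ν S P) := by
  refine gl_ind (S := fun L => ∀ P : Pb B k S.E, P.Ok → Pe (ν S (P.pf fun x => rf L x.2)) (ν S P))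
    (fun P _ => .inl (congrArg _ (congrArg (Pb.mk P.O) (funext fun x => rf_id _))))
    (fun L f v i d a P o => ?_) L hL P o
  have cL := L.continuous_of_finiteDimensional
  have := h.rk (o.pf (L := fun x => rf L x.2) (cont_rf (by fun_prop) continuous_snd)
    (fun _ => rf_sh _) fun _ _ => rf_zero' fun _ => map_eq_zero_iff _ i) f d
  exact this.symm.trans (Pe.trans (.inl (congrArg _ (congrArg (Pb.mk P.O)
    (funext fun x => rf_rf _ _ _)))) (a P o))
end Iv

end Crest.Agent.N218.Pm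

end
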