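import Crest.Agent.N218.Pm.Defs

/-!
# Row 218 (helper41): kit for problems and proper families, part 1
-/

set_option autoImplicit false
set_option linter.unusedVariables false
set_option linter.unusedSectionVars false

open Set Topology unitInterval Filter Metric

noncomputable section

namespace Crest.Agent.N218.Pm

section lin
variable {k : ℕ} {E E' : Type} [NormedAddCommGroup E] [NormedSpace ℝ E]
  [NormedAddCommGroup E'] [NormedSpace ℝ E']

theorem two_half : (2 : Ix k) ^ k + 2 ^ k = 0 := by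
  have := ZMod.natCast_self (2 ^ (k + 1))
  push_cast at this
  linear_combination this

variable (k E) in
/-- the element of order two -/
def tL : V k E →L[ℝ] V k E := ContinuousLinearMap.pi fun i => ContinuousLinearMap.proj (i + 2 ^ k)
@[simp] theorem tL_apply (y : V k E) (i : Ix k) : tL k E y i = y (i + 2 ^ k) := rfl
theorem tL_tL (y : V k E) : tL k E (tL k E y) = y := by
  funext i; simp only [tL_apply]; rw [add_assoc, two_half, add_zero]
theorem sh_pow (n : ℕ) (y : V k E) (i : Ix k) : (sh k E)^[n] y i = y (i - n) := by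
  induction n generalizing i with
  | zero => simp
  | succ n ih => rw [Function.iterate_succ_apply', sh_apply, ih]; congr 1; push_cast; ring
theorem tL_eq (y : V k E) : tL k E y = (sh k E)^[2 ^ k] y := by
  funext i; rw [sh_pow, tL_apply]; congr 1; push_cast
  rw [eq_sub_iff_add_eq, add_assoc, two_half, add_zero]

variable (k E) in
/-- the odd part as a linear map -/
def mnL : V k E →L[ℝ] V k E := (1 / 2 : ℝ) • (1 - tL k E)
theorem mn_eq (y : V k E) : mn y = (1 / 2 : ℝ) • (y - tL k E y) := rfl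
@[simp] theorem mnL_apply (y : V k E) : mnL k E y = mn y := rfl
theorem mn_add (y z : V k E) : mn (y + z) = mn y + mn z := (mnL k E).map_add y z
theorem mn_sub (y z : V k E) : mn (y - z) = mn y - mn z := (mnL k E).map_sub y z
theorem mn_neg (y : V k E) : mn (-y) = -mn y := (mnL k E).map_neg y
theorem mn_smul (c : ℝ) (y : V k E) : mn (c • y) = c • mn y := (mnL k E).map_smul c y
@[simp] theorem mn_zero : mn (0 : V k E) = 0 := (mnL k E).map_zero
theorem tL_mn (y : V k E) : tL k E (mn y) = -mn y := by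
  rw [mn_eq, map_smul, map_sub, tL_tL, ← smul_neg, neg_sub]
@[simp] theorem mn_mn (y : V k E) : mn (mn y) = mn y := by rw [mn_eq (mn y), tL_mn]; module
theorem mn_sh (y : V k E) : mn (sh k E y) = sh k E (mn y) := by
  funext i; simp only [mn, sh_apply]; rw [add_sub_right_comm]
theorem mn_eq_zero {y : V k E} : mn y = 0 ↔ tL k E y = y := by
  rw [mn_eq, smul_eq_zero, sub_eq_zero, eq_comm (a := y)]; simp
theorem mn_eq_self {y : V k E} : mn y = y ↔ tL k E y = -y :=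
  ⟨fun h => by rw [← h, tL_mn], fun h => by rw [mn_eq, h]; module⟩
@[fun_prop] theorem cont_mn {T : Type*} [TopologicalSpace T] {y : T → V k E} (h : Continuous y) :
    Continuous fun t => mn (y t) := (mnL k E).continuous.comp h
theorem norm_sh (y : V k E) : ‖sh k E y‖ = ‖y‖ :=
  (Equiv.subRight (1 : Ix k)).surjective.pi_norm_comp y
theorem norm_tL (y : V k E) : ‖tL k E y‖ = ‖y‖ :=
  (Equiv.addRight (2 ^ k : Ix k)).surjective.pi_norm_comp y
theorem norm_mn (y : V k E) : ‖mn y‖ ≤ ‖y‖ := by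
  rw [mn_eq, norm_smul, Real.norm_of_nonneg (by norm_num)]
  linarith [norm_sub_le y (tL k E y), norm_tL y]
theorem sh_ne {y : V k E} (h : mn y ≠ 0) : mn (sh k E y) ≠ 0 := by
  rw [mn_sh, ← norm_ne_zero_iff, norm_sh]; exact norm_ne_zero_iff.2 h
/-- the odd part of the normalised point -/
theorem mn_nrm (t : ℝ) (y : V k E) : mn (y - (1 - t) • mn y) = t • mn y := by
  rw [mn_sub, mn_smul, mn_mn]; module
theorem sh_nrm (t : ℝ) (y : V k E) :
    sh k E y - (1 - t) • mn (sh k E y) = sh k E (y - (1 - t) • mn y) := by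
  rw [mn_sh, map_sub, map_smul]
/-- equivariant linear maps commute with `tL` and `mn` -/
theorem comm_tL {L : V k E →L[ℝ] V k E'} (h : ∀ y, L (sh k E y) = sh k E' (L y)) (y : V k E) :
    L (tL k E y) = tL k E' (L y) := by
  rw [tL_eq, tL_eq]; exact (Function.Semiconj.iterate_right h _) y
theorem comm_mn {L : V k E →L[ℝ] V k E'} (h : ∀ y, L (sh k E y) = sh k E' (L y)) (y : V k E) :
    L (mn y) = mn (L y) := by rw [mn_eq, mn_eq, map_smul, map_sub, comm_tL h]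
/-- equivariance under the element of order two -/
theorem eqv_tL {B : Type} {O : Set (B × V k E)} {P : B × V k E → V k E'}
    (hi : ∀ x ∈ O, (x.1, sh k E x.2) ∈ O) (he : ∀ x ∈ O, P (x.1, sh k E x.2) = sh k E' (P x))
    {x : B × V k E} (hx : x ∈ O) : (x.1, tL k E x.2) ∈ O ∧ P (x.1, tL k E x.2) = tL k E' (P x) := by
  rw [tL_eq, tL_eq]
  induction 2 ^ k with
  | zero => exact ⟨hx, rfl⟩
  | succ n ih =>
    rw [Function.iterate_succ_apply', Function.iterate_succ_apply']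
    exact ⟨hi _ ih.1, (he _ ih.1).trans (congrArg _ ih.2)⟩
@[simp] theorem s1_pr (y : V k E) (z : V k E') : s1 (pr y z) = y := rfl
@[simp] theorem s2_pr (y : V k E) (z : V k E') : s2 (pr y z) = z := rfl
theorem pr_s (w : V k (E × E')) : pr (s1 w) (s2 w) = w := rfl
theorem pr_eq_zero {y : V k E} {z : V k E'} : pr y z = 0 ↔ y = 0 ∧ z = 0 :=
  ⟨fun h => ⟨congrArg s1 h, congrArg s2 h⟩, fun h => by rw [h.1, h.2]; rfl⟩
theorem s1_mn (w : V k (E × E')) : s1 (mn w) = mn (s1 w) := rfl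
theorem s2_mn (w : V k (E × E')) : s2 (mn w) = mn (s2 w) := rfl
theorem s1_sh (w : V k (E × E')) : s1 (sh k _ w) = sh k E (s1 w) := rfl
theorem s2_sh (w : V k (E × E')) : s2 (sh k _ w) = sh k E' (s2 w) := rfl
theorem pr_sh (y : V k E) (z : V k E') : pr (sh k E y) (sh k E' z) = sh k _ (pr y z) := rfl
@[fun_prop] theorem cont_s1 {T : Type*} [TopologicalSpace T] {y : T → V k (E × E')}
    (h : Continuous y) : Continuous fun t => s1 (y t) :=
  continuous_pi fun i => continuous_fst.comp ((continuous_apply i).comp h)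
@[fun_prop] theorem cont_s2 {T : Type*} [TopologicalSpace T] {y : T → V k (E × E')}
    (h : Continuous y) : Continuous fun t => s2 (y t) :=
  continuous_pi fun i => continuous_snd.comp ((continuous_apply i).comp h)
@[fun_prop] theorem cont_pr {T : Type*} [TopologicalSpace T] {y : T → V k E} {z : T → V k E'}
    (h : Continuous y) (h' : Continuous z) : Continuous fun t => pr (y t) (z t) :=
  continuous_pi fun i => ((continuous_apply i).comp h).prodMk ((continuous_apply i).comp h')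
end lin

@[fun_prop] theorem cont_cl {T : Type*} [TopologicalSpace T] {f : T → ℝ} (h : Continuous f) :
    Continuous fun t => cl (f t) := continuous_const.max (continuous_const.min h)
theorem cl_mem (t : ℝ) : cl t ∈ Icc (0 : ℝ) 1 :=
  ⟨le_max_left _ _, max_le zero_le_one (min_le_left _ _)⟩
theorem cl_of_le {t : ℝ} (h : t ≤ 0) : cl t = 0 := max_eq_left ((min_le_right _ _).trans h)
theorem cl_of_ge {t : ℝ} (h : 1 ≤ t) : cl t = 1 := by rw [cl, min_eq_left h, max_eq_right zero_le_one]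
theorem cl_of_mem {t : ℝ} (h : t ∈ Icc (0 : ℝ) 1) : cl t = t := by
  rw [cl, min_eq_right h.2, max_eq_right h.1]

theorem Pe.rfl' {A : Type} [AddCommGroup A] (a : A) : Pe a a := .inl rfl
theorem Pe.symm {A : Type} [AddCommGroup A] {a b : A} (h : Pe a b) : Pe b a :=
  h.imp Eq.symm fun e => by rw [e, neg_neg]
theorem Pe.trans {A : Type} [AddCommGroup A] {a b c : A} (h : Pe a b) (h' : Pe b c) : Pe a c := by
  rcases h with rfl | rfl <;> rcases h' with rfl | rfl <;> simp [Pe]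
theorem Pe.neg {A : Type} [AddCommGroup A] (a : A) : Pe (-a) a := .inr rfl
theorem Pe.zero {A : Type} [AddCommGroup A] {a : A} (h : Pe a 0) : a = 0 := by simpa [Pe] using h

variable {B B' : Type} [TopologicalSpace B] [TopologicalSpace B'] {k : ℕ} {E : Type}
  [NormedAddCommGroup E] [NormedSpace ℝ E]

/-- pull-back of a compact set over a compact part of the base -/
theorem cpt_pull {W : Type} [TopologicalSpace W] [T2Space W] [T2Space B] {φ : B' → B}
    (hφ : Continuous φ) {K : Set B'} (hK : IsCompact K) {Z : Set (B × W)} (hZ : IsCompact Z) :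
    IsCompact {x : B' × W | x.1 ∈ K ∧ (φ x.1, x.2) ∈ Z} := by
  have : {x : B' × W | x.1 ∈ K ∧ (φ x.1, x.2) ∈ Z} =
      K ×ˢ (Prod.snd '' Z) ∩ (fun x : B' × W => (φ x.1, x.2)) ⁻¹' Z :=
    Set.ext fun x => ⟨fun h => ⟨⟨h.1, _, h.2, rfl⟩, h.2⟩, fun h => ⟨h.1.1, h.2⟩⟩
  rw [this]
  exact (hK.prod (hZ.image continuous_snd)).inter_right (hZ.isClosed.preimage (by fun_prop))

namespace Pb

theorem Ok.pull [T2Space B] {P : Pb B k E} (h : P.Ok) {φ : B' → B} (hφ : Continuous φ)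
    {K : Set B'} (hK : IsCompact K) (hz : ∀ x ∈ (P.pull φ).Z, x.1 ∈ K) : (P.pull φ).Ok := by
  have c : Continuous fun x : B' × V k E => (φ x.1, x.2) := by fun_prop
  refine ⟨h.op.preimage c, fun x hx => h.inv _ hx, h.ct.comp c.continuousOn fun x hx => hx,
    fun x hx => h.eq _ hx, ?_, fun x hx => h.fr _ hx⟩
  convert cpt_pull hφ hK h.cp using 1
  exact Set.ext fun x => ⟨fun e => ⟨hz x e, e⟩, fun e => e.2⟩

theorem Sm.rfl' (P : Pb B k E) : P.Sm P := ⟨rfl, fun _ _ => rfl⟩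
theorem Sm.symm {P Q : Pb B k E} (h : P.Sm Q) : Q.Sm P := ⟨h.1.symm, h.1 ▸ h.2.symm⟩
theorem Sm.z {P Q : Pb B k E} (h : P.Sm Q) : P.Z = Q.Z := Set.ext fun x =>
  ⟨fun e => ⟨h.1 ▸ e.1, (h.2 e.1).symm.trans e.2⟩, fun e => ⟨h.1 ▸ e.1, (h.2 (h.1 ▸ e.1)).trans e.2⟩⟩
theorem Ok.sm {P Q : Pb B k E} (h : P.Ok) (e : P.Sm Q) : Q.Ok :=
  ⟨e.1 ▸ h.op, e.1 ▸ h.inv, e.1 ▸ h.ct.congr e.2.symm, fun x hx => by
    rw [← e.1] at hx; rw [← e.2 hx, ← e.2 (h.inv x hx), h.eq x hx], e.z ▸ h.cp, e.1 ▸ h.fr⟩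
theorem Eqv.rfl' (P : Pb B k E) : P.Eqv P := Relation.EqvGen.refl P
theorem Eqv.symm {P Q : Pb B k E} (h : P.Eqv Q) : Q.Eqv P := Relation.EqvGen.symm _ _ h
theorem Eqv.trans {P Q R : Pb B k E} (h : P.Eqv Q) (h' : Q.Eqv R) : P.Eqv R :=
  Relation.EqvGen.trans _ _ _ h h'
theorem Ht.eqv {P Q : Pb B k E} (h : P.Ht Q) : P.Eqv Q := Relation.EqvGen.rel _ _ (.inl h)
theorem Gm.eqv {P Q : Pb B k E} (h : P.Gm Q) : P.Eqv Q := Relation.EqvGen.rel _ _ (.inr h)
theorem Ok.eqv_sm {P Q : Pb B k E} (h : P.Ok) (e : P.Sm Q) : P.Eqv Q :=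
  Gm.eqv ⟨h, h.sm e, e.1.ge, fun x hx => (e.2 (e.1 ▸ hx)).symm, fun x hx => e.1 ▸ hx.1⟩
/-- restriction to an open invariant set whose zeros form a compact set -/
theorem Ok.rs {P : Pb B k E} (h : P.Ok) {N : Set (B × V k E)} (hN : IsOpen N)
    (hi : ∀ x ∈ N, (x.1, sh k E x.2) ∈ N) (hc : IsCompact (P.Z ∩ N)) : (P.rs N).Ok :=
  ⟨h.op.inter hN, fun x hx => ⟨h.inv x hx.1, hi x hx.2⟩, h.ct.mono inter_subset_left,
    fun x hx => h.eq x hx.1, by
      convert hc using 1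
      exact Set.ext fun x => ⟨fun e => ⟨⟨e.1.1, e.2⟩, e.1.2⟩, fun e => ⟨⟨e.1.1, e.2⟩, e.1.2⟩⟩,
    fun x hx => h.fr x hx.1⟩
theorem Ok.eqv_rs {P : Pb B k E} (h : P.Ok) {N : Set (B × V k E)} (hN : IsOpen N)
    (hi : ∀ x ∈ N, (x.1, sh k E x.2) ∈ N) (hz : P.Z ⊆ N) : (P.rs N).Ok ∧ P.Eqv (P.rs N) := by
  have := h.rs hN hi (by rw [inter_eq_left.2 hz]; exact h.cp)
  exact ⟨this, Gm.eqv ⟨h, this, inter_subset_left, fun _ _ => rfl, fun x hx => ⟨hx.1, hz hx⟩⟩⟩
/-- **excision**: two problems with the same zeros and the same germ on an open invariant `N` -/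
theorem Ok.eqv_germ {P Q : Pb B k E} (hP : P.Ok) (hQ : Q.Ok) {N : Set (B × V k E)} (hN : IsOpen N)
    (hi : ∀ x ∈ N, (x.1, sh k E x.2) ∈ N) (zP : P.Z ⊆ N) (zQ : Q.Z ⊆ N)
    (e : ∀ x ∈ N, (x ∈ P.O ↔ x ∈ Q.O) ∧ (x ∈ P.O → P.h x = Q.h x)) : P.Eqv Q :=
  ((hP.eqv_rs hN hi zP).2.trans ((hP.eqv_rs hN hi zP).1.eqv_sm (Q := Q.rs N)
    ⟨Set.ext fun x => ⟨fun a => ⟨(e x a.2).1.1 a.1, a.2⟩, fun a => ⟨(e x a.2).1.2 a.1, a.2⟩⟩,
      fun x a => (e x a.2).2 a.1⟩)).trans (hQ.eqv_rs hN hi zQ).2.symm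
/-- slices of a family -/
theorem Ok.sl {T : Type} [TopologicalSpace T] [T2Space T] [T2Space B] {R : Pb (B × T) k E}
    (h : R.Ok) (t : T) : (R.pull fun b => (b, t)).Ok :=
  h.pull (by fun_prop) (h.cp.image (f := fun x => x.1.1) (by fun_prop)) fun x hx => ⟨_, hx, rfl⟩
theorem Ht.ok [T2Space B] {P Q : Pb B k E} (h : P.Ht Q) : P.Ok ∧ Q.Ok :=
  let ⟨_, a, b, c⟩ := h; ⟨(a.sl 0).sm b.symm, (a.sl 1).sm c.symm⟩
theorem Eqv.ok [T2Space B] {P Q : Pb B k E} (h : P.Eqv Q) : P.Ok ↔ Q.Ok := by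
  induction h with
  | rel _ _ h => exact h.elim (fun h => iff_of_true h.ok.1 h.ok.2) fun h => iff_of_true h.1 h.2.1
  | refl => rfl
  | symm _ _ _ h => exact h.symm
  | trans _ _ _ _ _ h h' => exact h.trans h'
theorem Ok.eqv {R : Pb (B × I) k E} (h : R.Ok) :
    (R.pull fun b => (b, 0)).Eqv (R.pull fun b => (b, 1)) := Ht.eqv ⟨R, h, Sm.rfl' _, Sm.rfl' _⟩
/-- **homotopy of base maps**: `H` continuous, zeros over a compact set -/
theorem Ok.eqv_pull [T2Space B] {P : Pb B k E} (h : P.Ok) {H : B' × I → B} (hH : Continuous H)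
    {K : Set B'} (hK : IsCompact K) (hz : ∀ b s y, (H (b, s), y) ∈ P.Z → b ∈ K) :
    (P.pull fun b => H (b, 0)).Eqv (P.pull fun b => H (b, 1)) :=
  (h.pull hH (hK.prod isCompact_univ) fun x hx => ⟨hz x.1.1 x.1.2 x.2 hx, mem_univ _⟩).eqv
/-- slices of a family over a path connected space are bordant -/
theorem Ok.eqv_sl {T : Type} [TopologicalSpace T] [T2Space T] [T2Space B] {R : Pb (B × T) k E}
    (h : R.Ok) {s t : T} (γ : Path s t) :
    (R.pull fun b => (b, s)).Eqv (R.pull fun b => (b, t)) := by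
  have := h.eqv_pull (H := fun x : B × I => (x.1, γ x.2)) (by fun_prop)
    (h.cp.image (f := fun x => x.1.1) (by fun_prop)) fun b s y hx => ⟨_, hx, rfl⟩
  simpa using this
end Pb

/-! ## proper families -/

theorem tau_ok {δ : ℝ} (hδ : 0 < δ) : Tau δ (tau δ : B × V k E → ℝ) where
  ct := by unfold tau; fun_prop
  inv x := by simp only [tau, mn_sh, norm_sh]
  mem x := cl_mem _
  z K _ := ⟨δ / 2, by positivity, fun x _ h => cl_of_le (by
    rw [sub_nonpos, div_le_one hδ]; linarith)⟩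
  o x h := cl_of_ge (by rw [le_sub_iff_add_le, le_div_iff₀ hδ]; linarith)
theorem Tau.mono {δ δ' : ℝ} {τ : B × V k E → ℝ} (h : Tau δ τ) (e : δ ≤ δ') : Tau δ' τ :=
  ⟨h.ct, h.inv, h.mem, h.z, fun x a => h.o x (e.trans a)⟩
theorem Tau.pull {δ : ℝ} {τ : B × V k E → ℝ} (h : Tau δ τ) {φ : B' → B} (hφ : Continuous φ) :
    Tau δ fun x : B' × V k E => τ (φ x.1, x.2) :=
  ⟨h.ct.comp (by fun_prop), fun x => h.inv (φ x.1, x.2), fun _ => h.mem _, fun K hK =>
    (h.z _ (hK.image hφ)).imp fun _ a => ⟨a.1, fun x b c => a.2 (φ x.1, x.2) ⟨_, b, rfl⟩ c⟩,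
    fun x => h.o (φ x.1, x.2)⟩

namespace PM
variable {A : PM B k E}

theorem Ok.pull [T2Space B] (h : A.Ok) {φ : B' → B} (hφ : Continuous φ) : (A.pull φ).Ok := by
  have c : Continuous fun x : B' × V k E => (φ x.1, x.2) := by fun_prop
  refine ⟨h.op.preimage c, fun x hx => h.inv _ hx, h.ct.comp c.continuousOn fun x hx => hx,
    fun x hx => h.eq _ hx, fun K hK R => ?_, h.nc.comp hφ, fun b => h.ne _, fun b => h.ni _⟩
  convert cpt_pull hφ hK (h.pp _ (hK.image hφ) R) using 1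
  exact Set.ext fun x => ⟨fun e => ⟨e.2.1, e.1, ⟨_, e.2.1, rfl⟩, e.2.2⟩,
    fun e => ⟨e.2.1, e.1, e.2.2.2⟩⟩
theorem F_pull (A : PM B k E) (τ : B × V k E → ℝ) (φ : B' → B) :
    (A.F τ).pull φ = (A.pull φ).F fun x => τ (φ x.1, x.2) := rfl
theorem F_pull_tau (A : PM B k E) (δ : ℝ) (φ : B' → B) :
    (A.F (tau δ)).pull φ = (A.pull φ).F (tau δ) := rfl
theorem Ec_pull (A : PM B k E) (φ : B' → B) :
    A.Ec.pull (fun b : B' × ℝ => (φ b.1, b.2)) = (A.pull φ).Ec := rfl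
theorem NoZ.mono {δ δ' : ℝ} {b : B} (h : A.NoZ δ b) (e : δ' ≤ δ) : A.NoZ δ' b :=
  fun y t a c => h y t a (c.imp_right fun d => d.trans e)
theorem Cs.mono {δ δ' : ℝ} (h : A.Cs δ) (e : δ' ≤ δ) : A.Cs δ' :=
  h.imp fun _ a => ⟨a.1, fun b c => (a.2 b c).mono e⟩
theorem NoZ.pull {δ : ℝ} {φ : B' → B} {b : B'} : (A.pull φ).NoZ δ b ↔ A.NoZ δ (φ b) := Iff.rfl
theorem Ok.n_mn (h : A.Ok) (b : B) (y : V k E) : A.n b (mn y) = mn (A.n b y) := comm_mn (h.ne b) y
theorem Ok.even (h : A.Ok) {x : B × V k E} (hx : x ∈ A.O) (e : mn x.2 = 0) : mn (A.P x) = 0 := by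
  rw [mn_eq_zero, ← (eqv_tL h.inv h.eq hx).2, mn_eq_zero.1 e]
/-- no free zero where the normalising function vanishes -/
theorem Ok.t0 (h : A.Ok) {b : B} {y : V k E} (hx : (b, y - (1 - 0 : ℝ) • mn y) ∈ A.O)
    (e : A.P (b, y - (1 - 0 : ℝ) • mn y) + (1 - 0 : ℝ) • A.n b (mn y) = 0) : mn y = 0 := by
  have a := congrArg mn e
  rw [mn_add, h.even hx (by rw [mn_nrm, zero_smul]), mn_smul, ← h.n_mn, mn_mn] at a
  exact h.ni b y (by simpa using a)

variable [FiniteDimensional ℝ E] [T2Space B]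

/-- **FOK, general form** -/
theorem fok0 (h : A.Ok) {τ : B × V k E → ℝ} (ct : Continuous τ)
    (inv : ∀ x, τ (x.1, sh k E x.2) = τ x) {K : Set B} (hK : IsCompact K) {d R : ℝ} (hd : 0 < d)
    (hz : ∀ x ∈ (A.F τ).Z, x.1 ∈ K ∧ d ≤ ‖mn x.2‖ ∧ ‖(1 - τ x) • mn x.2‖ ≤ R) : (A.F τ).Ok := by
  have c : Continuous fun x : B × V k E => (x.1, x.2 - (1 - τ x) • mn x.2) := by fun_prop
  have nc := h.nc
  have ct' : ContinuousOn (A.F τ).h (A.F τ).O :=
    (h.ct.comp c.continuousOn fun x hx => hx.2).add (Continuous.continuousOn (by fun_prop))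
  refine ⟨(isOpen_ne_fun (by fun_prop) continuous_const).inter (h.op.preimage c), fun x hx => ?_,
    ct', fun x hx => ?_, ?_, fun x hx => hx.1⟩
  · refine ⟨sh_ne hx.1, ?_⟩
    have := h.inv _ hx.2
    simpa only [inv, sh_nrm] using this
  · have := h.eq _ hx.2
    simp only [F, inv, sh_nrm, map_add, map_smul] at this ⊢
    rw [this, mn_sh, h.ne]
  obtain ⟨C, hC⟩ := hK.exists_bound_of_continuousOn nc.continuousOn
  have k1 := h.pp K hK (|C| * R)
  obtain ⟨M, hM⟩ := k1.exists_bound_of_continuousOn continuous_snd.continuousOn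
  let S : Set (B × V k E) := {x | d ≤ ‖mn x.2‖} ∩
    (fun x : B × V k E => (x.1, x.2 - (1 - τ x) • mn x.2)) ⁻¹' {x ∈ A.O | x.1 ∈ K ∧ ‖A.P x‖ ≤ |C| * R}
  have s1 : IsClosed S := (isClosed_le continuous_const (by fun_prop)).inter (k1.isClosed.preimage c)
  have s2 : S ⊆ (A.F τ).O := fun x hx => ⟨norm_pos_iff.1 (hd.trans_le hx.1), hx.2.1⟩
  have s3 : ∀ x ∈ (A.F τ).Z, x ∈ S := fun x hx => by
    obtain ⟨a, b, e⟩ := hz x hx
    refine ⟨b, hx.1.2, a, ?_⟩
    have z : A.P (x.1, x.2 - (1 - τ x) • mn x.2) = _ := eq_neg_of_add_eq_zero_left hx.2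
    change ‖A.P (x.1, x.2 - (1 - τ x) • mn x.2)‖ ≤ _
    rw [z, norm_neg, ← map_smul]
    exact ((A.n x.1).le_opNorm _).trans
      (mul_le_mul ((hC _ a).trans (le_abs_self C)) e (norm_nonneg _) (abs_nonneg C))
  have s4 : (A.F τ).Z = S ∩ (A.F τ).h ⁻¹' {0} :=
    Set.ext fun x => ⟨fun e => ⟨s3 x e, e.2⟩, fun e => ⟨s2 e.1, e.2⟩⟩
  refine (hK.prod (isCompact_closedBall (0 : V k E) (M + R))).of_isClosed_subset
    (s4 ▸ (ct'.mono s2).preimage_isClosed_of_isClosed s1 isClosed_singleton) fun x hx =>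
      ⟨(hz x hx).1, mem_closedBall_zero_iff.2 ?_⟩
  have := norm_add_le (x.2 - (1 - τ x) • mn x.2) ((1 - τ x) • mn x.2)
  rw [sub_add_cancel] at this
  exact this.trans (add_le_add (hM _ (s3 x hx).2) (hz x hx).2.2)

/-- zeros of the free part lie over points with free zeros -/
theorem NoZ.notMem {δ : ℝ} {τ : B × V k E → ℝ} (hτ : Tau δ τ) {x : B × V k E} (h : A.NoZ δ x.1) :
    x ∉ (A.F τ).Z := fun hx =>
  hx.1.1 (h x.2 _ (hτ.mem x) ((le_total δ _).imp_left (hτ.o x)) hx.1.2 hx.2)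

/-- **FOK** -/
theorem fok (h : A.Ok) {δ : ℝ} {τ : B × V k E → ℝ} (hτ : Tau δ τ) (hc : A.Cs δ) : (A.F τ).Ok := by
  obtain ⟨K, hK, hc⟩ := hc
  obtain ⟨d, hd, z⟩ := hτ.z K hK
  refine fok0 h hτ.ct hτ.inv hK hd (R := |δ|) fun x hx => ?_
  have a : x.1 ∈ K := by_contra fun n => (hc _ n).notMem hτ hx
  refine ⟨a, le_of_not_gt fun n => hx.1.1 ?_, ?_⟩
  · have u := hx.1.2
    have v := hx.2
    simp only [F, z x a n] at u v
    exact h.t0 u v
  · rcases le_total δ ‖mn x.2‖ with b | b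
    · simp [hτ.o x b]
    · rw [norm_smul, Real.norm_of_nonneg (sub_nonneg.2 (hτ.mem x).2)]
      nlinarith [(hτ.mem x).1, norm_nonneg (mn x.2), le_abs_self δ]

/-- **homotopy lemma** -/
theorem eqv_F {A : PM (B × I) k E} (h : A.Ok) {δ : ℝ} (hδ : 0 < δ) (hc : A.Cs δ) :
    ((A.pull fun b => (b, 0)).F (tau δ)).Eqv ((A.pull fun b => (b, 1)).F (tau δ)) :=
  (fok h (tau_ok hδ) hc).eqv
/-- **homotopy lemma** along a path in a parameter space -/
theorem eqv_path {T : Type} [TopologicalSpace T] [T2Space T] {A : PM (B × T) k E} (h : A.Ok)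
    {δ : ℝ} (hδ : 0 < δ) {s t : T} (γ : Path s t) {K : Set B} (hK : IsCompact K)
    (hc : ∀ b ∉ K, ∀ u, A.NoZ δ (b, γ u)) :
    ((A.pull fun b => (b, s)).F (tau δ)).Eqv ((A.pull fun b => (b, t)).F (tau δ)) := by
  have := eqv_F (h.pull (φ := fun x : B × I => (x.1, γ x.2)) (by fun_prop)) hδ
    ⟨_, hK.prod isCompact_univ, fun b hb => hc b.1 (fun a => hb ⟨a, mem_univ _⟩) b.2⟩
  simpa [pull] using this
/-- **homotopy lemma**, real parameter from `0` to `1` -/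
theorem eqv_R {A : PM (B × ℝ) k E} (h : A.Ok) {δ : ℝ} (hδ : 0 < δ) {K : Set B} (hK : IsCompact K)
    (hc : ∀ b ∉ K, ∀ u ∈ Icc (0 : ℝ) 1, A.NoZ δ (b, u)) :
    ((A.pull fun b => (b, 0)).F (tau δ)).Eqv ((A.pull fun b => (b, 1)).F (tau δ)) :=
  eqv_F (h.pull (φ := fun x : B × I => (x.1, (x.2 : ℝ))) (by fun_prop)) hδ
    ⟨_, hK.prod isCompact_univ, fun b hb => hc b.1 (fun a => hb ⟨a, mem_univ _⟩) _ b.2.2⟩
/-- independence of the normalising function -/
theorem eqv_tau (h : A.Ok) {δ : ℝ} {τ τ' : B × V k E → ℝ} (hτ : Tau δ τ) (hτ' : Tau δ τ')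
    (hc : A.Cs δ) : (A.F τ).Eqv (A.F τ') := by
  obtain ⟨K, hK, hc⟩ := hc
  have c := hτ.ct
  have c' := hτ'.ct
  have T : Tau δ fun x : (B × I) × V k E =>
      (1 - (x.1.2 : ℝ)) * τ (x.1.1, x.2) + x.1.2 * τ' (x.1.1, x.2) := by
    refine ⟨by fun_prop, fun x => ?_, fun x => ?_, fun L hL => ?_, fun x a => ?_⟩
    · rw [hτ.inv (x.1.1, x.2), hτ'.inv (x.1.1, x.2)]
    · exact convex_Icc (0 : ℝ) 1 (hτ.mem _) (hτ'.mem _) (sub_nonneg.2 x.1.2.2.2) x.1.2.2.1
        (sub_add_cancel _ _)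
    · obtain ⟨d, a, b⟩ := hτ.z _ (hL.image continuous_fst)
      obtain ⟨d', a', b'⟩ := hτ'.z _ (hL.image continuous_fst)
      refine ⟨min d d', lt_min a a', fun x e f => ?_⟩
      rw [b (x.1.1, x.2) ⟨_, e, rfl⟩ (f.trans_le (min_le_left _ _)),
        b' (x.1.1, x.2) ⟨_, e, rfl⟩ (f.trans_le (min_le_right _ _))]; simp
    · rw [hτ.o (x.1.1, x.2) a, hτ'.o (x.1.1, x.2) a]; ring
  have := (fok (h.pull continuous_fst) T
    ⟨_, hK.prod isCompact_univ, fun b hb => hc b.1 fun a => hb ⟨a, mem_univ _⟩⟩).eqv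
  simpa [F_pull, pull] using this
theorem eqv_del (h : A.Ok) {δ δ' : ℝ} (h' : 0 < δ') (e : δ' ≤ δ) (hc : A.Cs δ) :
    (A.F (tau δ)).Eqv (A.F (tau δ')) :=
  eqv_tau h (tau_ok (h'.trans_le e)) ((tau_ok h').mono e) hc
end PM

end Crest.Agent.N218.Pm
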