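import Crest.Agent.N218.Pm.Loop0
import Crest.Agent.N218.Pm.Kit1

/-!
# Row 218, block ALG (helper93): `loop : LOOP`
-/

set_option autoImplicit false
set_option linter.unusedVariables false
set_option linter.unusedSectionVars false

open Set Topology unitInterval

noncomputable section

namespace Crest.Agent.N218.Pm
open Lo

namespace Data
variable {X E₁ E₂ : Type} [TopologicalSpace X] [NormedAddCommGroup E₁] [InnerProductSpace ℂ E₁]
  [FiniteDimensional ℂ E₁] [NormedAddCommGroup E₂] [InnerProductSpace ℂ E₂]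
  [FiniteDimensional ℂ E₂] {D : Data X E₁ E₂} {k : ℕ} {c κ R₀ M : ℝ}

variable (D k) in
/-- the unrolled orbit family; the last parameter scales the diagonal -/
def LR : PM ((X × ℝ) × I) k (E₁ × E₂) :=
  ⟨{w | ∀ i, (w.1.1.1, Fo.g (-w.1.1.2) (s1 w.2) i) ∈ D.Ov},
    fun w => pr (fun i => s1 w.2 i - (w.1.2 : ℝ) • D.π₁ w.1.1.1 (s1 w.2 i) - D.u (w.1.1.1, s2 w.2 i))
      ((fun i => s2 w.2 i - (w.1.2 : ℝ) • D.π₂ w.1.1.1 (s2 w.2 i)) -
        Fo.g w.1.1.2 fun i => D.v (w.1.1.1, Fo.g (-w.1.1.2) (s1 w.2) i)),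
    fun b => D.nu k b.1.1 0 (Real.pi * (1 - b.2))⟩

theorem LR_bd (h : D.Ok c κ R₀ M) (R : ℝ) : ∃ R', ∀ w ∈ (D.LR k).O, ‖(D.LR k).P w‖ ≤ R →
    ‖w.2‖ ≤ R' ∧ ∀ i, ‖D.v (w.1.1.1, Fo.g (-w.1.1.2) (s1 w.2) i)‖ ≤ R' ∧
      ‖Fo.g (-w.1.1.2) (s1 w.2) i‖ ≤ R' := by
  set q : ℝ := ((2 ^ (k + 1) : ℕ) : ℝ) with hq
  have q1 : 1 ≤ q := Nat.one_le_cast.2 Nat.one_le_two_pow
  set a := |R| + q * |R₀|
  set b := 2 * a + |M|
  set e := |R| + |R₀| + a
  refine ⟨q * (b + 3 * e), ?_⟩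
  rintro ⟨⟨⟨x, r⟩, l⟩, w⟩ hw hP
  have a0 : 0 ≤ a := by positivity
  have b0 : 0 ≤ b := by positivity
  have e0 : 0 ≤ e := by positivity
  have l0 := l.2.1
  have l1 := l.2.2
  have sm : ∀ {F : Type} [NormedAddCommGroup F] [NormedSpace ℝ F] (y : F) {t : ℝ}, 0 ≤ t → t ≤ 1 →
      ‖t • y‖ ≤ ‖y‖ := fun y t t0 t1 => by
    rw [norm_smul, Real.norm_of_nonneg t0]; nlinarith [norm_nonneg y]
  set y := s1 w
  set z := s2 w
  set Y := Fo.g (-r) y
  set A : V k E₂ := fun i => D.v (x, Y i)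
  have e1 : ∀ i, ‖y i - (l : ℝ) • D.π₁ x (y i) - D.u (x, z i)‖ ≤ |R| := fun i =>
    ((norm_fst_le _).trans ((norm_le_pi_norm _ i).trans hP)).trans (le_abs_self R)
  have e2 : ∀ i, ‖z i - (l : ℝ) • D.π₂ x (z i) - Fo.g r A i‖ ≤ |R| := fun i =>
    ((norm_snd_le _).trans ((norm_le_pi_norm _ i).trans hP)).trans (le_abs_self R)
  have p1 : ∀ i, ‖D.π₁ x (y i)‖ ≤ q * |R₀| := fun i => by
    refine (Fo.le_n2 (fun j => D.π₁ x (y j)) i).trans ?_
    rw [← Fo.n2_g (-r)]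
    refine Fo.n2_le _ fun j => ?_
    rw [← g_N]
    exact (h.vb _ (hw j)).trans (le_abs_self _)
  have p2 : ∀ i, ‖D.π₁ x (D.u (x, z i))‖ ≤ a := fun i => by
    have t := (pr_le h.p₁ x _).trans (e1 i)
    have u : D.π₁ x (D.u (x, z i)) = (1 - l : ℝ) • D.π₁ x (y i) -
        D.π₁ x (y i - (l : ℝ) • D.π₁ x (y i) - D.u (x, z i)) := by
      rw [map_sub, map_sub, ContinuousLinearMap.map_smul_of_tower, h.p₁.id]; module
    rw [u]
    exact (norm_sub_le _ _).trans (by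
      have := (sm (D.π₁ x (y i)) (by linarith : 0 ≤ 1 - (l : ℝ)) (by linarith)).trans (p1 i)
      simp only [a]; linarith)
  have p3 : ∀ i, ‖D.π₂ x (z i)‖ ≤ |R₀| + a := fun i => by
    by_cases t : R₀ ≤ ‖D.π₂ x (z i)‖
    · have := (h.ux x _ t).trans (p2 i)
      nlinarith [mul_nonneg h.hκ.le (norm_nonneg (D.π₂ x (z i))), abs_nonneg R₀]
    · linarith [le_abs_self R₀, not_le.1 t]
  have p4 : ∀ i, ‖y i‖ ≤ b := fun i => by
    have u : y i = (y i - (l : ℝ) • D.π₁ x (y i) - D.u (x, z i)) + (l : ℝ) • D.π₁ x (y i) +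
        (D.u (x, z i) - D.π₁ x (D.u (x, z i))) + D.π₁ x (D.u (x, z i)) := by abel
    have t := norm_add₄_le (a := y i - (l : ℝ) • D.π₁ x (y i) - D.u (x, z i))
      (b := (l : ℝ) • D.π₁ x (y i)) (c := D.u (x, z i) - D.π₁ x (D.u (x, z i)))
      (d := D.π₁ x (D.u (x, z i)))
    rw [← u] at t
    have := (sm _ l0 l1).trans (p1 i)
    have := h.ub x (z i)
    simp only [b, a] at *
    linarith [e1 i, p2 i, le_abs_self M]
  have p5 : ∀ i, ‖Fo.g r A i‖ ≤ e := fun i => by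
    have t := (pr_le h.p₂ x _).trans (e2 i)
    have v : D.π₂ x (Fo.g r A i) = Fo.g r A i := by
      rw [g_N, show (fun j => D.π₂ x (A j)) = A from funext fun j => h.vp _ (hw j)]
    have u : Fo.g r A i = (1 - l : ℝ) • D.π₂ x (z i) -
        D.π₂ x (z i - (l : ℝ) • D.π₂ x (z i) - Fo.g r A i) := by
      rw [map_sub, map_sub, ContinuousLinearMap.map_smul_of_tower, h.p₂.id, v]; module
    rw [u]
    exact (norm_sub_le _ _).trans (by
      have := (sm (D.π₂ x (z i)) (by linarith : 0 ≤ 1 - (l : ℝ)) (by linarith)).trans (p3 i)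
      simp only [e]; linarith)
  have p6 : ∀ i, ‖z i‖ ≤ 3 * e := fun i => by
    have u : z i = (z i - (l : ℝ) • D.π₂ x (z i) - Fo.g r A i) + (l : ℝ) • D.π₂ x (z i) +
        Fo.g r A i := by abel
    have t := norm_add₃_le (a := z i - (l : ℝ) • D.π₂ x (z i) - Fo.g r A i)
      (b := (l : ℝ) • D.π₂ x (z i)) (c := Fo.g r A i)
    rw [← u] at t
    have := (sm _ l0 l1).trans (p3 i)
    have := p5 i
    simp only [e] at *
    linarith [e2 i, abs_nonneg R, abs_nonneg R₀]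
  have k1 : b + 3 * e ≤ q * (b + 3 * e) := le_mul_of_one_le_left (by positivity) q1
  refine ⟨(pi_norm_le_iff_of_nonneg (by positivity)).2 fun i => ?_, fun i => ⟨?_, ?_⟩⟩
  · exact norm_prod_le_iff.2 ⟨(p4 i).trans (by linarith), (p6 i).trans (by linarith)⟩
  · refine (Fo.le_n2 A i).trans ?_
    rw [← Fo.n2_g r]
    exact (Fo.n2_le _ p5).trans (mul_le_mul_of_nonneg_left (by linarith) (by positivity))
  · refine (Fo.le_n2 Y i).trans ?_
    rw [Fo.n2_g]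
    exact (Fo.n2_le _ p4).trans (mul_le_mul_of_nonneg_left (by linarith) (by positivity))

theorem LR_ok [T2Space X] (h : D.Ok c κ R₀ M) : (D.LR k).Ok := by
  have cY : ∀ i, Continuous fun w : ((X × ℝ) × I) × V k (E₁ × E₂) =>
      (w.1.1.1, Fo.g (-w.1.1.2) (s1 w.2) i) := fun i =>
    (by fun_prop : Continuous fun w : ((X × ℝ) × I) × V k (E₁ × E₂) => w.1.1.1).prodMk
      ((continuous_apply i).comp (Fo.cont_g (by fun_prop) (by fun_prop)))
  have c1 := h.p₁.ct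
  have c2 := h.p₂.ct
  have cu := h.uc
  have ct : ContinuousOn (D.LR k).P (D.LR k).O := by
    have a : ContinuousOn (fun w : ((X × ℝ) × I) × V k (E₁ × E₂) => fun i =>
        D.v (w.1.1.1, Fo.g (-w.1.1.2) (s1 w.2) i)) (D.LR k).O :=
      continuousOn_pi.2 fun i => h.vc.comp (cY i).continuousOn fun w hw => hw i
    have b : Continuous fun p : (((X × ℝ) × I) × V k (E₁ × E₂)) × V k E₂ =>
        pr (fun i => s1 p.1.2 i - (p.1.1.2 : ℝ) • D.π₁ p.1.1.1.1 (s1 p.1.2 i) -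
          D.u (p.1.1.1.1, s2 p.1.2 i))
        ((fun i => s2 p.1.2 i - (p.1.1.2 : ℝ) • D.π₂ p.1.1.1.1 (s2 p.1.2 i)) -
          Fo.g p.1.1.1.2 p.2) := by
      refine cont_pr (continuous_pi fun i => ?_) (Continuous.sub (continuous_pi fun i => ?_) ?_)
      · unfold s1 s2; fun_prop
      · unfold s2; fun_prop
      · fun_prop
    exact b.comp_continuousOn (continuousOn_id.prodMk a)
  refine ⟨?_, fun w hw i => ?_, ct, fun w hw => ?_, fun K hK R => ?_,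
    nu_cont h (by fun_prop) (by fun_prop) (by fun_prop), fun b y => rfl,
    fun b y e => nu_inj h _ _ _ e⟩
  · change IsOpen {w : ((X × ℝ) × I) × V k (E₁ × E₂) | ∀ i, _ ∈ D.Ov}
    rw [ofPred_forall]
    exact isOpen_iInter_of_finite fun i => h.vo.preimage (cY i)
  · change (_, Fo.g _ (sh k E₁ (s1 w.2)) i) ∈ D.Ov
    rw [g_sh']
    exact hw (i - 1)
  · change pr _ (_ - Fo.g w.1.1.2 fun i => D.v (w.1.1.1, Fo.g (-w.1.1.2) (sh k E₁ (s1 w.2)) i)) =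
      pr _ (_ - sh k E₂ (Fo.g _ _))
    rw [g_sh' (-w.1.1.2), ← g_sh' w.1.1.2]
    rfl
  · obtain ⟨R', b⟩ := LR_bd (k := k) h R
    refine pp_of (C := (K ×ˢ Metric.closedBall 0 R') ∩ ⋂ i, (fun w => (w.1.1.1,
      Fo.g (-w.1.1.2) (s1 w.2) i)) ⁻¹' {w ∈ D.Ov | ‖D.v w‖ ≤ R' ∧ ‖w.2‖ ≤ R'}) ct
      ((hK.prod (isCompact_closedBall _ _)).inter_right
        (isClosed_iInter fun i => (h.vk R').isClosed.preimage (cY i)))
      (fun w hw i => (mem_iInter.1 hw.2 i).1) hK fun w hw t p => ?_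
    obtain ⟨b1, b2⟩ := b w hw p
    exact ⟨⟨t, mem_closedBall_zero_iff.2 b1⟩, mem_iInter.2 fun i => ⟨hw i, b2 i⟩⟩

variable (D k) in
/-- the orbit family over the circle -/
def LC : PM ((X × UnitAddCircle) × I) k (E₁ × E₂) :=
  (D.LR k).pull fun b => ((b.1.1, rep b.1.2), b.2)

theorem g_per (r : ℝ) (m : ℤ) (y : V k E₁) (i : Ix k) :
    Fo.g (-(r + m)) y i = Fo.g (-r) y (i + ((-m : ℤ) : Ix k)) := by
  rw [show -(r + m) = ((-m : ℤ) : ℝ) + -r by push_cast; ring, Fo.g_add, g_int]; rfl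

theorem LC_ok [T2Space X] (h : D.Ok c κ R₀ M) : (D.LC k).Ok := by
  refine desc (φ := Prod.map (Prod.map id (↑)) id)
    ((IsOpenQuotientMap.id.prodMap QuotientAddGroup.isOpenQuotientMap_mk).prodMap .id)
    (fun K hK => ⟨((Prod.fst '' (Prod.fst '' K)) ×ˢ Icc 0 1) ×ˢ univ,
      (((hK.image continuous_fst).image continuous_fst).prod isCompact_Icc).prod isCompact_univ,
      fun b hb => ⟨((b.1.1, rep b.1.2), b.2), ⟨⟨⟨_, ⟨_, hb, rfl⟩, rfl⟩, rep_mem _⟩, trivial⟩, ?_⟩⟩)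
    (LR_ok h) ?_ ?_ fun b => rfl
  · simp [coe_rep]
  · rintro ⟨⟨x, r⟩, l⟩ y
    change (∀ i, (x, Fo.g (-rep (r : UnitAddCircle)) (s1 y) i) ∈ D.Ov) ↔
      ∀ i, (x, Fo.g (-r) (s1 y) i) ∈ D.Ov
    simp only [rep_coe, g_per]
    exact ⟨fun a i => by simpa using a (i - ((- -⌊r⌋ : ℤ) : Ix k)), fun a i => a _⟩
  · rintro ⟨⟨x, r⟩, l⟩ y -
    change pr _ (_ - Fo.g (rep (r : UnitAddCircle)) fun i =>
      D.v (x, Fo.g (-rep (r : UnitAddCircle)) (s1 y) i)) = pr _ (_ - Fo.g r _)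
    simp only [rep_coe, g_per]
    congr 2
    rw [Fo.g_add, g_int]
    congr 1
    funext i
    simp [Fo.sh]

end Data

/-- **LOOP** -/
theorem loop : LOOP := by
  intro X _ _ _ A _ T E₁ E₂ _ _ _ _ _ _ D c κ R₀ M k δ h hk hδ
  have cs : (D.LC k).Cs δ := ⟨univ, isCompact_univ, fun b hb => absurd trivial hb⟩
  have ok := PM.fok (Data.LC_ok (k := k) h) (tau_ok hδ) cs
  have e := PM.eqv_F (Data.LC_ok (k := k) h) hδ cs
  have e0 : (D.LC k).pull (fun b => (b, 0)) = D.Lo k := by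
    simp only [Data.LC, Data.LR, PM.pull, Data.Lo, PM.wn, Data.K, Tg, neg_neg]
    congr 1
    · funext w; simp [Pi.sub_def]
    · funext b; simp
  have e1 : (D.LC k).pull (fun b => (b, 1)) = D.Orb k := by
    simp only [Data.LC, Data.LR, PM.pull, Data.Orb]
    congr 1
    · funext w; simp
    · funext b; simp [nu_zero]
  have o0 : (((D.LC k).pull fun b => (b, 0)).F (tau δ)).Ok := ok.sl 0
  have o1 : (((D.LC k).pull fun b => (b, 1)).F (tau δ)).Ok := ok.sl 1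
  rw [e0, e1] at e
  rw [e0] at o0
  rw [e1] at o1
  exact ⟨o0, o1, T.an_eqv k (sp (E₁ × E₂)) _ _ hk e⟩

end Crest.Agent.N218.Pm

end
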