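import Crest.Agent.N218.Pm.AlgD
import Crest.Agent.N218.Fo.L2

/-!
# Row 218, block ALG (helper93): descent of proper families, the unrolled orbit family
-/

set_option autoImplicit false
set_option linter.unusedVariables false
set_option linter.unusedSectionVars false

open Set Topology unitInterval

noncomputable section

namespace Crest.Agent.N218.Pm.Lo

section gen
variable {B B' : Type} [TopologicalSpace B] [TopologicalSpace B'] {k : ℕ} {E : Type}
  [NormedAddCommGroup E] [NormedSpace ℝ E]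

/-- properness from an a-priori compact set -/
theorem pp_of [T2Space B] {O C : Set (B × V k E)} {P : B × V k E → V k E} (hP : ContinuousOn P O)
    (hC : IsCompact C) (hO : C ⊆ O) {K : Set B} (hK : IsCompact K) {R : ℝ}
    (h : ∀ x ∈ O, x.1 ∈ K → ‖P x‖ ≤ R → x ∈ C) : IsCompact {x ∈ O | x.1 ∈ K ∧ ‖P x‖ ≤ R} := by
  have e : {x ∈ O | x.1 ∈ K ∧ ‖P x‖ ≤ R} = (C ∩ (fun x => ‖P x‖) ⁻¹' Iic R) ∩ Prod.fst ⁻¹' K := by
    ext x
    exact ⟨fun a => ⟨⟨h x a.1 a.2.1 a.2.2, a.2.2⟩, a.2.1⟩, fun a => ⟨hO a.1.1, a.2, a.1.2⟩⟩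
  rw [e]
  exact (hC.of_isClosed_subset ((hP.mono hO).norm.preimage_isClosed_of_isClosed hC.isClosed
    isClosed_Iic) inter_subset_left).inter_right (hK.isClosed.preimage continuous_fst)

/-- descent along an open quotient map -/
theorem desc [T2Space B] {φ : B' → B} (hφ : IsOpenQuotientMap φ)
    (hK : ∀ K, IsCompact K → ∃ K', IsCompact K' ∧ K ⊆ φ '' K') {A : PM B k E} {A' : PM B' k E}
    (h : A'.Ok) (hO : ∀ b y, (φ b, y) ∈ A.O ↔ (b, y) ∈ A'.O)
    (hP : ∀ b y, (b, y) ∈ A'.O → A.P (φ b, y) = A'.P (b, y)) (hn : ∀ b, A.n (φ b) = A'.n b) :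
    A.Ok := by
  have q : IsOpenQuotientMap (Prod.map φ (id : V k E → V k E)) := hφ.prodMap .id
  have e : Prod.map φ id ⁻¹' A.O = A'.O := Set.ext fun x => hO x.1 x.2
  refine ⟨q.isQuotientMap.isOpen_preimage.1 (e ▸ h.op), ?_, ?_, ?_, ?_, ?_, ?_, ?_⟩
  · rintro ⟨b, y⟩ hx
    obtain ⟨b, rfl⟩ := hφ.surjective b
    exact (hO _ _).2 (h.inv (b, y) ((hO _ _).1 hx))
  · rintro ⟨b, y⟩ hx
    obtain ⟨b, rfl⟩ := hφ.surjective b
    have hx' := (hO _ _).1 hx
    refine (ContinuousAt.continuousWithinAt ?_)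
    refine (q.continuousAt_comp_iff (x := (b, y))).1 ?_
    refine ((h.ct _ hx').continuousAt (h.op.mem_nhds hx')).congr ?_
    filter_upwards [h.op.mem_nhds hx'] with z hz
    exact (hP z.1 z.2 hz).symm
  · rintro ⟨b, y⟩ hx
    obtain ⟨b, rfl⟩ := hφ.surjective b
    have hx' := (hO _ _).1 hx
    rw [hP _ _ hx', hP _ _ (h.inv _ hx')]
    exact h.eq _ hx'
  · intro K hK0 R
    obtain ⟨K', c, s⟩ := hK K hK0
    have := (h.pp _ (c.inter_right (hK0.isClosed.preimage hφ.continuous)) R).image q.continuous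
    convert this using 1
    ext ⟨b, y⟩
    constructor
    · rintro ⟨a1, a2, a3⟩
      obtain ⟨b, hb, rfl⟩ := s a2
      have hx' := (hO _ _).1 a1
      exact ⟨(b, y), ⟨hx', ⟨hb, a2⟩, hP _ _ hx' ▸ a3⟩, rfl⟩
    · rintro ⟨⟨b, y⟩, ⟨a1, a2, a3⟩, e⟩
      obtain ⟨rfl, rfl⟩ := Prod.ext_iff.1 e
      exact ⟨(hO _ _).2 a1, a2.2, (hP _ _ a1).symm ▸ a3⟩
  · rw [← hφ.continuous_comp_iff]
    exact h.nc.congr fun b => (hn b).symm
  · intro b y
    obtain ⟨b, rfl⟩ := hφ.surjective b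
    rw [hn]; exact h.ne b y
  · intro b y
    obtain ⟨b, rfl⟩ := hφ.surjective b
    rw [hn]; exact h.ni b y
end gen

theorem rep_coe (r : ℝ) : rep (r : UnitAddCircle) = r + ((-⌊r⌋ : ℤ) : ℝ) := by
  rw [rep, AddCircle.coe_equivIco_mk_apply]; simp [Int.fract, sub_eq_add_neg]

theorem coe_rep (t : UnitAddCircle) : ((rep t : ℝ) : UnitAddCircle) = t :=
  (AddCircle.equivIco 1 0).symm_apply_apply t

theorem rep_mem (t : UnitAddCircle) : rep t ∈ Icc (0 : ℝ) 1 := by
  have := (AddCircle.equivIco 1 0 t).2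
  exact ⟨this.1, this.2.le.trans_eq (zero_add _)⟩

section fo
variable {q : ℕ} [NeZero q] {E : Type} [NormedAddCommGroup E] [NormedSpace ℂ E]

theorem g_int (m : ℤ) (y : ZMod q → E) : Fo.g (m : ℝ) y = Fo.sh (m : ZMod q) y := by
  induction m using Int.induction_on generalizing y with
  | zero => simp [Fo.g_zero, Fo.sh_zero]
  | succ n ih =>
    have := ih (Fo.sh 1 y)
    push_cast at this ⊢
    rw [Fo.g_add, Fo.g_one, this, Fo.sh_sh]
  | pred n ih =>
    have := ih (Fo.sh (-1) y)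
    push_cast at this ⊢
    rw [sub_eq_add_neg, Fo.g_add, Fo.g_neg_one, this, Fo.sh_sh, sub_eq_add_neg]

theorem g_N {F : Type} [NormedAddCommGroup F] [NormedSpace ℂ F] (r : ℝ) (A : E →L[ℂ] F)
    (y : ZMod q → E) (i : ZMod q) : A (Fo.g r y i) = Fo.g r (fun j => A (y j)) i :=
  (congrFun (Fo.mu_N _ A y) i).symm
end fo

theorem sh_fo {k : ℕ} {E : Type} [NormedAddCommGroup E] [NormedSpace ℂ E] (y : V k E) :
    sh k E y = Fo.sh (-1) y := funext fun i => by simp [Fo.sh, sub_eq_add_neg]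

theorem g_sh' {k : ℕ} {E : Type} [NormedAddCommGroup E] [NormedSpace ℂ E] (r : ℝ) (y : V k E) :
    Fo.g r (sh k E y) = sh k E (Fo.g r y) := by rw [sh_fo, sh_fo, Fo.g_sh]

section pr
variable {X E : Type} [TopologicalSpace X] [NormedAddCommGroup E] [InnerProductSpace ℂ E]
  {π : X → E →L[ℂ] E}

theorem pr_le (h : IsPr π) (x : X) (y : E) : ‖π x y‖ ≤ ‖y‖ := by
  have a : inner ℂ (π x y) (π x y) = inner ℂ y (π x y) := by rw [h.sa, h.id]
  have b := norm_inner_le_norm (𝕜 := ℂ) y (π x y)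
  rw [← a, inner_self_eq_norm_sq_to_K] at b
  simp only [norm_pow, RCLike.norm_ofReal, abs_norm] at b
  by_contra c
  nlinarith [norm_nonneg y, not_le.1 c]

theorem rot_ap (p : E →L[ℂ] E) (a : ℝ) (y : E) :
    rot p a y = y + (Complex.exp (a * Complex.I) - 1) • p y := rfl

theorem rot_0 (p : E →L[ℂ] E) (y : E) : rot p 0 y = y := by simp [rot_ap]

theorem rot_inj' (h : IsPr π) (x : X) (a : ℝ) {y : E} (e : rot (π x) a y = 0) : y = 0 := by
  rw [rot_ap] at e
  have b := congrArg (π x) e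
  rw [map_add, map_smul, h.id, map_zero, sub_smul, one_smul, add_sub_cancel, smul_eq_zero] at b
  rw [b.resolve_left (Complex.exp_ne_zero _)] at e
  simpa using e

theorem rot_cont' (h : IsPr π) {B : Type} [TopologicalSpace B] {x : B → X} {a : B → ℝ}
    (hx : Continuous x) (ha : Continuous a) : Continuous fun b => rot (π (x b)) (a b) := by
  have := h.ct.comp hx
  refine (ContinuousLinearMap.restrictScalarsL ℂ E E ℝ ℝ).continuous.comp
    (f := fun b => 1 + (Complex.exp (a b * Complex.I) - 1) • π (x b)) ?_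
  have e : Continuous fun b => Complex.exp (a b * Complex.I) - 1 := by fun_prop
  exact continuous_const.add (e.smul this)
end pr

section data
variable {X E₁ E₂ : Type} [TopologicalSpace X] [NormedAddCommGroup E₁] [InnerProductSpace ℂ E₁]
  [FiniteDimensional ℂ E₁] [NormedAddCommGroup E₂] [InnerProductSpace ℂ E₂]
  [FiniteDimensional ℂ E₂] {D : Data X E₁ E₂} {k : ℕ} {c κ R₀ M : ℝ}

theorem nu_apply (x : X) (a b : ℝ) (w : V k (E₁ × E₂)) (i : Ix k) :
    D.nu k x a b w i = (rot (D.π₁ x) a (w i).1, rot (D.π₂ x) b (w i).2) := rfl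

theorem nu_zero (x : X) : D.nu k x 0 0 = 1 := by
  ext1 w; funext i; rw [nu_apply, rot_0, rot_0]; rfl

theorem nu_inj (h : D.Ok c κ R₀ M) (x : X) (a b : ℝ) {w : V k (E₁ × E₂)}
    (e : D.nu k x a b w = 0) : w = 0 := funext fun i => by
  have := congrFun e i
  rw [nu_apply] at this
  exact Prod.ext (rot_inj' h.p₁ x a (congrArg Prod.fst this))
    (rot_inj' h.p₂ x b (congrArg Prod.snd this))

theorem nu_cont (h : D.Ok c κ R₀ M) {B : Type} [TopologicalSpace B] {x : B → X} {a b : B → ℝ}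
    (hx : Continuous x) (ha : Continuous a) (hb : Continuous b) :
    Continuous fun t => D.nu k (x t) (a t) (b t) := by
  refine continuous_clm_apply.2 fun w => continuous_pi fun i => ?_
  simp only [nu_apply]
  exact ((rot_cont' h.p₁ hx ha).clm_apply continuous_const).prodMk
    ((rot_cont' h.p₂ hx hb).clm_apply continuous_const)

end data

end Crest.Agent.N218.Pm.Lo

end
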