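import Crest.Agent.N218.Pm.AlgD
import Crest.Agent.N218.Fo.L2

/-! # Row 218, block ALG (helper54): the arcs are proper families -/

set_option autoImplicit false
set_option linter.unusedVariables false
set_option linter.unusedSectionVars false

open Set Topology

noncomputable section

namespace Crest.Agent.N218.Pm

namespace Ar
open Fo (n2)

section gen
variable {k : ℕ} {E F : Type} [NormedAddCommGroup E] [NormedAddCommGroup F]

theorem ok_of [NormedSpace ℝ E] [ProperSpace E] {B Dm : Type} [TopologicalSpace B] [T2Space B]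
    [TopologicalSpace Dm] [T2Space Dm] {A : PM B k E} (a : B × V k E → Ix k → Dm)
    (ca : ∀ i, Continuous fun x => a x i) {O : Set Dm} (op : IsOpen O)
    (hO : ∀ x, x ∈ A.O ↔ ∀ i, a x i ∈ O) (ha : ∀ x i, a (x.1, sh k E x.2) i = a x (i - 1))
    (ct : ContinuousOn A.P A.O) (eq : ∀ x, A.P (x.1, sh k E x.2) = sh k E (A.P x))
    (hn : ∀ b, A.n b = 1)
    (bd : ∀ K, IsCompact K → ∀ R : ℝ, ∃ (R' : ℝ) (C : Set Dm), IsCompact C ∧ C ⊆ O ∧
      ∀ x ∈ A.O, x.1 ∈ K → ‖A.P x‖ ≤ R → ‖x.2‖ ≤ R' ∧ ∀ i, a x i ∈ C) : A.Ok where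
  op := by
    rw [show A.O = ⋂ i, (fun x => a x i) ⁻¹' O from Set.ext fun x => by simp [hO]]
    exact isOpen_iInter_of_finite fun i => op.preimage (ca i)
  inv x m := (hO _).2 fun i => ha x i ▸ (hO x).1 m _
  ct := ct
  eq x _ := eq x
  pp K hK R := by
    obtain ⟨R', C, hC, s, b⟩ := bd K hK R
    have k1 : IsCompact (K ×ˢ Metric.closedBall (0 : V k E) R' ∩ ⋂ i, (fun x => a x i) ⁻¹' C) :=
      (hK.prod (isCompact_closedBall _ _)).inter_right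
        (isClosed_iInter fun i => hC.isClosed.preimage (ca i))
    have s1 : K ×ˢ Metric.closedBall (0 : V k E) R' ∩ ⋂ i, (fun x => a x i) ⁻¹' C ⊆ A.O :=
      fun x m => (hO x).2 fun i => s (mem_iInter.1 m.2 i)
    have k2 := k1.of_isClosed_subset ((ct.mono s1).norm.preimage_isClosed_of_isClosed k1.isClosed
      (isClosed_Iic (a := R))) inter_subset_left
    convert k2 using 1
    ext x
    exact ⟨fun m => ⟨⟨⟨m.2.1, mem_closedBall_zero_iff.2 (b x m.1 m.2.1 m.2.2).1⟩,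
      mem_iInter.2 (b x m.1 m.2.1 m.2.2).2⟩, m.2.2⟩, fun m => ⟨s1 m.1, m.1.1.1, m.2⟩⟩
  nc := by rw [show A.n = fun _ => 1 from funext hn]; exact continuous_const
  ne b y := by rw [hn]; rfl
  ni b y := by rw [hn]; exact id

theorem pr_le {y : V k E} {z : V k F} {R : ℝ} (h : ‖pr y z‖ ≤ R) (i : Ix k) :
    ‖y i‖ ≤ R ∧ ‖z i‖ ≤ R :=
  ⟨(norm_fst_le (pr y z i)).trans ((norm_le_pi_norm _ i).trans h),
    (norm_snd_le (pr y z i)).trans ((norm_le_pi_norm _ i).trans h)⟩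

theorem le_n2 (w : V k (E × F)) : ‖w‖ ≤ n2 (s1 w) + n2 (s2 w) :=
  (pi_norm_le_iff_of_nonneg (add_nonneg (Fo.n2_nonneg _) (Fo.n2_nonneg _))).2 fun i =>
    max_le ((Fo.le_n2 (s1 w) i).trans (le_add_of_nonneg_right (Fo.n2_nonneg _)))
      ((Fo.le_n2 (s2 w) i).trans (le_add_of_nonneg_left (Fo.n2_nonneg _)))

@[fun_prop] theorem cont_s1 {T : Type} [TopologicalSpace T] {w : T → V k (E × F)}
    (h : Continuous w) : Continuous fun t => s1 (w t) := by unfold s1; fun_prop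
@[fun_prop] theorem cont_s2 {T : Type} [TopologicalSpace T] {w : T → V k (E × F)}
    (h : Continuous w) : Continuous fun t => s2 (w t) := by unfold s2; fun_prop
theorem cont_pr {T : Type} [TopologicalSpace T] {S : Set T} {y : T → V k E} {z : T → V k F}
    (h : ∀ i, ContinuousOn (fun t => y t i) S) (h' : ContinuousOn z S) :
    ContinuousOn (fun t => pr (y t) (z t)) S :=
  continuousOn_pi.2 fun i => (h i).prodMk (continuousOn_pi.1 h' i)
@[fun_prop] theorem cont_cl : Continuous cl := by unfold cl; fun_prop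
theorem cl_mem (t : ℝ) : 0 ≤ cl t ∧ cl t ≤ 1 :=
  ⟨le_max_left _ _, max_le zero_le_one (min_le_left _ _)⟩
theorem cl_mul {s t : ℝ} (h : s = t + 1) : cl s * cl t = cl t := by
  rcases le_total t 0 with e | e
  · rw [show cl t = 0 from max_eq_left ((min_le_right _ _).trans e), mul_zero]
  · rw [show cl s = 1 from by
      rw [cl, min_eq_left (by linarith), max_eq_right zero_le_one], one_mul]
theorem smul_le [NormedSpace ℝ E] {a : ℝ} (h : 0 ≤ a ∧ a ≤ 1) (y : E) : ‖a • y‖ ≤ ‖y‖ := by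
  rw [norm_smul, Real.norm_of_nonneg h.1]; exact mul_le_of_le_one_left (norm_nonneg _) h.2
end gen

section tg
variable {k : ℕ} {E F : Type} [NormedAddCommGroup E] [InnerProductSpace ℂ E]
  [NormedAddCommGroup F] [InnerProductSpace ℂ F]

theorem Tg_sh (θ : ℝ) (y : V k E) : Tg k E θ (sh k E y) = sh k E (Tg k E θ y) := by
  have e : ∀ y : V k E, sh k E y = Fo.sh (-1) y := fun y => funext fun i =>
    congrArg y (sub_eq_add_neg i 1)
  rw [e, e]; exact Fo.g_sh _ _ _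
theorem Tg_N (θ : ℝ) (A : E →L[ℂ] F) (y : V k E) :
    Tg k F θ (fun i => A (y i)) = fun i => A (Tg k E θ y i) := Fo.mu_N _ A y
theorem n2_Tg (θ : ℝ) (y : V k E) : n2 (Tg k E θ y) = n2 y := Fo.n2_g _ y
theorem n2_N (θ : ℝ) (A : E →L[ℂ] F) (y : V k E) :
    n2 (fun i => A (Tg k E θ y i)) = n2 fun i => A (y i) := by rw [← Tg_N, n2_Tg]
@[fun_prop] theorem cont_Tg {T : Type} [TopologicalSpace T] {r : T → ℝ} {y : T → V k E}
    (hr : Continuous r) (hy : Continuous y) : Continuous fun t => Tg k E (r t) (y t) :=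
  Fo.cont_g hr.neg hy
attribute [local irreducible] Tg

theorem cont_Tg' {T : Type} [TopologicalSpace T] {S : Set T} {r : T → ℝ} {y : T → V k E}
    (hr : Continuous r) (hy : ∀ i, ContinuousOn (fun t => y t i) S) :
    ContinuousOn (fun t => Tg k E (r t) (y t)) S :=
  (cont_Tg (T := ℝ × V k E) continuous_fst continuous_snd).comp_continuousOn
    (hr.continuousOn.prodMk (continuousOn_pi.2 hy))

variable {X : Type} [TopologicalSpace X] {π : X → E →L[ℂ] E}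

theorem pr_norm (h : IsPr π) (x : X) (y : E) : ‖π x y‖ ≤ ‖y‖ := by
  have e : ‖π x y‖ ^ 2 ≤ ‖y‖ * ‖π x y‖ := by
    rw [← inner_self_eq_norm_sq (𝕜 := ℂ), h.sa, h.id]
    exact re_inner_le_norm _ _
  nlinarith [norm_nonneg y, norm_nonneg (π x y)]

/-- the second slot -/
theorem zbd (h : IsPr π) (x : X) (θ : ℝ) {z v : V k E} {R : ℝ} (hv : ∀ i, π x (v i) = v i)
    (e : ∀ i, ‖(z - Tg k E θ v) i‖ ≤ R) :
    n2 v ≤ n2 (fun i => π x (z i)) + (2 ^ (k + 1) : ℕ) * R ∧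
      n2 z ≤ n2 v + (2 ^ (k + 1) : ℕ) * R := by
  have R0 : 0 ≤ R := (norm_nonneg _).trans (e 0)
  have k1 : ∀ i, π x (Tg k E θ v i) = Tg k E θ v i := fun i => by
    have := congrFun (Tg_N θ (π x) v) i
    rw [← this, funext hv]
  constructor
  · rw [← n2_Tg θ v, ← one_mul (n2 _)]
    refine Fo.n2_ge zero_le_one R0 fun i => ?_
    have : Tg k E θ v i = π x (z i) - π x ((z - Tg k E θ v) i) := by
      rw [Pi.sub_apply, map_sub, k1, sub_sub_cancel]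
    rw [one_mul, this]
    exact (norm_sub_le _ _).trans (by linarith [pr_norm h x ((z - Tg k E θ v) i), e i])
  · rw [← n2_Tg θ v, ← one_mul (n2 z)]
    refine Fo.n2_ge zero_le_one R0 fun i => ?_
    have : z i = Tg k E θ v i + (z - Tg k E θ v) i := by rw [Pi.sub_apply, add_sub_cancel]
    rw [one_mul, this]
    exact (norm_add_le _ _).trans (by linarith [e i])

theorem n2_split (x : X) (y : V k E) :
    n2 y ≤ n2 (fun i => π x (y i)) + n2 fun i => y i - π x (y i) := by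
  refine le_trans (le_of_eq ?_) (Fo.n2_add _ _)
  congr 1; funext i; simp

theorem perp_le (h : IsPr π) (x : X) {y u : E} {R : ℝ} (e : ‖y - u‖ ≤ R) :
    ‖y - π x y‖ ≤ ‖u - π x u‖ + 2 * R ∧ ‖π x u‖ ≤ ‖π x y‖ + R := by
  have a := pr_norm h x (y - u)
  constructor
  · have : y - π x y = (u - π x u) + ((y - u) - π x (y - u)) := by rw [map_sub]; abel
    rw [this]
    exact (norm_add_le _ _).trans (by linarith [norm_sub_le (y - u) (π x (y - u))])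
  · have : π x u = π x y - π x (y - u) := by rw [map_sub, sub_sub_cancel]
    rw [this]
    exact (norm_sub_le _ _).trans (by linarith)
end tg

attribute [local irreducible] Tg

variable {X E₁ E₂ : Type} [TopologicalSpace X] [CompactSpace X] [T2Space X]
  [NormedAddCommGroup E₁] [InnerProductSpace ℂ E₁] [FiniteDimensional ℂ E₁]
  [NormedAddCommGroup E₂] [InnerProductSpace ℂ E₂] [FiniteDimensional ℂ E₂]
  {D : Data X E₁ E₂} {c κ R₀ M : ℝ} (h : D.Ok c κ R₀ M) {k : ℕ}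

theorem prop (E : Type) [NormedAddCommGroup E] [InnerProductSpace ℂ E] [FiniteDimensional ℂ E] :
    ProperSpace E := FiniteDimensional.proper ℂ E

theorem cut {a b : ℝ} (hκ : 0 < κ) (ha : 0 ≤ a) (hb : 0 ≤ b) (e : R₀ ≤ a → (1 + κ) * a ≤ b) :
    (1 + κ) * a ≤ b + (1 + κ) * |R₀| := by
  rcases le_total R₀ a with l | l
  · have := e l; have : 0 ≤ (1 + κ) * |R₀| := by positivity
    linarith
  · have := mul_le_mul_of_nonneg_left (l.trans (le_abs_self R₀)) (by linarith : 0 ≤ 1 + κ)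
    linarith

include h

theorem uxb (x : X) (z : E₂) : ‖D.π₂ x z‖ ≤ |R₀| + ‖D.π₁ x (D.u (x, z))‖ := by
  rcases le_total R₀ ‖D.π₂ x z‖ with l | l
  · nlinarith [h.ux x z l, h.hκ, norm_nonneg (D.π₂ x z), abs_nonneg R₀]
  · linarith [le_abs_self R₀, norm_nonneg (D.π₁ x (D.u (x, z)))]

/-- the first slot -/
theorem ybd (x : X) (θ : ℝ) {y : V k E₁} {ζ : V k E₂} {R : ℝ}
    (m : ∀ i, (x, Tg k E₁ θ y i) ∈ D.Ov) (e : ∀ i, ‖y i - D.u (x, ζ i)‖ ≤ R) :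
    n2 y ≤ (2 ^ (k + 1) : ℕ) * (|R₀| + M + 2 * R) ∧
      ∀ i, ‖D.π₂ x (ζ i)‖ ≤ |R₀| + (2 ^ (k + 1) : ℕ) * |R₀| + R := by
  have a : n2 (fun i => D.π₁ x (y i)) ≤ (2 ^ (k + 1) : ℕ) * |R₀| := by
    rw [← n2_N θ]
    exact Fo.n2_le _ fun i => (h.vb _ (m i)).trans (le_abs_self _)
  have b : n2 (fun i => y i - D.π₁ x (y i)) ≤ (2 ^ (k + 1) : ℕ) * (M + 2 * R) :=
    Fo.n2_le _ fun i => (perp_le h.p₁ x (e i)).1.trans (by linarith [h.ub x (ζ i)])
  refine ⟨by linarith [n2_split (π := D.π₁) x y], fun i => ?_⟩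
  linarith [uxb h x (ζ i), (perp_le h.p₁ x (e i)).2, Fo.le_n2 (fun i => D.π₁ x (y i)) i]

theorem okK : (D.K k).Ok := by
  have := prop E₁; have := prop E₂
  have ca : ∀ i, Continuous fun w : (X × ℝ × ℝ) × V k (E₁ × E₂) =>
      (w.1.1, Tg k E₁ w.1.2.1 (s1 w.2) i) := fun i => by fun_prop
  have cu := h.uc
  refine ok_of _ ca h.vo (fun _ => Iff.rfl)
    (fun x i => congrArg (Prod.mk _) (congrFun (Tg_sh _ (s1 x.2)) i))
    (cont_pr (fun i => Continuous.continuousOn (by fun_prop)) ((Continuous.continuousOn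
      (by fun_prop)).sub (cont_Tg' (by fun_prop) fun i =>
        h.vc.comp (ca i).continuousOn fun w m => m i)))
    (fun x => ?_) (fun _ => rfl) fun K hK R => ?_
  · have e : Tg k E₁ x.1.2.1 (s1 (sh k _ x.2)) = sh k _ (Tg k E₁ x.1.2.1 (s1 x.2)) :=
      Tg_sh _ (s1 x.2)
    have e2 := Tg_sh x.1.2.2 fun i => D.v (x.1.1, Tg k E₁ x.1.2.1 (s1 x.2) i)
    funext i
    refine Prod.ext rfl ?_
    change _ - Tg k E₂ _ (fun i => D.v (_, Tg k E₁ _ (s1 (sh k _ x.2)) i)) i = _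
    rw [e]
    exact congrArg (HSub.hSub _) (congrFun e2 i)
  · obtain ⟨Q, hQ⟩ : ∃ Q : ℝ, Q = (2 ^ (k + 1) : ℕ) := ⟨_, rfl⟩
    refine ⟨Q * (|R₀| + M + 2 * R) + (Q * (|R₀| + Q * |R₀| + R) + Q * R + Q * R), _,
      h.vk (Q * (|R₀| + M + 2 * R) + (Q * (|R₀| + Q * |R₀| + R) + Q * R + Q * R)),
      fun _ m => m.1, fun w m _ b => ?_⟩
    have b := pr_le b
    obtain ⟨y1, y2⟩ := ybd h _ _ m fun i => (b i).1
    obtain ⟨z1, z2⟩ := zbd h.p₂ w.1.1 _ (fun i => h.vp _ (m i)) fun i => (b i).2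
    have z3 := Fo.n2_le _ y2
    rw [← hQ] at y1 y2 z1 z2 z3
    have p := Fo.n2_nonneg (s1 w.2)
    have p' := Fo.n2_nonneg (s2 w.2)
    have p'' : 0 ≤ Q * R := mul_nonneg (hQ ▸ Nat.cast_nonneg _) ((norm_nonneg _).trans (b 0).1)
    refine ⟨(le_n2 w.2).trans (add_le_add y1 (by linarith)), fun i => ⟨m i, ?_, ?_⟩⟩
    · exact (Fo.le_n2 (fun i => D.v (w.1.1, Tg k E₁ w.1.2.1 (s1 w.2) i)) i).trans (by linarith)
    · exact ((Fo.le_n2 _ i).trans_eq (n2_Tg _ (s1 w.2))).trans (by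
      have := Fo.n2_nonneg fun i => D.v (w.1.1, Tg k E₁ w.1.2.1 (s1 w.2) i); linarith)

theorem ok2 : (PM.fm fun θ => D.a₂ k (Tg k E₁ θ)).Ok := by
  have := prop E₁; have := prop E₂
  have ca : ∀ i, Continuous fun w : ((X × ℝ) × ℝ) × V k (E₁ × E₂) =>
      (w.1.1.1, Tg k E₁ w.1.1.2 (s1 w.2) i) := fun i => by fun_prop
  have cv : ∀ i, ContinuousOn (fun w : ((X × ℝ) × ℝ) × V k (E₁ × E₂) =>
      D.v (w.1.1.1, Tg k E₁ w.1.1.2 (s1 w.2) i)) (PM.fm fun θ => D.a₂ k (Tg k E₁ θ)).O :=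
    fun i => h.vc.comp (ca i).continuousOn fun w m => m i
  have cs : Continuous fun w : ((X × ℝ) × ℝ) × V k (E₁ × E₂) => cl (w.1.2 - 2) := by fun_prop
  refine ok_of _ ca h.vo (fun _ => Iff.rfl)
    (fun x i => congrArg (Prod.mk _) (congrFun (Tg_sh _ (s1 x.2)) i))
    (cont_pr (fun i => (Continuous.continuousOn (by fun_prop)).sub (h.uc.comp_continuousOn
      ((Continuous.continuousOn (by fun_prop)).prodMk ((Continuous.continuousOn (by fun_prop)).add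
        ((continuous_const.sub cs).continuousOn.smul (cv i)))))) (continuousOn_pi.2 fun i =>
      (Continuous.continuousOn (by fun_prop)).sub (cs.continuousOn.smul (cv i))))
    (fun x => ?_) (fun _ => rfl) fun K hK R => ?_
  · have e : Tg k E₁ x.1.1.2 (s1 (sh k _ x.2)) = sh k _ (Tg k E₁ x.1.1.2 (s1 x.2)) :=
      Tg_sh _ (s1 x.2)
    funext i
    change (_ - D.u (_, _ + _ • D.v (_, Tg k E₁ _ (s1 (sh k _ x.2)) i)),
      _ - _ • D.v (_, Tg k E₁ _ (s1 (sh k _ x.2)) i)) = _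
    rw [e]; rfl
  · obtain ⟨Q, hQ⟩ : ∃ Q : ℝ, Q = (2 ^ (k + 1) : ℕ) := ⟨_, rfl⟩
    have Q0 : 0 ≤ Q := hQ ▸ Nat.cast_nonneg _
    refine ⟨Q * (|R₀| + M + 2 * R) + Q * (|R₀| + Q * |R₀| + 2 * R + R), _,
      h.vk (Q * (|R₀| + M + 2 * R) + (|R₀| + Q * |R₀| + 2 * R)),
      fun _ m => m.1, fun w m _ b => ?_⟩
    have b := pr_le b
    obtain ⟨y1, y2⟩ := ybd h _ _ m fun i => (b i).1
    rw [← hQ] at y1 y2
    have R0 : 0 ≤ R := (norm_nonneg _).trans (b 0).1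
    have v1 : ∀ i, ‖D.v (w.1.1.1, Tg k E₁ w.1.1.2 (s1 w.2) i)‖ ≤ |R₀| + Q * |R₀| + 2 * R := fun i => by
      have e := h.vp _ (m i)
      have y2 := y2 i
      have b2 := (b i).2
      dsimp only at e y2 b2
      generalize D.v (w.1.1.1, Tg k E₁ w.1.1.2 (s1 w.2) i) = v at e y2 b2 ⊢
      have k1 : cl (w.1.2 - 1) * cl (w.1.2 - 2) = cl (w.1.2 - 2) := cl_mul (by ring)
      have k2 : cl (w.1.2 - 1) • s2 w.2 i + (1 - cl (w.1.2 - 2)) • v =
          cl (w.1.2 - 1) • (s2 w.2 i - cl (w.1.2 - 2) • v) + v := by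
        rw [smul_sub, smul_smul, k1, sub_smul, one_smul]; abel
      rw [k2, map_add, e] at y2
      have k3 := (pr_norm h.p₂ w.1.1.1 _).trans ((smul_le (cl_mem (w.1.2 - 1)) _).trans b2)
      linarith [norm_sub_le _ _ |>.trans' (le_of_eq (congrArg norm (add_sub_cancel_left
        (D.π₂ w.1.1.1 (cl (w.1.2 - 1) • (s2 w.2 i - cl (w.1.2 - 2) • v))) v).symm))]
    have z1 : n2 (s2 w.2) ≤ Q * (|R₀| + Q * |R₀| + 2 * R + R) := hQ ▸ Fo.n2_le _ fun i => by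
      rw [hQ.symm]
      have := norm_add_le (s2 w.2 i - cl (w.1.2 - 2) • D.v (w.1.1.1, Tg k E₁ w.1.1.2 (s1 w.2) i))
        (cl (w.1.2 - 2) • D.v (w.1.1.1, Tg k E₁ w.1.1.2 (s1 w.2) i))
      rw [sub_add_cancel] at this
      linarith [(b i).2, (smul_le (cl_mem (w.1.2 - 2)) _).trans (v1 i)]
    have p := Fo.n2_nonneg (s1 w.2)
    have p' := (norm_nonneg _).trans (v1 0)
    refine ⟨(le_n2 w.2).trans (add_le_add y1 z1), fun i => ⟨m i, (v1 i).trans (by linarith), ?_⟩⟩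
    exact ((Fo.le_n2 _ i).trans_eq (n2_Tg _ (s1 w.2))).trans (by linarith)

theorem ok3 : (PM.fm fun θ => D.a₃ k (Tg k E₂ θ)).Ok := by
  have := prop E₁; have := prop E₂
  have cu := h.uc
  have ca : ∀ i, Continuous fun w : ((X × ℝ) × ℝ) × V k (E₁ × E₂) => (w.1.1.1,
      (1 - cl (w.1.2 - 4)) • s1 w.2 i + cl (w.1.2 - 3) • D.u (w.1.1.1, s2 w.2 i)) :=
    fun i => by fun_prop
  refine ok_of _ ca h.vo (fun _ => Iff.rfl) (fun x i => rfl)
    (cont_pr (fun i => Continuous.continuousOn (by fun_prop)) ((Continuous.continuousOn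
      (by fun_prop)).sub (cont_Tg' (by fun_prop) fun i =>
        h.vc.comp (ca i).continuousOn fun w m => m i)))
    (fun x => ?_) (fun _ => rfl) fun K hK R => ?_
  · have e2 := Tg_sh x.1.1.2 fun i => D.v (x.1.1.1,
      (1 - cl (x.1.2 - 4)) • s1 x.2 i + cl (x.1.2 - 3) • D.u (x.1.1.1, s2 x.2 i))
    funext i
    exact Prod.ext rfl (congrArg (HSub.hSub _) (congrFun e2 i))
  · obtain ⟨Q, hQ⟩ : ∃ Q : ℝ, Q = (2 ^ (k + 1) : ℕ) := ⟨_, rfl⟩
    have Q0 : 0 ≤ Q := hQ ▸ Nat.cast_nonneg _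
    refine ⟨Q * (M + |R₀| + 2 * R) + (Q * (2 * |R₀| + R) + Q * R + Q * R), _,
      h.vk (M + |R₀| + 2 * R + (Q * (2 * |R₀| + R) + Q * R)), fun _ m => m.1, fun w m _ b => ?_⟩
    have b := pr_le b
    have R0 : 0 ≤ R := (norm_nonneg _).trans (b 0).1
    have k0 : ∀ i, ‖(1 - cl (w.1.2 - 4)) • s1 w.2 i + cl (w.1.2 - 3) • D.u (w.1.1.1, s2 w.2 i) -
        D.u (w.1.1.1, s2 w.2 i)‖ ≤ R := fun i => by
      have k1 : cl (w.1.2 - 3) * cl (w.1.2 - 4) = cl (w.1.2 - 4) := cl_mul (by ring)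
      refine le_trans (le_of_eq (congrArg norm ?_)) ((smul_le (a := 1 - cl (w.1.2 - 4))
        ⟨by linarith [cl_mem (w.1.2 - 4)], by linarith [cl_mem (w.1.2 - 4)]⟩ _).trans (b i).1)
      have : (1 - cl (w.1.2 - 4)) * (1 - cl (w.1.2 - 3)) = 1 - cl (w.1.2 - 3) := by
        linear_combination k1
      rw [smul_sub, smul_smul, this, sub_smul 1 (cl (w.1.2 - 3)), one_smul]; abel
    have u1 : ∀ i, ‖D.π₁ w.1.1.1 (D.u (w.1.1.1, s2 w.2 i))‖ ≤ |R₀| + R := fun i =>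
      (perp_le h.p₁ _ (k0 i)).2.trans (by linarith [h.vb _ (m i), le_abs_self R₀])
    have u2 : ∀ i, ‖D.u (w.1.1.1, s2 w.2 i)‖ ≤ M + |R₀| + R := fun i => by
      have := norm_add_le (D.u (w.1.1.1, s2 w.2 i) - D.π₁ w.1.1.1 (D.u (w.1.1.1, s2 w.2 i)))
        (D.π₁ w.1.1.1 (D.u (w.1.1.1, s2 w.2 i)))
      rw [sub_add_cancel] at this
      linarith [h.ub w.1.1.1 (s2 w.2 i), u1 i]
    have y1 : n2 (s1 w.2) ≤ Q * (M + |R₀| + 2 * R) := hQ ▸ Fo.n2_le _ fun i => by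
      have := norm_add_le (s1 w.2 i - (1 - cl (w.1.2 - 3)) • D.u (w.1.1.1, s2 w.2 i))
        ((1 - cl (w.1.2 - 3)) • D.u (w.1.1.1, s2 w.2 i))
      rw [sub_add_cancel] at this
      linarith [(b i).1, (smul_le (a := 1 - cl (w.1.2 - 3))
        ⟨by linarith [cl_mem (w.1.2 - 3)], by linarith [cl_mem (w.1.2 - 3)]⟩ _).trans (u2 i)]
    obtain ⟨z1, z2⟩ := zbd h.p₂ w.1.1.1 _ (fun i => h.vp _ (m i)) fun i => (b i).2
    have z3 : n2 (fun i => D.π₂ w.1.1.1 (s2 w.2 i)) ≤ Q * (2 * |R₀| + R) :=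
      hQ ▸ Fo.n2_le _ fun i => by linarith [uxb h w.1.1.1 (s2 w.2 i), u1 i]
    rw [← hQ] at z1 z2
    have p := (norm_nonneg _).trans (u2 0)
    have p' := Fo.n2_nonneg fun i => D.π₂ w.1.1.1 (s2 w.2 i)
    have p'' := mul_nonneg Q0 R0
    refine ⟨(le_n2 w.2).trans (add_le_add y1 (by linarith)), fun i => ⟨m i, ?_, ?_⟩⟩
    · exact (Fo.le_n2 (fun i => D.v (w.1.1.1, (1 - cl (w.1.2 - 4)) • s1 w.2 i +
        cl (w.1.2 - 3) • D.u (w.1.1.1, s2 w.2 i))) i).trans (by linarith)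
    · have := norm_add_le ((1 - cl (w.1.2 - 4)) • s1 w.2 i + cl (w.1.2 - 3) •
        D.u (w.1.1.1, s2 w.2 i) - D.u (w.1.1.1, s2 w.2 i)) (D.u (w.1.1.1, s2 w.2 i))
      rw [sub_add_cancel] at this
      exact this.trans (by linarith [k0 i, u2 i])

theorem ok4 : (PM.fm fun θ => D.a₄ k (Tg k E₂ θ)).Ok := by
  have := prop E₁; have := prop E₂
  have ca : ∀ i, Continuous fun w : ((X × ℝ) × ℝ) × V k (E₁ × E₂) =>
      ((w.1.1.1, w.1.2 - 5), s2 w.2 i) := fun i => by fun_prop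
  refine ok_of _ ca h.o₂ (fun _ => Iff.rfl) (fun x i => rfl)
    (cont_pr (fun i => Continuous.continuousOn (by fun_prop)) ((Continuous.continuousOn
      (by fun_prop)).sub (cont_Tg' (by fun_prop) fun i =>
        h.c₂.comp (ca i).continuousOn fun w m => m i)))
    (fun x => ?_) (fun _ => rfl) fun K hK R => ?_
  · have e2 := Tg_sh x.1.1.2 fun i => D.h₂ ((x.1.1.1, x.1.2 - 5), s2 x.2 i)
    funext i
    exact Prod.ext rfl (congrArg (HSub.hSub _) (congrFun e2 i))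
  · obtain ⟨Q, hQ⟩ : ∃ Q : ℝ, Q = (2 ^ (k + 1) : ℕ) := ⟨_, rfl⟩
    have Q0 : 0 ≤ Q := hQ ▸ Nat.cast_nonneg _
    obtain ⟨S, hS⟩ := hK.exists_bound_of_continuousOn
      (f := fun b : (X × ℝ) × ℝ => b.2 - 5) (by fun_prop)
    have hκ := h.hκ
    obtain ⟨B, hB⟩ : ∃ B, κ * B = Q * R + Q * ((1 + κ) * |R₀|) :=
      ⟨_, mul_div_cancel₀ _ hκ.ne'⟩
    refine ⟨Q * R + (B + Q * R + Q * R), _, h.k₂ (|S| + (B + Q * R + Q * R)), fun _ m => m.1,
      fun w m mK b => ?_⟩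
    have b := pr_le b
    have R0 : 0 ≤ R := (norm_nonneg _).trans (b 0).1
    obtain ⟨z1, z2⟩ := zbd h.p₂ w.1.1.1 _ (fun i => (h.q₂ _ _ _).2.2) fun i => (b i).2
    have z3 := Fo.n2_ge (y := fun i => D.π₂ w.1.1.1 (s2 w.2 i))
      (z := fun i => D.h₂ ((w.1.1.1, w.1.2 - 5), s2 w.2 i)) (by linarith : 0 ≤ 1 + κ)
      (by positivity) fun i => cut hκ (norm_nonneg _) (norm_nonneg _) (h.x₂ _ (m i))
    have y1 : n2 (s1 w.2) ≤ Q * R := hQ ▸ Fo.n2_le _ fun i => (b i).1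
    rw [← hQ] at z1 z2 z3
    have z4 : n2 (fun i => D.π₂ w.1.1.1 (s2 w.2 i)) ≤ B :=
      le_of_mul_le_mul_left (by linarith) hκ
    have p' := Fo.n2_nonneg fun i => D.π₂ w.1.1.1 (s2 w.2 i)
    have p'' := mul_nonneg Q0 R0
    have p := abs_nonneg S
    refine ⟨(le_n2 w.2).trans (add_le_add y1 (by linarith)), fun i => ⟨m i, ?_, ?_, ?_⟩⟩
    · exact (hS _ mK).trans (by linarith [le_abs_self S])
    · exact (Fo.le_n2 (fun i => D.h₂ ((w.1.1.1, w.1.2 - 5), s2 w.2 i)) i).trans (by linarith)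
    · exact (Fo.le_n2 (s2 w.2) i).trans (by linarith)

theorem ok1 : (PM.fm fun θ => D.a₁ k (Tg k E₁ θ)).Ok := by
  have := prop E₁; have := prop E₂
  have ca : ∀ i, Continuous fun w : ((X × ℝ) × ℝ) × V k (E₁ × E₂) =>
      ((w.1.1.1, w.1.2), Tg k E₁ w.1.1.2 (s1 w.2) i) := fun i => by fun_prop
  refine ok_of _ ca h.o₁ (fun _ => Iff.rfl)
    (fun x i => congrArg (Prod.mk _) (congrFun (Tg_sh _ (s1 x.2)) i))
    (cont_pr (fun i => (Continuous.continuousOn (by fun_prop)).sub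
      (h.c₁.comp (ca i).continuousOn fun w m => m i)) (Continuous.continuousOn (by fun_prop)))
    (fun x => ?_) (fun _ => rfl) fun K hK R => ?_
  · have e : Tg k E₁ x.1.1.2 (s1 (sh k _ x.2)) = sh k _ (Tg k E₁ x.1.1.2 (s1 x.2)) :=
      Tg_sh _ (s1 x.2)
    funext i
    change (_ - D.h₁ (_, Tg k E₁ _ (s1 (sh k _ x.2)) i), _) = _
    rw [e]; rfl
  · obtain ⟨Q, hQ⟩ : ∃ Q : ℝ, Q = (2 ^ (k + 1) : ℕ) := ⟨_, rfl⟩
    have Q0 : 0 ≤ Q := hQ ▸ Nat.cast_nonneg _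
    obtain ⟨S, hS⟩ := hK.exists_bound_of_continuousOn
      (f := fun b : (X × ℝ) × ℝ => b.2) (by fun_prop)
    have hκ := h.hκ
    have hc : 0 < 1 - c := sub_pos.2 h.hc
    obtain ⟨B, hB⟩ : ∃ B, κ * B = Q * (R + (1 + κ) * |R₀|) := ⟨_, mul_div_cancel₀ _ hκ.ne'⟩
    obtain ⟨B', hB'⟩ : ∃ B', (1 - c) * B' = Q * (M + 2 * R) := ⟨_, mul_div_cancel₀ _ hc.ne'⟩
    refine ⟨B + B' + Q * R, _, h.k₁ (|S| + (B + B' + R)), fun _ m => m.1, fun w m mK b => ?_⟩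
    have b := pr_le b
    have R0 : 0 ≤ R := (norm_nonneg _).trans (b 0).1
    have M0 : 0 ≤ M := (norm_nonneg _).trans (h.ub w.1.1.1 0)
    have c0 : 0 ≤ c := (norm_nonneg _).trans (h.Cn w.1.1.1)
    have s1' : ∀ i, ‖Tg k E₁ w.1.1.2 (s1 w.2) i‖ ≤ n2 (s1 w.2) := fun i =>
      (Fo.le_n2 _ i).trans_eq (n2_Tg _ _)
    have y1 := Fo.n2_ge (y := fun i => D.π₁ w.1.1.1 (Tg k E₁ w.1.1.2 (s1 w.2) i))
      (z := fun i => D.π₁ w.1.1.1 (s1 w.2 i)) (C := R + (1 + κ) * |R₀|) (by linarith : 0 ≤ 1 + κ)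
      (by positivity) fun i => by
        linarith [cut hκ (norm_nonneg _) (norm_nonneg _) (h.x₁ _ (m i)),
          (perp_le h.p₁ w.1.1.1 (b i).1).2]
    have y2 := Fo.n2_ge (y := fun i => (1 - D.π₁ w.1.1.1) (s1 w.2 i))
      (z := c • fun i => (1 - D.π₁ w.1.1.1) (Tg k E₁ w.1.1.2 (s1 w.2) i)) (C := M + 2 * R)
      zero_le_one (by positivity) fun i => by
        rw [Pi.smul_apply, norm_smul, Real.norm_of_nonneg c0, one_mul]
        exact (perp_le h.p₁ w.1.1.1 (b i).1).1.trans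
          ((add_le_add (h.b₁ _ (m i)) le_rfl).trans_eq (by rw [add_comm M, add_assoc]; rfl))
    rw [n2_N, ← hQ] at y1
    rw [Fo.n2_smul, n2_N, Real.norm_of_nonneg c0, ← hQ] at y2
    have y3 : n2 (fun i => D.π₁ w.1.1.1 (s1 w.2 i)) ≤ B := le_of_mul_le_mul_left (by linarith) hκ
    have y4 : n2 (fun i => (1 - D.π₁ w.1.1.1) (s1 w.2 i)) ≤ B' :=
      le_of_mul_le_mul_left (by linarith) hc
    have y5 : n2 (s1 w.2) ≤ B + B' := (n2_split (π := D.π₁) w.1.1.1 _).trans (add_le_add y3 y4)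
    have z1 : n2 (s2 w.2) ≤ Q * R := hQ ▸ Fo.n2_le _ fun i => (b i).2
    have p := abs_nonneg S
    have p' := Fo.n2_nonneg (s1 w.2)
    refine ⟨(le_n2 w.2).trans (add_le_add y5 z1), fun i => ⟨m i, ?_, ?_, ?_⟩⟩
    · exact (hS _ mK).trans (by linarith [le_abs_self S])
    · have := norm_sub_le (s1 w.2 i)
        (s1 w.2 i - D.h₁ ((w.1.1.1, w.1.2), Tg k E₁ w.1.1.2 (s1 w.2) i))
      rw [sub_sub_cancel] at this
      exact this.trans (by linarith [(b i).1, Fo.le_n2 (s1 w.2) i])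
    · exact (s1' i).trans (by linarith)

end Ar

theorem arc : ARC := fun _ _ _ _ _ _ _ _ _ _ _ _ _ _ _ _ _ _ h =>
  ⟨Ar.ok1 h, Ar.ok2 h, Ar.ok3 h, Ar.ok4 h, Ar.okK h⟩

end Crest.Agent.N218.Pm

end
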