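import Crest.Agent.N218.Pm.Sq1

/-!
# Row 218, block ALG (helper45): the square and the assembly
-/

set_option autoImplicit false
set_option linter.unusedVariables false
set_option linter.unusedSectionVars false

open Set Topology unitInterval

noncomputable section

namespace Crest.Agent.N218.Pm.Sq

section gen
variable {B B' B'' : Type} [TopologicalSpace B] [TopologicalSpace B'] [TopologicalSpace B''] {k : ℕ}
  {E : Type} [NormedAddCommGroup E] [NormedSpace ℝ E]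

theorem At.of_eq (A : PM B k E) {b b' : B} (h : b = b') : At A b A b' := h ▸ At.rfl' A b
theorem At.tr {A : PM B k E} {b : B} {A' : PM B' k E} {b' : B'} {A'' : PM B'' k E} {b'' : B''}
    (h : At A b A' b') (h' : At A' b' A'' b'') : At A b A'' b'' := h.trans h'
theorem at_fm (A : ℝ → PM (B × ℝ) k E) (x : B) (θ s : ℝ) :
    At (PM.fm A) ((x, θ), s) (A θ) (x, s) := fun _ => ⟨Iff.rfl, fun _ => rfl⟩
theorem at_pull (A : PM B k E) (φ : B' → B) (b : B') : At (A.pull φ) b A (φ b) :=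
  fun _ => ⟨Iff.rfl, fun _ => rfl⟩
theorem at_wn (A : PM B k E) (n : B → V k E →L[ℝ] V k E) (b : B) : At (A.wn n) b A b :=
  fun _ => ⟨Iff.rfl, fun _ => rfl⟩
end gen

theorem rep_coe {t : ℝ} (h : t ∈ Ico (0 : ℝ) 1) : rep (t : UnitAddCircle) = t := by
  rw [rep, AddCircle.equivIco_coe_eq (by simpa using h)]

/-- small reparametrisations do not change the problem -/
theorem rep_eqv {X : Type} [TopologicalSpace X] [CompactSpace X] [T2Space X] {k : ℕ} {E : Type}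
    [NormedAddCommGroup E] [NormedSpace ℝ E] [FiniteDimensional ℝ E] {A : PM (X × ℝ) k E}
    (hA : A.Ok) {δ : ℝ} (hδ : 0 < δ) (hz : ∀ x s, s ≤ 0 ∨ 6 ≤ s → A.NoZ δ (x, s)) {ψ : ℝ → ℝ}
    (hψ : Continuous ψ) (h : ∀ s, ψ s ∈ Icc (0 : ℝ) 3) : (A.F (tau δ)).Ok ∧
      (A.F (tau δ)).Eqv ((A.pull fun b : X × ℝ => (b.1, b.2 + ψ b.2)).F (tau δ)) := by
  have ok : (A.F (tau δ)).Ok := PM.fok hA (tau_ok hδ) ⟨univ ×ˢ Icc 0 6,
    isCompact_univ.prod isCompact_Icc, fun b hb => hz b.1 b.2 (by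
      by_contra c
      push Not at c
      exact hb ⟨trivial, c.1.le, c.2.le⟩)⟩
  have := ok.eqv_pull (H := fun p : (X × ℝ) × I => (p.1.1, p.1.2 + p.2 * ψ p.1.2)) (by fun_prop)
    (K := univ ×ˢ Icc (-3) 6) (isCompact_univ.prod isCompact_Icc) fun b s y m => by
      by_contra c
      refine PM.NoZ.notMem (tau_ok hδ) (hz _ _ ?_) m
      have a := h b.2
      have a0 := mul_nonneg s.2.1 a.1
      have a1 := mul_le_of_le_one_left a.1 s.2.2
      rcases not_and_or.1 (fun d => c ⟨trivial, d⟩ : ¬(-3 ≤ b.2 ∧ b.2 ≤ 6)) with d | d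
      · exact .inl (by linarith [not_le.1 d, a.2])
      · exact .inr (by linarith [not_le.1 d])
  simp only [Icc.coe_zero, zero_mul, add_zero, Icc.coe_one, one_mul] at this
  exact ⟨ok, this⟩

variable {X E₁ E₂ : Type} [TopologicalSpace X] [NormedAddCommGroup E₁] [InnerProductSpace ℂ E₁]
  [NormedAddCommGroup E₂] [InnerProductSpace ℂ E₂] (D : Data X E₁ E₂) {c κ R₀ M : ℝ} (k : ℕ)

/-- left half -/
def Lf : PM ((X × ℝ) × ℝ) k (E₁ × E₂) :=
  PM.glue 1 (PM.fm fun θ => D.a₁ k (Tg k E₁ θ)) (PM.fm fun θ => D.a₂ k (Tg k E₁ θ))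
/-- right half -/
def Rt : PM ((X × ℝ) × ℝ) k (E₁ × E₂) :=
  PM.glue 5 (PM.fm fun θ => D.a₃ k (Tg k E₂ θ)) (PM.fm fun θ => D.a₄ k (Tg k E₂ θ))
/-- the inserted arc -/
def Md : PM ((X × ℝ) × ℝ) k (E₁ × E₂) :=
  (D.K k).pull fun b => (b.1.1, b.1.2 + cl b.2 * (1 - b.1.2), -(cl b.2 * (1 - b.1.2)))
/-- the square -/
def W : PM ((X × ℝ) × ℝ) k (E₁ × E₂) :=
  (PM.glue 0 ((Lf D k).pull fun b => (b.1, b.2 + 3))
    (PM.glue 1 (Md D k) ((Rt D k).pull fun b => (b.1, b.2 + 2)))).wn fun b =>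
    D.nu k b.1.1 (Real.pi * (1 - b.1.2) * (1 - cl (b.2 + 1))) (Real.pi * (1 - b.1.2) * cl (b.2 + 1))

variable {D k}

section at'
variable (x : X) (θ : ℝ) {s : ℝ} (T₁ : V k E₁ →L[ℝ] V k E₁) (T₂ : V k E₂ →L[ℝ] V k E₂)

theorem lf1 (h : s ≤ 1) : At (Lf D k) ((x, θ), s) (D.a₁ k (Tg k E₁ θ)) (x, s) :=
  (at_le _ _ h).tr (at_fm _ x θ s)
theorem lf2 (h : 1 < s) : At (Lf D k) ((x, θ), s) (D.a₂ k (Tg k E₁ θ)) (x, s) :=
  (at_gt _ _ h).tr (at_fm _ x θ s)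
theorem rt3 (h : s ≤ 5) : At (Rt D k) ((x, θ), s) (D.a₃ k (Tg k E₂ θ)) (x, s) :=
  (at_le _ _ h).tr (at_fm _ x θ s)
theorem rt4 (h : 5 < s) : At (Rt D k) ((x, θ), s) (D.a₄ k (Tg k E₂ θ)) (x, s) :=
  (at_gt _ _ h).tr (at_fm _ x θ s)
theorem p1 (h : s ≤ 1) : At (D.path k T₁ T₂) (x, s) (D.a₁ k T₁) (x, s) := at_le _ _ h
theorem p2 (h : 1 < s) (h' : s ≤ 3) : At (D.path k T₁ T₂) (x, s) (D.a₂ k T₁) (x, s) :=
  (at_gt _ _ h).tr (at_le _ _ h')
theorem p3 (h : 3 < s) (h' : s ≤ 5) : At (D.path k T₁ T₂) (x, s) (D.a₃ k T₂) (x, s) :=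
  (at_gt _ _ (show 1 < s by linarith)).tr ((at_gt _ _ h).tr (at_le _ _ h'))
theorem p4 (h : 5 < s) : At (D.path k T₁ T₂) (x, s) (D.a₄ k T₂) (x, s) :=
  (at_gt _ _ (show 1 < s by linarith)).tr ((at_gt _ _ (show 3 < s by linarith)).tr (at_gt _ _ h))
theorem md (s : ℝ) :
    At (Md D k) ((x, θ), s) (D.K k) (x, θ + cl s * (1 - θ), -(cl s * (1 - θ))) := at_pull _ _ _

theorem lf_path (h : s ≤ 3) : At (Lf D k) ((x, θ), s) (D.path k (Tg k E₁ θ) T₂) (x, s) :=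
  (le_or_gt s 1).elim (fun l => (lf1 x θ l).tr (p1 x _ _ l).symm)
    fun l => (lf2 x θ l).tr (p2 x _ _ l h).symm

theorem rt_path (h : 3 < s) : At (Rt D k) ((x, θ), s) (D.path k T₁ (Tg k E₂ θ)) (x, s) :=
  (le_or_gt s 5).elim (fun l => (rt3 x θ l).tr (p3 x _ _ h l).symm)
    fun l => (rt4 x θ l).tr (p4 x _ _ l).symm

theorem path_n (b : X × ℝ) : (D.path k T₁ T₂).n b = 1 := by
  simp only [Data.path, PM.glue]; split_ifs <;> rfl

theorem lf_K : At (Lf D k) ((x, θ), 0 + 3) (Md D k) ((x, θ), 0) :=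
  (lf2 x θ (by norm_num)).tr ((seam2 θ x (by norm_num)).tr
    ((At.of_eq (D.K k) (by simp [cl_le])).tr (md x θ 0).symm))

theorem rt_K : At (Md D k) ((x, θ), 1) (Rt D k) ((x, θ), 1 + 2) :=
  (md x θ 1).tr ((At.of_eq (D.K k) (by simp [cl_ge])).tr ((seam5 x 0 (θ - 1)).tr
    ((At.of_eq (D.K k) (by simp)).tr ((seam3 θ x (s := 1 + 2) (by norm_num)).symm.tr
      (rt3 x θ (by norm_num)).symm))))

theorem w_le (h : s ≤ 0) : At (W D k) ((x, θ), s) (Lf D k) ((x, θ), s + 3) :=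
  (at_wn _ _ _).tr ((at_le _ _ h).tr (at_pull _ _ _))

theorem w_gt (h : 1 < s) : At (W D k) ((x, θ), s) (Rt D k) ((x, θ), s + 2) :=
  (at_wn _ _ _).tr ((at_gt _ _ (zero_lt_one.trans h)).tr ((at_gt _ _ h).tr (at_pull _ _ _)))

theorem w_mid (h : s ∈ Icc (0 : ℝ) 1) :
    At (W D k) ((x, θ), s) (D.K k) (x, θ + s * (1 - θ), -(s * (1 - θ))) := by
  refine At.tr ?_ ((md x θ s).tr (At.of_eq (D.K k) (by rw [cl_mid h])))
  rcases h.1.eq_or_lt with rfl | l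
  · exact (w_le x θ le_rfl).tr (lf_K x θ)
  · exact (at_wn _ _ _).tr ((at_gt _ _ l).tr (at_le _ _ h.2))
end at'

variable [CompactSpace X] [T2Space X] [FiniteDimensional ℂ E₁] [FiniteDimensional ℂ E₂]

theorem w_ok (arc : ARC) (hD : D.Ok c κ R₀ M) : (W D k).Ok := by
  obtain ⟨a1, a2, a3, a4, aK⟩ := arc X E₁ E₂ D c κ R₀ M k hD
  have l : (Lf D k).Ok := glue_ok a1 a2 (fun b => (at_fm _ b.1 b.2 1).tr
    ((seam1 hD _ b.1).tr (at_fm (fun θ => D.a₂ k (Tg k E₁ θ)) b.1 b.2 1).symm)) fun _ => rfl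
  have r : (Rt D k).Ok := glue_ok a3 a4 (fun b => (at_fm _ b.1 b.2 5).tr
    ((seam4 hD _ b.1).tr (at_fm (fun θ => D.a₄ k (Tg k E₂ θ)) b.1 b.2 5).symm)) fun _ => rfl
  have ln : ∀ b, (Lf D k).n b = 1 := fun b => by simp only [Lf, PM.glue]; split_ifs <;> rfl
  have rn : ∀ b, (Rt D k).n b = 1 := fun b => by simp only [Rt, PM.glue]; split_ifs <;> rfl
  have m : (Md D k).Ok := aK.pull (by fun_prop)
  refine wn_ok (glue_ok (l.pull (by fun_prop)) (glue_ok m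
    (r.pull (by fun_prop)) (fun b => (rt_K b.1 b.2).tr (at_pull _ _ _).symm) fun b => (rn _).symm)
    (fun b => (at_pull _ _ _).tr ((lf_K b.1 b.2).tr (at_le _ _ (b := (b, 0)) zero_le_one).symm))
    fun b => ?_)
    (nu_cont hD (by fun_prop) (by fun_prop) (by fun_prop)) (fun _ _ => rfl) fun b => nu_inj hD _ _ _
  exact (ln _).trans (if_pos (zero_le_one' ℝ)).symm

theorem path_ok (arc : ARC) (hD : D.Ok c κ R₀ M) {θ : ℝ} (h : θ = 0 ∨ θ = 1) :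
    (D.path k (Tg k E₁ θ) (Tg k E₂ θ)).Ok := by
  obtain ⟨a1, a2, a3, a4, -⟩ := arc X E₁ E₂ D c κ R₀ M k hD
  have p : Continuous fun b : X × ℝ => ((b.1, θ), b.2) := by fun_prop
  have b1 : (D.a₁ k (Tg k E₁ θ)).Ok := a1.pull p
  have b2 : (D.a₂ k (Tg k E₁ θ)).Ok := a2.pull p
  have b3 : (D.a₃ k (Tg k E₂ θ)).Ok := a3.pull p
  have b4 : (D.a₄ k (Tg k E₂ θ)).Ok := a4.pull p
  refine glue_ok b1 (glue_ok b2 (glue_ok b3 b4
    (fun x => seam4 hD _ x) fun _ => rfl) (fun x => ?_) fun x => (if_pos (by norm_num)).symm)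
    (fun x => (seam1 hD _ x).tr (at_le _ _ (b := (x, 1)) (by norm_num)).symm)
    fun x => (if_pos (by norm_num)).symm
  refine (seam2 θ x le_rfl).tr (At.tr ?_
    ((seam3 θ x le_rfl).symm.tr (at_le _ _ (b := (x, 3)) (by norm_num)).symm))
  rcases h with rfl | rfl
  · exact At.rfl' _ _
  · simpa using seam5 (D := D) (k := k) x 0 0

theorem y_eq : D.Y k = D.path k (Tg k E₁ 1) (Tg k E₂ 1) := by rw [Tg_one, Tg_one]; rfl

theorem y_noZ (hD : D.Ok c κ R₀ M) (x : X) (s δ : ℝ) (h : s ≤ 0 ∨ 6 ≤ s) : (D.Y k).NoZ δ (x, s) := by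
  rw [y_eq]
  rcases h with h | h
  · exact ((p1 x _ _ (by linarith)).tr (at_wn _ _ _).symm).noZ (by simp [path_n, PM.wn, nu_zero])
      (noZ_L hD (θ := 1) (by simp) x h δ)
  · exact ((p4 x _ _ (by linarith)).tr (at_wn _ _ _).symm).noZ (by simp [path_n, PM.wn, nu_zero])
      (noZ_R hD (θ := 1) (by simp) x h δ)

theorem g_ok (arc : ARC) (hD : D.Ok c κ R₀ M) (k : ℕ) :
    (D.G k).Ok ∧ ∀ x s δ, s ≤ 0 ∨ 6 ≤ s → (D.G k).NoZ δ (x, s) := by
  have p := path_ok (k := k) arc hD (.inl rfl)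
  rw [Tg_zero, Tg_zero] at p
  refine ⟨wn_ok p (nu_cont hD (by fun_prop) (by fun_prop) (by fun_prop)) (fun _ _ => rfl)
    fun b => nu_inj hD _ _ _, fun x s δ h => ?_⟩
  rcases h with h | h
  · have := noZ_L (k := k) hD (θ := 0) (by simp) x h δ
    rw [Tg_zero] at this
    exact ((at_wn _ _ _).tr ((p1 x _ _ (by linarith)).tr (at_wn _ _ _).symm)).noZ
      (by simp [PM.wn, cl_le (t := s - 2) (by linarith)]) this
  · have := noZ_R (k := k) hD (θ := 0) (by simp) x h δ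
    rw [Tg_zero] at this
    exact ((at_wn _ _ _).tr ((p4 x _ _ (by linarith)).tr (at_wn _ _ _).symm)).noZ
      (by simp [PM.wn, cl_ge (t := s - 2) (by linarith)]) this

theorem w_noZ (hD : D.Ok c κ R₀ M) (x : X) {θ : ℝ} (hθ : θ ∈ Icc (0 : ℝ) 1) (s δ : ℝ)
    (h : s < -3 ∨ 4 < s) : (W D k).NoZ δ ((x, θ), s) := by
  rcases h with h | h
  · exact ((w_le x θ (by linarith)).tr ((lf1 x θ (by linarith)).tr (at_wn _ _ _).symm)).noZ
      (by simp [W, PM.wn, cl_le (t := s + 1) (by linarith)])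
      (noZ_L hD hθ x (s := s + 3) (by linarith) δ)
  · exact ((w_gt x θ (by linarith)).tr ((rt4 x θ (by linarith)).tr (at_wn _ _ _).symm)).noZ
      (by simp [W, PM.wn, cl_ge (t := s + 1) (by linarith)])
      (noZ_R hD hθ x (s := s + 2) (by linarith) δ)

theorem w_one (b : X × ℝ) : At ((W D k).pull fun b : X × ℝ => ((b.1, 1), b.2)) b
    ((D.Y k).pull fun b : X × ℝ => (b.1, b.2 + (3 - cl b.2))) b := by
  obtain ⟨x, s⟩ := b
  rw [y_eq]
  refine (at_pull _ _ _).tr (At.tr ?_ (at_pull _ _ _).symm)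
  rcases le_or_gt s 0 with l | l
  · exact (w_le x 1 l).tr ((lf_path x 1 _ (by linarith)).tr (At.of_eq _ (by simp [cl_le l])))
  rcases le_or_gt s 1 with l' | l'
  · exact (w_mid x 1 ⟨l.le, l'⟩).tr ((At.of_eq _ (by simp)).tr ((seam2 1 x le_rfl).symm.tr
      ((p2 x _ _ (by norm_num) le_rfl).symm.tr (At.of_eq _ (by simp [cl_mid ⟨l.le, l'⟩])))))
  · exact (w_gt x 1 l').tr ((rt_path x 1 _ (by linarith)).tr
      (At.of_eq _ (by simp [cl_ge l'.le]; ring)))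

theorem w_cut (b : X × ℝ) :
    At ((W D k).pull fun b : X × ℝ => ((b.1, 0), if b.2 ≤ 0 then b.2 else b.2 + 1)) b
      ((D.G k).pull fun b : X × ℝ => (b.1, b.2 + 3)) b ∧
    (W D k).n ((b.1, 0), if b.2 ≤ 0 then b.2 else b.2 + 1) = (D.G k).n (b.1, b.2 + 3) := by
  obtain ⟨x, s⟩ := b
  refine ⟨(at_pull _ _ _).tr (At.tr ?_ ((at_pull _ _ _).tr (at_wn _ _ _)).symm), ?_⟩
  · rw [← Tg_zero, ← Tg_zero]
    rcases le_or_gt s 0 with l | l
    · exact (At.of_eq (W D k) (by simp [l])).tr ((w_le x 0 l).tr (lf_path x 0 _ (by linarith)))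
    · exact (At.of_eq (W D k) (by simp [not_le.2 l])).tr ((w_gt x 0 (s := s + 1) (by linarith)).tr
        ((rt_path x 0 _ (by linarith)).tr (At.of_eq _ (by simp; ring))))
  · rcases le_or_gt s 0 with l | l
    · simp [W, Data.G, PM.wn, l, show s + 3 - 2 = s + 1 by ring]
    · simp [W, Data.G, PM.wn, not_le.2 l, cl_ge (t := s + 3 - 2) (by linarith),
        cl_ge (t := s + 1 + 1) (by linarith)]

theorem w_lp (δ : ℝ) : (((W D k).pull fun b : X × ℝ => ((b.1, 0), b.2)).F (tau δ)).Lp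
    ((D.Lo k).F (tau δ)) := fun x t y ht => by
  refine At.F (A := (W D k).pull fun b : X × ℝ => ((b.1, 0), b.2)) (b := (x, t)) (A' := D.Lo k)
    ((at_pull _ _ _).tr ((w_mid x 0 ht).tr (At.tr ?_ ((at_wn _ _ _).tr (at_pull _ _ _)).symm)))
    ?_ δ y
  · rcases ht.2.eq_or_lt with rfl | l
    · have e : rep ((1 : ℝ) : UnitAddCircle) = 0 := by
        rw [AddCircle.coe_period]; exact rep_coe (t := 0) (by simp)
      exact (At.of_eq (D.K k) (by simp)).tr ((seam5 x 0 (-1)).tr (At.of_eq (D.K k) (by simp [e])))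
    · exact At.of_eq (D.K k) (by simp [rep_coe ⟨ht.1, l⟩])
  · simp [W, Data.Lo, PM.wn, PM.pull, cl_ge (t := t + 1) (by linarith [ht.1])]

end Sq

open Sq in
/-- **ALG** from its leaves -/
theorem alg_of (arc : ARC) (d5 : D5) (lp : LOOP) : ALG := by
  intro X _ _ _ A _ T E₁ E₂ _ _ _ _ _ _ D c κ R₀ M k δ hD hk hδ
  have k16 : 16 ≤ k := by omega
  obtain ⟨lo, ob, e0⟩ := lp X A T E₁ E₂ D c κ R₀ M k δ hD k16 hδ
  have yo : (D.Y k).Ok := y_eq (D := D) (k := k) ▸ path_ok arc hD (.inr rfl)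
  obtain ⟨yf, e1⟩ := rep_eqv yo hδ (fun x s => y_noZ hD x s δ) (ψ := fun s => 3 - cl s)
    (by fun_prop) fun s => ⟨by linarith [(cl_mem s).2], by linarith [(cl_mem s).1]⟩
  obtain ⟨gf, e2⟩ := rep_eqv (g_ok arc hD k).1 hδ (fun x s => (g_ok arc hD k).2 x s δ)
    (ψ := fun _ => 3) continuous_const fun s => by norm_num
  have e3 := PM.eqv_R ((w_ok (k := k) arc hD).pull
    (φ := fun b : (X × ℝ) × ℝ => ((b.1.1, b.2), b.1.2)) (by fun_prop)) hδ
    (K := univ ×ˢ Icc (-3) 4) (isCompact_univ.prod isCompact_Icc) fun b hb u hu =>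
      w_noZ hD b.1 hu b.2 δ (by
        by_contra c
        push Not at c
        exact hb ⟨trivial, c⟩)
  have e4 := e1.trans ((e1.ok.1 yf).eqv_sm (sm_F (fun b => ⟨w_one b, by
    simp [W, PM.wn, PM.pull, Data.Y, path_n, nu_zero]⟩) δ).symm)
  have e5 := e4.trans e3.symm
  have e6 := e2.trans ((e2.ok.1 gf).eqv_sm (sm_F w_cut δ).symm)
  have p := T.pants k (sp (E₁ × E₂)) _ _ k16 (e5.ok.1 yf) (e6.ok.1 gf) lo (w_lp δ)
  rw [← T.pa_eqv k (sp (E₁ × E₂)) _ _ k16 e5, e0] at p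
  have z := (T.pa_eqv k (sp (E₁ × E₂)) _ _ k16 e6).symm.trans
    (d5 X A T E₁ E₂ D c κ R₀ M k δ hD hk hδ (g_ok arc hD))
  refine ⟨yf, ob, ?_⟩
  convert p using 1
  exact (sub_eq_self.2 z).symm

end Crest.Agent.N218.Pm

end
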