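import Crest.Agent.N218.Pm.D5b
import Crest.Agent.N218.Pm.Sq
import Crest.Agent.N218.Pm.Arc
import Crest.Agent.N218.Pm.Loop

/-!
# Row 218, block ALG (helper45): `D5` and `ALG`
-/

set_option autoImplicit false
set_option linter.unusedVariables false
set_option linter.unusedSectionVars false

open Set Topology unitInterval

noncomputable section

namespace Crest.Agent.N218.Pm.Dh

open Sq

variable {X E₁ E₂ : Type} [TopologicalSpace X] [NormedAddCommGroup E₁] [InnerProductSpace ℂ E₁]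
  [NormedAddCommGroup E₂] [InnerProductSpace ℂ E₂] {D : Data X E₁ E₂} {c κ R₀ M : ℝ}

theorem g_sw (D : Data X E₁ E₂) (k : ℕ) : D.G k = SW k {v | (v.1, fun _ => v.2) ∈ (D.G 0).O}
    (fun v => (D.G 0).P (v.1, fun _ => v.2) 0) fun b => (rot (D.π₁ b.1)
      (Real.pi * (1 - cl (b.2 - 2)))).prodMap (rot (D.π₂ b.1) (Real.pi * cl (b.2 - 2))) := by
  unfold Data.G PM.wn SW
  congr 1
  · ext w
    simp only [Data.path, PM.glue, mem_ofPred_eq]
    split_ifs <;> simp [Data.a₁, Data.a₂, Data.a₃, Data.a₄, s1, s2]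
  · funext w i
    simp only [Data.path, PM.glue]
    split_ifs <;> rfl

theorem rot_rot {E : Type} [NormedAddCommGroup E] [InnerProductSpace ℂ E] {π : E →L[ℂ] E}
    (h : ∀ y, π (π y) = π y) (y : E) : rot π Real.pi (rot π Real.pi y) = y := by
  simp only [rot_pi, map_sub, π.map_smul_of_tower, h]; module

theorem pen1 {E : Type} [NormedAddCommGroup E] [InnerProductSpace ℂ E] {π : E →L[ℂ] E}
    (h : ∀ y, π (π y) = π y) {C : E →L[ℝ] E} {c μ t : ℝ} (hC : ‖C‖ ≤ c) (hc : c < 1) (hμ : 1 < μ)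
    (h1 : ∀ y, π (C y) = 0) (ht : t ∈ Icc (0 : ℝ) 1) {v : E}
    (e : t • (v - (C v + μ • π v)) + (1 - t) • rot π Real.pi v = 0) : v = 0 := by
  have a := congrArg π e
  simp only [rot_pi, map_add, map_sub, π.map_smul_of_tower, h, h1, map_zero] at a
  have p : π v = 0 := (smul_eq_zero.1 (show (t * (1 - μ) - (1 - t)) • π v = 0 by
    linear_combination (norm := module) a)).resolve_left fun z => by
      rcases ht.1.eq_or_lt with rfl | t0
      · norm_num at z
      · nlinarith [mul_pos t0 (sub_pos.2 hμ), ht.2]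
  simp only [rot_pi, p, smul_zero, add_zero, sub_zero] at e
  have b : v = t • C v := by linear_combination (norm := module) e
  have n := congrArg norm b
  rw [norm_smul, Real.norm_of_nonneg ht.1] at n
  have := (C.le_opNorm v).trans (mul_le_mul_of_nonneg_right hC (norm_nonneg v))
  exact norm_le_zero_iff.1 (by nlinarith [ht.1, ht.2, norm_nonneg v, norm_nonneg (C v)])

variable [FiniteDimensional ℂ E₁] [FiniteDimensional ℂ E₂]

theorem pm_cont {T E F : Type} [TopologicalSpace T] [NormedAddCommGroup E] [NormedSpace ℝ E]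
    [NormedAddCommGroup F] [NormedSpace ℝ F] {a : T → E →L[ℝ] E} {b : T → F →L[ℝ] F}
    (ha : Continuous a) (hb : Continuous b) : Continuous fun t => (a t).prodMap (b t) :=
  (ContinuousLinearMap.prodMapL ℝ E E F F).continuous.comp (ha.prodMk hb)

theorem rs_cont {T E : Type} [TopologicalSpace T] [NormedAddCommGroup E] [NormedSpace ℂ E]
    {a : T → E →L[ℂ] E} (ha : Continuous a) : Continuous fun t => (a t).restrictScalars ℝ :=
  (ContinuousLinearMap.restrictScalarsL ℂ E E ℝ ℝ).continuous.comp ha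

theorem tvL (hD : D.Ok c κ R₀ M) : Tv (fun x => (1 - (D.C x + D.μ • (D.π₁ x).restrictScalars ℝ)).prodMap
    (1 : E₂ →L[ℝ] E₂)) (fun x => (rot (D.π₁ x) Real.pi).prodMap 1)
    fun b => (rot (D.π₁ b.1) (Real.pi * (1 - b.2))).prodMap 1 :=
  ⟨pm_cont (continuous_const.sub (hD.Cc.add ((rs_cont hD.p₁.ct).const_smul D.μ))) continuous_const,
    pm_cont (rot_cont hD.p₁.ct continuous_const) continuous_const,
    pm_cont (rot_cont (hD.p₁.ct.comp continuous_fst) (by fun_prop)) continuous_const,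
    fun b v e => Prod.ext (rot_inj (hD.p₁.id _) (congrArg Prod.fst e)) (congrArg Prod.snd e :),
    fun x => by simp, fun x => ContinuousLinearMap.ext fun v => Prod.ext (by simp [rot_zero]) rfl,
    fun x v => Prod.ext (rot_rot (hD.p₁.id x) _) rfl, fun x t ht v e => Prod.ext
      (pen1 (hD.p₁.id x) (hD.Cn x) hD.hc hD.hμ (fun y => (hD.Cp x y).1) ht (congrArg Prod.fst e))
      (by simpa [← add_smul] using congrArg Prod.snd e)⟩

theorem tvR (hD : D.Ok c κ R₀ M) : Tv (fun x => (1 : E₁ →L[ℝ] E₁).prodMap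
    (1 - (0 + D.μ • (D.π₂ x).restrictScalars ℝ))) (fun x => (1 : E₁ →L[ℝ] E₁).prodMap
      (rot (D.π₂ x) Real.pi)) fun b => (1 : E₁ →L[ℝ] E₁).prodMap
        (rot (D.π₂ b.1) (Real.pi * (1 - b.2))) :=
  ⟨pm_cont continuous_const (continuous_const.sub (continuous_const.add
      ((rs_cont hD.p₂.ct).const_smul D.μ))),
    pm_cont continuous_const (rot_cont hD.p₂.ct continuous_const),
    pm_cont continuous_const (rot_cont (hD.p₂.ct.comp continuous_fst) (by fun_prop)),
    fun b v e => Prod.ext (congrArg Prod.fst e :) (rot_inj (hD.p₂.id _) (congrArg Prod.snd e)),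
    fun x => by simp, fun x => ContinuousLinearMap.ext fun v => Prod.ext rfl (by simp [rot_zero]),
    fun x v => Prod.ext rfl (rot_rot (hD.p₂.id x) _), fun x t ht v e => Prod.ext
      (by simpa [← add_smul] using congrArg Prod.fst e)
      (pen1 (C := 0) (c := 0) (hD.p₂.id x) (by simp) one_pos hD.hμ (by simp) ht
        (congrArg Prod.snd e))⟩

variable [CompactSpace X] [T2Space X]

theorem step {A : Type} [AddCommGroup A] (T : Th X A) (hD : D.Ok c κ R₀ M) {δ : ℝ} (hδ : 0 < δ)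
    (h : ∀ k, (D.G k).Ok ∧ ∀ x s δ', s ≤ 0 ∨ 6 ≤ s → (D.G k).NoZ δ' (x, s)) {k : ℕ} (hk : 16 ≤ k)
    {n : ℕ} (e : (2 * n) • T.pa k (sp (E₁ × E₂)) ((D.G k).F (tau δ)) = 0) :
    n • T.pa (k + 1) (sp (E₁ × E₂)) ((D.G (k + 1)).F (tau δ)) = 0 := by
  obtain ⟨a, b, ha, hb, s⟩ := pa_pd T hk hδ (h k).1 (tvL hD) (tvR hD)
    (fun x s m => ⟨(at_wn _ _ _).tr ((p1 x _ _ (by linarith)).tr fun w =>
      ⟨⟨fun _ => trivial, fun _ i => (hD.l₁ x s _ m).1⟩, fun _ => funext fun i =>
        Prod.ext (congrArg ((w i).1 - ·) (hD.l₁ x s _ m).2) rfl⟩), by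
      simp only [Data.G, PM.wn, Data.nu, Ln, cl_le (t := s - 2) (by linarith), sub_zero, mul_one,
        mul_zero]
      congr 2; exact ContinuousLinearMap.ext (rot_zero _)⟩)
    fun x s m => ⟨(at_wn _ _ _).tr ((p4 x _ _ (by linarith)).tr fun w =>
      ⟨⟨fun _ => trivial, fun _ i => (hD.r₂ x (s - 5) _ (by linarith)).1⟩, fun _ => funext fun i =>
        Prod.ext rfl (congrArg ((w i).2 - ·) ((hD.r₂ x (s - 5) _ (by linarith)).2.trans
          (zero_add _).symm))⟩), by
      simp only [Data.G, PM.wn, Data.nu, Ln, cl_ge (t := s - 2) (by linarith), sub_self, mul_one,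
        mul_zero]
      congr 2; exact ContinuousLinearMap.ext (rot_zero _)⟩
  have r := T.pa_res k (sp (E₁ × E₂)) (sp ((E₁ × E₂) × E₁ × E₂)) spE.symm _ hk
    (PM.fok (h (k + 1)).1 (tau_ok hδ) (PM.cs_of 0 6 (fun x s m => (h _).2 x s δ (.inl m.le))
      fun x s m => (h _).2 x s δ (.inr m.le))) fun y => spE.injective (by
        rw [spE.apply_symm_apply, spE_apply, spl_sh, ← spE_apply, spE.apply_symm_apply])
  rw [g_sw D (k + 1), sw_cj, ← g_sw, ← g_sw, s] at r
  have z : n • (a + b) = 0 := by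
    rw [mul_comm, mul_smul, two_smul] at e
    rcases ha with rfl | rfl <;> rcases hb with rfl | rfl
    · exact e
    · simp
    · simp
    · rw [← neg_add, smul_neg, e, neg_zero]
  rcases r with r | r
  · rw [← r, z]
  · rw [← neg_eq_zero, ← smul_neg, ← r, z]

end Dh

/-- **D5** -/
theorem d5h : D5 := by
  intro X _ _ _ A _ T E₁ E₂ _ _ _ _ _ _ D c κ R₀ M k δ hD hk hδ h
  obtain ⟨j, rfl⟩ : ∃ j, k = j + 1 + 1 + 1 + 1 + 1 := ⟨k - 5, by omega⟩
  have e := T.tor j (sp (E₁ × E₂)) _ (by omega) (PM.fok (h j).1 (tau_ok hδ) (PM.cs_of 0 6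
    (fun x s m => (h _).2 x s δ (.inl m.le)) fun x s m => (h _).2 x s δ (.inr m.le)))
  simpa using Dh.step T hD hδ h (n := 1) (by omega) (Dh.step T hD hδ h (n := 2) (by omega)
    (Dh.step T hD hδ h (n := 4) (by omega) (Dh.step T hD hδ h (n := 8) (by omega)
      (Dh.step T hD hδ h (n := 16) (by omega) e))))

/-- **ALG** -/
theorem alg : ALG := alg_of arc d5h loop

end Crest.Agent.N218.Pm

end
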