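import Crest.Agent.N218.Pm.Kit1

/-!
# Row 218 (helper41): kit, part 2: empty problems, reparametrisation, reversal, splitting, gluing
-/

set_option autoImplicit false
set_option linter.unusedVariables false
set_option linter.unusedSectionVars false

open Set Topology unitInterval Filter Metric

noncomputable section

namespace Crest.Agent.N218.Pm

variable {B B' : Type} [TopologicalSpace B] [TopologicalSpace B'] {k : ℕ} {E : Type}
  [NormedAddCommGroup E] [NormedSpace ℝ E]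

namespace Pb
variable [T2Space B] {P : Pb (B × ℝ) k E}

/-- reparametrisation -/
abbrev rp (P : Pb (B × ℝ) k E) (φ : B × ℝ → ℝ) : Pb (B × ℝ) k E := P.pull fun b => (b.1, φ b)

theorem Ok.bd (h : P.Ok) : ∃ M : ℝ, 0 < M ∧ ∀ x ∈ P.Z, -M < x.1.2 ∧ x.1.2 < M := by
  obtain ⟨M, hM⟩ := h.cp.exists_bound_of_continuousOn (f := fun x => x.1.2) (by fun_prop)
  refine ⟨|M| + 1, by positivity, fun x hx => abs_lt.1 ?_⟩
  exact (hM x hx).trans_lt ((le_abs_self M).trans_lt (lt_add_one _))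

/-- **reparametrisation**: zeros in `(c, d)`, `φ ≤ c` far left, `d ≤ φ` far right -/
theorem Ok.eqv_rp (h : P.Ok) {c d R : ℝ} (hz : ∀ x ∈ P.Z, c < x.1.2 ∧ x.1.2 < d) {φ : B × ℝ → ℝ}
    (hφ : Continuous φ) (l : ∀ b : B × ℝ, b.2 ≤ -R → φ b ≤ c) (r : ∀ b : B × ℝ, R ≤ b.2 → d ≤ φ b) :
    P.Eqv (P.rp φ) := by
  have := h.eqv_pull (H := fun x : (B × ℝ) × I => (x.1.1, (1 - (x.2 : ℝ)) * x.1.2 + x.2 * φ x.1))
    (by fun_prop) ((h.cp.image (f := fun x => x.1.1) (by fun_prop)).prod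
      (isCompact_Icc (a := -(|R| + |c|)) (b := |R| + |d|))) fun b s y hx => by
      have a := hz _ hx
      refine ⟨⟨_, hx, rfl⟩, le_of_not_gt fun n => ?_, le_of_not_gt fun n => ?_⟩
      · have := l b (by linarith [le_abs_self R, abs_nonneg c])
        have : b.2 ≤ c := by linarith [neg_abs_le c, abs_nonneg R]
        nlinarith [a.1, s.2.1, s.2.2]
      · have := r b (by linarith [le_abs_self R, abs_nonneg d])
        have : d ≤ b.2 := by linarith [le_abs_self d, abs_nonneg R]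
        nlinarith [a.2, s.2.1, s.2.2]
  simp only [Icc.coe_zero, Icc.coe_one, sub_zero, one_mul, zero_mul, add_zero, sub_self,
    zero_add] at this
  exact this
theorem Ok.rp (h : P.Ok) {c d R : ℝ} (hz : ∀ x ∈ P.Z, c < x.1.2 ∧ x.1.2 < d) {φ : B × ℝ → ℝ}
    (hφ : Continuous φ) (l : ∀ b : B × ℝ, b.2 ≤ -R → φ b ≤ c) (r : ∀ b : B × ℝ, R ≤ b.2 → d ≤ φ b) :
    (P.rp φ).Ok := (h.eqv_rp hz hφ l r).ok.1 h
/-- affine reparametrisation -/
theorem Ok.eqv_aff (h : P.Ok) {a : ℝ} (ha : 0 < a) (c : ℝ) : P.Eqv (P.rp fun b => a * b.2 + c) := by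
  obtain ⟨M, M0, hM⟩ := h.bd
  refine h.eqv_rp hM (R := (M + |c|) / a) (by fun_prop) (fun b e => ?_) fun b e => ?_
  · rw [← neg_div, le_div_iff₀ ha] at e; nlinarith [le_abs_self c]
  · rw [div_le_iff₀ ha] at e; nlinarith [neg_abs_le c]
theorem Ok.eqv_tr (h : P.Ok) (c : ℝ) : P.Eqv (P.rp fun b => b.2 + c) := by
  simpa using h.eqv_aff one_pos c
theorem Ok.rev (h : P.Ok) : P.rev.Ok :=
  h.pull (by fun_prop) (h.cp.image (f := fun x => (x.1.1, -x.1.2)) (by fun_prop))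
    fun x hx => ⟨_, hx, by simp⟩
/-- the left part -/
theorem Ok.left (h : P.Ok) {c : ℝ} (hc : ∀ x ∈ P.Z, x.1.2 ≠ c) : (P.rs {x | x.1.2 < c}).Ok ∧
    (P.rp fun b => min b.2 c).Ok ∧ (P.rs {x | x.1.2 < c}).Eqv (P.rp fun b => min b.2 c) := by
  have o : IsOpen {x : (B × ℝ) × V k E | x.1.2 < c} := isOpen_lt (by fun_prop) continuous_const
  have a : (P.rs {x | x.1.2 < c}).Ok := h.rs o (fun _ e => e) (by
    convert h.cp.inter_right (isClosed_le (f := fun x => x.1.2) (g := fun _ => c) (by fun_prop)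
      continuous_const) using 1
    exact Set.ext fun x => ⟨fun e => ⟨e.1, (show x.1.2 < c from e.2).le⟩,
      fun e => ⟨e.1, (show x.1.2 ≤ c from e.2).lt_of_ne (hc x e.1)⟩⟩)
  have z : ∀ x ∈ (P.rp fun b => min b.2 c).Z, x.1.2 < c := fun x hx =>
    lt_of_not_ge fun n => hc ((x.1.1, min x.1.2 c), x.2) hx (min_eq_right n)
  have b : (P.rp fun b => min b.2 c).Ok := h.pull (by fun_prop)
    (h.cp.image (f := Prod.fst) continuous_fst) fun x hx => ⟨_, hx, by simp [(z x hx).le]⟩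
  refine ⟨a, b, a.eqv_germ b o (fun _ e => e) (fun x hx => hx.1.2) z fun x hx => ?_⟩
  simp [Pb.pull, Pb.rs, (show x.1.2 < c from hx).le, show x.1.2 < c from hx]
/-- the right part -/
theorem Ok.right (h : P.Ok) {c : ℝ} (hc : ∀ x ∈ P.Z, x.1.2 ≠ c) : (P.rs {x | c < x.1.2}).Ok ∧
    (P.rp fun b => max b.2 c).Ok ∧ (P.rs {x | c < x.1.2}).Eqv (P.rp fun b => max b.2 c) := by
  have o : IsOpen {x : (B × ℝ) × V k E | c < x.1.2} := isOpen_lt continuous_const (by fun_prop)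
  have a : (P.rs {x | c < x.1.2}).Ok := h.rs o (fun _ e => e) (by
    convert h.cp.inter_right (isClosed_le (g := fun x => x.1.2) (f := fun _ => c) continuous_const
      (by fun_prop)) using 1
    exact Set.ext fun x => ⟨fun e => ⟨e.1, (show c < x.1.2 from e.2).le⟩,
      fun e => ⟨e.1, (show c ≤ x.1.2 from e.2).lt_of_ne' (hc x e.1)⟩⟩)
  have z : ∀ x ∈ (P.rp fun b => max b.2 c).Z, c < x.1.2 := fun x hx =>
    lt_of_not_ge fun n => hc ((x.1.1, max x.1.2 c), x.2) hx (max_eq_right n)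
  have b : (P.rp fun b => max b.2 c).Ok := h.pull (by fun_prop)
    (h.cp.image (f := Prod.fst) continuous_fst) fun x hx => ⟨_, hx, by simp [(z x hx).le]⟩
  refine ⟨a, b, a.eqv_germ b o (fun _ e => e) (fun x hx => hx.1.2) z fun x hx => ?_⟩
  simp [Pb.pull, Pb.rs, (show c < x.1.2 from hx).le, show c < x.1.2 from hx]
end Pb

namespace Th
variable {X : Type} [TopologicalSpace X] [T2Space X] {A : Type} [AddCommGroup A] (T : Th X A)
  {S : Sp} (hk : 16 ≤ k)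
include hk

theorem pa_emp {P : Pb (X × ℝ) k S.E} (h : P.Ok) (hz : ∀ x, x ∉ P.Z) : T.pa k S P = 0 := by
  obtain ⟨a, b⟩ := h.eqv_rs isOpen_empty (fun _ e => e) fun x e => hz x e
  have := T.pa_sum k S P ∅ ∅ hk h a a (by simp) fun x e => (hz x e).elim
  rw [← T.pa_eqv k S _ _ hk b] at this
  simpa using this
theorem an_emp {P : Pb (X × UnitAddCircle) k S.E} (h : P.Ok) (hz : ∀ x, x ∉ P.Z) :
    T.an k S P = 0 := by
  obtain ⟨a, b⟩ := h.eqv_rs isOpen_empty (fun _ e => e) fun x e => hz x e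
  have := T.an_sum k S P ∅ ∅ hk h a a (by simp) fun x e => (hz x e).elim
  rw [← T.an_eqv k S _ _ hk b] at this
  simpa using this
theorem pa_rp {P : Pb (X × ℝ) k S.E} (h : P.Ok) {c d R : ℝ}
    (hz : ∀ x ∈ P.Z, c < x.1.2 ∧ x.1.2 < d) {φ : X × ℝ → ℝ} (hφ : Continuous φ)
    (l : ∀ b : X × ℝ, b.2 ≤ -R → φ b ≤ c) (r : ∀ b : X × ℝ, R ≤ b.2 → d ≤ φ b) :
    T.pa k S (P.rp φ) = T.pa k S P := (T.pa_eqv k S _ _ hk (h.eqv_rp hz hφ l r)).symm
/-- **splitting** at a parameter without zeros -/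
theorem pa_split {P : Pb (X × ℝ) k S.E} (h : P.Ok) {c : ℝ} (hc : ∀ x ∈ P.Z, x.1.2 ≠ c) :
    T.pa k S P = T.pa k S (P.rp fun b => min b.2 c) + T.pa k S (P.rp fun b => max b.2 c) := by
  rw [← T.pa_eqv k S _ _ hk (h.left hc).2.2, ← T.pa_eqv k S _ _ hk (h.right hc).2.2]
  exact T.pa_sum k S P _ _ hk h (h.left hc).1 (h.right hc).1
    (Set.disjoint_left.2 fun x a b => lt_asymm (show x.1.2 < c from a) b) fun x hx => lt_or_gt_of_ne (hc x hx)
/-- **reversal** -/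
theorem pa_rev {P : Pb (X × ℝ) k S.E} (h : P.Ok) : T.pa k S P.rev = -T.pa k S P := by
  obtain ⟨M, M0, hM⟩ := h.bd
  have e := h.eqv_pull (H := fun x : (X × ℝ) × I => (x.1.1, |x.1.2| - M + 2 * M * x.2))
    (by fun_prop) ((h.cp.image (f := fun x => x.1.1) (by fun_prop)).prod
      (isCompact_Icc (a := -(2 * M)) (b := 2 * M))) fun b s y hx =>
      ⟨⟨_, hx, rfl⟩, abs_le.1 (by nlinarith [(hM _ hx).2, s.2.1])⟩
  have o : (P.rp fun b => |b.2| - M + 2 * M * (0 : I)).Ok := h.pull (by fun_prop)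
    ((h.cp.image (f := fun x => x.1.1) (by fun_prop)).prod
      (isCompact_Icc (a := -(2 * M)) (b := 2 * M))) fun x hx =>
      ⟨⟨_, hx, rfl⟩, abs_le.1 (by have := (hM _ hx).2; simp at this; linarith)⟩
  have z := (T.pa_eqv k S _ _ hk e).trans (T.pa_emp hk (e.ok.1 o) fun x hx => by
    have := (hM _ hx).2; simp at this; linarith [abs_nonneg x.1.2])
  rw [T.pa_split hk o (c := 0) fun x hx n => by have := (hM _ hx).1; simp [n] at this] at z
  have a := T.pa_rp hk h hM (R := 2 * M) (φ := fun b => |max b.2 0| - M + 2 * M * (0 : I))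
    (by fun_prop) (fun b e => by simp [show b.2 ≤ 0 by linarith])
    fun b e => by simp [abs_of_nonneg, show 0 ≤ b.2 by linarith]; linarith
  have b := T.pa_rp hk h.rev (c := -M) (d := M)
    (fun x hx => ⟨by linarith [(hM _ hx).2], by linarith [(hM _ hx).1]⟩) (R := 2 * M)
    (φ := fun b => -(|min b.2 0| - M + 2 * M * (0 : I))) (by fun_prop)
    (fun b e => by simp [abs_of_nonpos, show b.2 ≤ 0 by linarith]; linarith)
    fun b e => by simp [show 0 ≤ b.2 by linarith]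
  rw [← a, ← b, eq_neg_iff_add_eq_zero, ← z]
  simp only [Pb.rp, Pb.rev, Pb.pull, mem_ofPred_eq, neg_neg]
end Th

/-! ## agreement and gluing -/
namespace PM

/-- `A` over `b` agrees with `A'` over `b'` -/
def Ag (A : PM B k E) (b : B) (A' : PM B' k E) (b' : B') : Prop :=
  (∀ y, ((b, y) ∈ A.O ↔ (b', y) ∈ A'.O) ∧ ((b, y) ∈ A.O → A.P (b, y) = A'.P (b', y))) ∧
    A.n b = A'.n b'
theorem Ag.rfl' (A : PM B k E) (b : B) : A.Ag b A b := ⟨fun _ => ⟨Iff.rfl, fun _ => rfl⟩, rfl⟩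
theorem Ag.symm {A : PM B k E} {b : B} {A' : PM B' k E} {b' : B'} (h : A.Ag b A' b') :
    A'.Ag b' A b :=
  ⟨fun y => ⟨(h.1 y).1.symm, fun e => ((h.1 y).2 ((h.1 y).1.2 e)).symm⟩, h.2.symm⟩
theorem Ag.trans {B'' : Type} {A : PM B k E} {b : B} {A' : PM B' k E} {b' : B'} {A'' : PM B'' k E}
    {b'' : B''} (h : A.Ag b A' b') (h' : A'.Ag b' A'' b'') : A.Ag b A'' b'' :=
  ⟨fun y => ⟨(h.1 y).1.trans (h'.1 y).1, fun e => ((h.1 y).2 e).trans ((h'.1 y).2 ((h.1 y).1.1 e))⟩,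
    h.2.trans h'.2⟩
theorem Ag.noz {A : PM B k E} {b : B} {A' : PM B' k E} {b' : B'} (h : A.Ag b A' b') {δ : ℝ}
    (z : A'.NoZ δ b') : A.NoZ δ b := fun y t a c d e =>
  z y t a c ((h.1 _).1.1 d) (by rw [← (h.1 _).2 d, ← h.2]; exact e)
theorem F_sm {A A' : PM B k E} (h : ∀ b, A.Ag b A' b) (τ : B × V k E → ℝ) : (A.F τ).Sm (A'.F τ) :=
  ⟨Set.ext fun x => and_congr_right fun _ => ((h x.1).1 _).1, fun x hx => by
    simp only [F]; rw [((h x.1).1 _).2 hx.2, (h x.1).2]⟩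
theorem Ec_sm {A A' : PM B k E} (h : ∀ b, A.Ag b A' b) : A.Ec.Sm A'.Ec :=
  ⟨Set.ext fun x => and_congr_right fun _ => ((h x.1.1).1 _).1, fun x hx => by
    simp only [Ec]; rw [((h x.1.1).1 _).2 hx.2, (h x.1.1).2]⟩
theorem Ok.ag {A A' : PM B k E} (o : A.Ok) (h : ∀ b, A.Ag b A' b) : A'.Ok := by
  have e : A.O = A'.O := Set.ext fun x => ((h x.1).1 x.2).1
  have p : ∀ x ∈ A.O, A.P x = A'.P x := fun x => ((h x.1).1 x.2).2
  have n : A.n = A'.n := funext fun b => (h b).2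
  refine ⟨e ▸ o.op, e ▸ o.inv, e ▸ o.ct.congr fun x a => (p x a).symm, fun x a => ?_,
    fun K hK R => ?_, n ▸ o.nc, n ▸ o.ne, n ▸ o.ni⟩
  · rw [← e] at a; rw [← p x a, ← p _ (o.inv x a), o.eq x a]
  · convert o.pp K hK R using 1
    exact Set.ext fun x => by
      rw [← e]; exact and_congr_right fun a => by rw [p x a]
theorem Adm.ag {A A' : PM B k E} (o : A.Adm) (h : ∀ b, A.Ag b A' b) : A'.Adm :=
  ⟨o.1.sm (Ec_sm h), fun x a e => o.2 x (((h x.1).1 x.2).1.2 a)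
    ((((h x.1).1 x.2).2 (((h x.1).1 x.2).1.2 a)).trans e)⟩

variable {A A' : PM (B × ℝ) k E} {c : ℝ}

theorem glue_le {b : B × ℝ} (h : b.2 ≤ c) : (glue c A A').Ag b A b := by simp [Ag, glue, h]
theorem glue_gt {b : B × ℝ} (h : c < b.2) : (glue c A A').Ag b A' b := by simp [Ag, glue, h.not_ge]
theorem glue_ge (j : ∀ x, A.Ag (x, c) A' (x, c)) {b : B × ℝ} (h : c ≤ b.2) :
    (glue c A A').Ag b A' b := by
  rcases h.eq_or_lt with e | e
  · obtain ⟨x, t⟩ := b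
    obtain rfl : c = t := e
    exact (glue_le le_rfl).trans (j x)
  · exact glue_gt e

/-- **gluing** -/
theorem Ok.glue (h : A.Ok) (h' : A'.Ok) (j : ∀ x, A.Ag (x, c) A' (x, c)) : (glue c A A').Ok := by
  have l : ∀ x : (B × ℝ) × V k E, x.1.2 ≤ c → (x ∈ (PM.glue c A A').O ↔ x ∈ A.O) ∧
      (x ∈ (PM.glue c A A').O → (PM.glue c A A').P x = A.P x) := fun x e => (glue_le e).1 x.2
  have r : ∀ x : (B × ℝ) × V k E, c ≤ x.1.2 → (x ∈ (PM.glue c A A').O ↔ x ∈ A'.O) ∧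
      (x ∈ (PM.glue c A A').O → (PM.glue c A A').P x = A'.P x) := fun x e => (glue_ge j e).1 x.2
  have cl : IsClosed {x : (B × ℝ) × V k E | x.1.2 ≤ c} := isClosed_le (by fun_prop) continuous_const
  have cr : IsClosed {x : (B × ℝ) × V k E | c ≤ x.1.2} := isClosed_le continuous_const (by fun_prop)
  have op : IsOpen (PM.glue c A A').O := by
    convert (h.op.union cl.isOpen_compl).inter (h'.op.union cr.isOpen_compl) using 1
    ext x
    rcases lt_trichotomy x.1.2 c with e | e | e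
    · simp [(l x e.le).1, e.le, e.not_ge]
    · have := (l x e.le).1.symm.trans (r x e.ge).1
      simp [(l x e.le).1, e, this]
    · simp [(r x e.le).1, e.le, e.not_ge]
  have u : ∀ s : Set ((B × ℝ) × V k E), s = s ∩ {x | x.1.2 ≤ c} ∪ s ∩ {x | c ≤ x.1.2} := fun s =>
    Set.ext fun x => ⟨fun a => (le_total x.1.2 c).imp (fun b => ⟨a, b⟩) fun b => ⟨a, b⟩,
      fun a => a.elim (·.1) (·.1)⟩
  refine ⟨op, fun x a => ?_, fun x a => ?_, fun x a => ?_, fun K hK R => ?_, ?_, fun b y => ?_,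
    fun b y => ?_⟩
  · rcases le_total x.1.2 c with e | e
    · exact (l (x.1, sh k E x.2) e).1.2 (h.inv x ((l x e).1.1 a))
    · exact (r (x.1, sh k E x.2) e).1.2 (h'.inv x ((r x e).1.1 a))
  · rw [u (PM.glue c A A').O]
    refine ContinuousWithinAt.union ?_ ?_
    · by_cases e : x.1.2 ≤ c
      · exact ((h.ct.mono fun y b => (l y b.2).1.1 b.1).congr fun y b => (l y b.2).2 b.1) x ⟨a, e⟩
      · exact continuousWithinAt_of_notMem_closure fun n =>
          e (closure_minimal inter_subset_right cl n)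
    · by_cases e : c ≤ x.1.2
      · exact ((h'.ct.mono fun y b => (r y b.2).1.1 b.1).congr fun y b => (r y b.2).2 b.1) x ⟨a, e⟩
      · exact continuousWithinAt_of_notMem_closure fun n =>
          e (closure_minimal inter_subset_right cr n)
  · rcases le_total x.1.2 c with e | e
    · have := (l x e).1.1 a
      rw [(l (x.1, sh k E x.2) e).2 ((l (x.1, sh k E x.2) e).1.2 (h.inv x this)), (l x e).2 a, h.eq x this]
    · have := (r x e).1.1 a
      rw [(r (x.1, sh k E x.2) e).2 ((r (x.1, sh k E x.2) e).1.2 (h'.inv x this)), (r x e).2 a, h'.eq x this]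
  · convert ((h.pp K hK R).inter_right cl).union ((h'.pp K hK R).inter_right cr) using 1
    ext x
    constructor
    · rintro ⟨a, b, d⟩
      rcases le_total x.1.2 c with e | e
      · exact .inl ⟨⟨(l x e).1.1 a, b, (l x e).2 a ▸ d⟩, e⟩
      · exact .inr ⟨⟨(r x e).1.1 a, b, (r x e).2 a ▸ d⟩, e⟩
    · rintro (⟨⟨a, b, d⟩, e⟩ | ⟨⟨a, b, d⟩, e⟩)
      · exact ⟨(l x e).1.2 a, b, ((l x e).2 ((l x e).1.2 a)).symm ▸ d⟩
      · exact ⟨(r x e).1.2 a, b, ((r x e).2 ((r x e).1.2 a)).symm ▸ d⟩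
  · refine Continuous.if_le h.nc h'.nc continuous_snd continuous_const fun b e => ?_
    obtain ⟨x, t⟩ := b
    obtain rfl : t = c := e
    exact (j x).2
  · simp only [PM.glue]; split_ifs; exacts [h.ne b y, h'.ne b y]
  · simp only [PM.glue]; split_ifs; exacts [h.ni b y, h'.ni b y]

theorem NoZ.glue {δ : ℝ} {b : B × ℝ} (h : b.2 ≤ c → A.NoZ δ b) (h' : c < b.2 → A'.NoZ δ b) :
    (glue c A A').NoZ δ b :=
  (le_or_gt b.2 c).elim (fun e => (glue_le e).noz (h e)) fun e => (glue_gt e).noz (h' e)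
theorem Cs.glue {δ : ℝ} (h : A.Cs δ) (h' : A'.Cs δ) : (glue c A A').Cs δ :=
  let ⟨_, a, b⟩ := h; let ⟨_, a', b'⟩ := h'
  ⟨_, a.union a', fun x e => NoZ.glue (fun _ => b x fun n => e (.inl n))
    fun _ => b' x fun n => e (.inr n)⟩
/-- no free zero outside `[a, b]` -/
theorem cs_of [CompactSpace B] {δ : ℝ} (a b : ℝ) (l : ∀ x t, t < a → A.NoZ δ (x, t))
    (r : ∀ x t, b < t → A.NoZ δ (x, t)) : A.Cs δ :=
  ⟨univ ×ˢ Icc a b, isCompact_univ.prod isCompact_Icc, fun x e => (lt_or_ge x.2 a).elim (l _ _)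
    fun u => r _ _ (lt_of_not_ge fun v => e ⟨mem_univ _, u, v⟩)⟩
/-- the same for homotopies of paths -/
theorem cs_of' [CompactSpace B] {T : Type} [TopologicalSpace T] [CompactSpace T]
    {A : PM ((B × ℝ) × T) k E} {δ : ℝ} (a b : ℝ) (l : ∀ x t s, t < a → A.NoZ δ ((x, t), s))
    (r : ∀ x t s, b < t → A.NoZ δ ((x, t), s)) : A.Cs δ :=
  ⟨(univ ×ˢ Icc a b) ×ˢ univ, (isCompact_univ.prod isCompact_Icc).prod isCompact_univ,
    fun x e => (lt_or_ge x.1.2 a).elim (l _ _ _)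
      fun u => r _ _ _ (lt_of_not_ge fun v => e ⟨⟨mem_univ _, u, v⟩, mem_univ _⟩)⟩
theorem cs_cpt [CompactSpace B] (A : PM B k E) (δ : ℝ) : A.Cs δ :=
  ⟨univ, isCompact_univ, fun _ e => (e (mem_univ _)).elim⟩
/-- reparametrisation -/
abbrev rp (A : PM (B × ℝ) k E) (φ : B × ℝ → ℝ) : PM (B × ℝ) k E := A.pull fun b => (b.1, φ b)
end PM

namespace Th
variable {X : Type} [TopologicalSpace X] [T2Space X] {A : Type} [AddCommGroup A] (T : Th X A)
  {S : Sp} (hk : 16 ≤ k) {δ : ℝ} (hδ : 0 < δ)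
include hk hδ

/-- homotopy of paths -/
theorem pa_ht {Q : PM ((X × ℝ) × I) k S.E} (h : Q.Ok) (hc : Q.Cs δ) :
    T.pa k S ((Q.pull fun b => (b, 0)).F (tau δ)) = T.pa k S ((Q.pull fun b => (b, 1)).F (tau δ)) :=
  T.pa_eqv k S _ _ hk (PM.eqv_F h hδ hc)
/-- homotopy of loops -/
theorem an_ht [CompactSpace X] {Q : PM ((X × UnitAddCircle) × I) k S.E} (h : Q.Ok) :
    T.an k S ((Q.pull fun b => (b, 0)).F (tau δ)) = T.an k S ((Q.pull fun b => (b, 1)).F (tau δ)) :=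
  T.an_eqv k S _ _ hk (PM.eqv_F h hδ (Q.cs_cpt δ))
theorem pa_ag {Q Q' : PM (X × ℝ) k S.E} (h : Q.Ok) (hc : Q.Cs δ) (e : ∀ b, Q.Ag b Q' b) :
    T.pa k S (Q.F (tau δ)) = T.pa k S (Q'.F (tau δ)) :=
  T.pa_eqv k S _ _ hk ((PM.fok h (tau_ok hδ) hc).eqv_sm (PM.F_sm e _))
theorem pa_noz {Q : PM (X × ℝ) k S.E} (h : Q.Ok) (z : ∀ b, Q.NoZ δ b) :
    T.pa k S (Q.F (tau δ)) = 0 :=
  T.pa_emp hk (PM.fok h (tau_ok hδ) ⟨∅, isCompact_empty, fun b _ => z b⟩)
    fun x => (z x.1).notMem (tau_ok hδ)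
theorem pa_cutF {Q : PM (X × ℝ) k S.E} (h : Q.Ok) (hc : Q.Cs δ) {c : ℝ} (z : ∀ x, Q.NoZ δ (x, c)) :
    T.pa k S (Q.F (tau δ)) = T.pa k S ((Q.rp fun b => min b.2 c).F (tau δ)) +
      T.pa k S ((Q.rp fun b => max b.2 c).F (tau δ)) :=
  T.pa_split hk (PM.fok h (tau_ok hδ) hc) fun x hx e =>
    PM.NoZ.notMem (tau_ok hδ) (x := x) (by rw [← Prod.mk.eta (p := x.1), e]; exact z _) hx
/-- a path without free zeros on the right of `c` may be cut at `c` -/
theorem pa_min {Q : PM (X × ℝ) k S.E} (h : Q.Ok) (hc : Q.Cs δ) {c : ℝ}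
    (z : ∀ x t, c ≤ t → Q.NoZ δ (x, t)) :
    T.pa k S ((Q.rp fun b => min b.2 c).F (tau δ)) = T.pa k S (Q.F (tau δ)) := by
  rw [T.pa_cutF hk hδ h hc fun x => z x c le_rfl, T.pa_noz hk hδ (Q := Q.rp fun b => max b.2 c)
    (h.pull (by fun_prop)) fun b => z b.1 _ (le_max_right b.2 c), add_zero]
theorem pa_max {Q : PM (X × ℝ) k S.E} (h : Q.Ok) (hc : Q.Cs δ) {c : ℝ}
    (z : ∀ x t, t ≤ c → Q.NoZ δ (x, t)) :
    T.pa k S ((Q.rp fun b => max b.2 c).F (tau δ)) = T.pa k S (Q.F (tau δ)) := by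
  rw [T.pa_cutF hk hδ h hc fun x => z x c le_rfl, T.pa_noz hk hδ (Q := Q.rp fun b => min b.2 c)
    (h.pull (by fun_prop)) fun b => z b.1 _ (min_le_right b.2 c), zero_add]
/-- **concatenation** -/
theorem pa_glue {Q Q' : PM (X × ℝ) k S.E} (h : Q.Ok) (h' : Q'.Ok) (hc : Q.Cs δ) (hc' : Q'.Cs δ)
    {c : ℝ} (j : ∀ x, Q.Ag (x, c) Q' (x, c)) (z : ∀ x t, c ≤ t → Q.NoZ δ (x, t))
    (z' : ∀ x t, t ≤ c → Q'.NoZ δ (x, t)) :
    T.pa k S ((PM.glue c Q Q').F (tau δ)) = T.pa k S (Q.F (tau δ)) + T.pa k S (Q'.F (tau δ)) := by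
  have g := h.glue h' j
  have o := PM.fok g (tau_ok hδ) (hc.glue hc')
  have n : ∀ x ∈ ((PM.glue c Q Q').F (tau δ)).Z, x.1.2 ≠ c := fun x hx e =>
    PM.NoZ.notMem (tau_ok hδ) (x := x) ((PM.glue_le e.le).noz (z x.1.1 x.1.2 e.ge)) hx
  rw [T.pa_split hk o n, ← T.pa_min hk hδ h hc z, ← T.pa_max hk hδ h' hc' z']
  congr 1
  · exact T.pa_eqv k S _ _ hk ((o.left n).2.1.eqv_sm (PM.F_sm (A := (PM.glue c Q Q').rp fun b => min b.2 c)
      (A' := Q.rp fun b => min b.2 c) (fun b => PM.glue_le (b := (b.1, _)) (min_le_right b.2 c)) _))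
  · exact T.pa_eqv k S _ _ hk ((o.right n).2.1.eqv_sm (PM.F_sm (A := (PM.glue c Q Q').rp fun b => max b.2 c)
      (A' := Q'.rp fun b => max b.2 c) (fun b => PM.glue_ge j (b := (b.1, _)) (le_max_right b.2 c)) _))
end Th

end Crest.Agent.N218.Pm
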