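import Crest.Agent.N218.Pm.Kit1

/-!
# Row 218 (helper79): the free part of a path of families and the canonical problems of its ends
-/

set_option autoImplicit false
set_option linter.unusedVariables false
set_option linter.unusedSectionVars false

open Set Topology unitInterval

noncomputable section

namespace Crest.Agent.N218.Pm

namespace Ecf
variable {B : Type} [TopologicalSpace B] {k : ℕ} {E : Type} [NormedAddCommGroup E]
  [NormedSpace ℝ E] {A : PM B k E}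

/-- the free part with two normalising functions -/
def G (A : PM B k E) (τ ρ : B × V k E → ℝ) : Pb B k E :=
  ⟨{x | mn x.2 ≠ 0 ∧ (x.1, x.2 - (1 - τ x) • mn x.2) ∈ A.O},
    fun x => A.P (x.1, x.2 - (1 - τ x) • mn x.2) + ρ x • A.n x.1 (mn x.2)⟩

theorem gok [FiniteDimensional ℝ E] [T2Space B] (h : A.Ok) {τ ρ : B × V k E → ℝ}
    (ct : Continuous τ) (cr : Continuous ρ) (inv : ∀ x, τ (x.1, sh k E x.2) = τ x)
    (inr : ∀ x, ρ (x.1, sh k E x.2) = ρ x) {K : Set B} (hK : IsCompact K) {d R : ℝ} (hd : 0 < d)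
    (hz : ∀ x ∈ (G A τ ρ).Z, x.1 ∈ K ∧ d ≤ ‖mn x.2‖ ∧ ‖(1 - τ x) • mn x.2‖ ≤ R ∧
      ‖ρ x • mn x.2‖ ≤ R) : (G A τ ρ).Ok := by
  have c : Continuous fun x : B × V k E => (x.1, x.2 - (1 - τ x) • mn x.2) := by fun_prop
  have nc := h.nc
  have ct' : ContinuousOn (G A τ ρ).h (G A τ ρ).O :=
    (h.ct.comp c.continuousOn fun x hx => hx.2).add (Continuous.continuousOn (by fun_prop))
  refine ⟨(isOpen_ne_fun (by fun_prop) continuous_const).inter (h.op.preimage c), fun x hx => ?_,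
    ct', fun x hx => ?_, ?_, fun x hx => hx.1⟩
  · refine ⟨sh_ne hx.1, ?_⟩
    have := h.inv _ hx.2
    simpa only [inv, sh_nrm] using this
  · have := h.eq _ hx.2
    simp only [G, inv, inr, sh_nrm, map_add, map_smul] at this ⊢
    rw [this, mn_sh, h.ne]
  obtain ⟨C, hC⟩ := hK.exists_bound_of_continuousOn nc.continuousOn
  have k1 := h.pp K hK (|C| * R)
  obtain ⟨M, hM⟩ := k1.exists_bound_of_continuousOn continuous_snd.continuousOn
  let S : Set (B × V k E) := {x | d ≤ ‖mn x.2‖} ∩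
    (fun x : B × V k E => (x.1, x.2 - (1 - τ x) • mn x.2)) ⁻¹' {x ∈ A.O | x.1 ∈ K ∧ ‖A.P x‖ ≤ |C| * R}
  have s1 : IsClosed S := (isClosed_le continuous_const (by fun_prop)).inter (k1.isClosed.preimage c)
  have s2 : S ⊆ (G A τ ρ).O := fun x hx => ⟨norm_pos_iff.1 (hd.trans_le hx.1), hx.2.1⟩
  have s3 : ∀ x ∈ (G A τ ρ).Z, x ∈ S := fun x hx => by
    obtain ⟨a, b, -, e⟩ := hz x hx
    refine ⟨b, hx.1.2, a, ?_⟩
    have z : A.P (x.1, x.2 - (1 - τ x) • mn x.2) = _ := eq_neg_of_add_eq_zero_left hx.2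
    change ‖A.P (x.1, x.2 - (1 - τ x) • mn x.2)‖ ≤ _
    rw [z, norm_neg, ← map_smul]
    exact ((A.n x.1).le_opNorm _).trans
      (mul_le_mul ((hC _ a).trans (le_abs_self C)) e (norm_nonneg _) (abs_nonneg C))
  have s4 : (G A τ ρ).Z = S ∩ (G A τ ρ).h ⁻¹' {0} :=
    Set.ext fun x => ⟨fun e => ⟨s3 x e, e.2⟩, fun e => ⟨s2 e.1, e.2⟩⟩
  refine (hK.prod (isCompact_closedBall (0 : V k E) (M + R))).of_isClosed_subset
    (s4 ▸ (ct'.mono s2).preimage_isClosed_of_isClosed s1 isClosed_singleton) fun x hx =>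
      ⟨(hz x hx).1, mem_closedBall_zero_iff.2 ?_⟩
  have := norm_add_le (x.2 - (1 - τ x) • mn x.2) ((1 - τ x) • mn x.2)
  rw [sub_add_cancel] at this
  exact this.trans (add_le_add (hM _ (s3 x hx).2) (hz x hx).2.2.1)

/-- a free zero -/
structure Zr (A : PM B k E) (b : B) (y : V k E) (t ρ : ℝ) : Prop where
  ne : mn y ≠ 0
  mem : (b, y - (1 - t) • mn y) ∈ A.O
  eq : A.P (b, y - (1 - t) • mn y) + ρ • A.n b (mn y) = 0

theorem Zr.of {τ ρ : B × V k E → ℝ} {x : B × V k E} (h : x ∈ (G A τ ρ).Z) :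
    Zr A x.1 x.2 (τ x) (ρ x) := ⟨h.1.1, h.1.2, h.2⟩

variable {b : B} {y : V k E} {t ρ ε C : ℝ}

theorem Zr.pos (z : Zr A b y t ρ) (h : A.Ok) (h0 : 0 ≤ t) (h1 : 1 - t ≤ ρ) : 0 < t := by
  refine lt_of_le_of_ne h0 fun e => z.ne ?_
  subst e
  have a := congrArg mn z.eq
  rw [mn_add, h.even z.mem (by rw [mn_nrm, zero_smul]), mn_smul, ← h.n_mn, mn_mn, zero_add,
    mn_zero, smul_eq_zero] at a
  exact h.ni b y (a.resolve_left (by linarith))

theorem Zr.nrm (z : Zr A b y t ρ) (h : 0 < t) : mn (y - (1 - t) • mn y) ≠ 0 ∧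
    ‖mn (y - (1 - t) • mn y)‖ = t * ‖mn y‖ ∧
    A.P (b, y - (1 - t) • mn y) + (ρ / t) • A.n b (mn (y - (1 - t) • mn y)) = 0 := by
  rw [mn_nrm, norm_smul, Real.norm_of_nonneg h.le, map_smul, smul_smul, div_mul_cancel₀ _ h.ne']
  exact ⟨smul_ne_zero h.ne' z.ne, rfl, z.eq⟩

/-- bounds for the free zeros over `b` -/
def AB (A : PM B k E) (b : B) (ε C : ℝ) : Prop :=
  ∀ w s, (b, w) ∈ A.O → 0 ≤ s → mn w ≠ 0 → A.P (b, w) + s • A.n b (mn w) = 0 →
    ε ≤ s ∧ s ≤ C ∧ ε ≤ ‖mn w‖ ∧ ‖mn w‖ ≤ C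

theorem AB.mono (h : AB A b ε C) {ε' : ℝ} (e : ε' ≤ ε) : AB A b ε' C := fun w s a c d f =>
  let ⟨p, q, r, u⟩ := h w s a c d f; ⟨e.trans p, q, e.trans r, u⟩

theorem adm_bd (h : A.Adm) : ∃ ε > 0, ∃ C, ∀ b, AB A b ε C := by
  obtain ⟨ε, h0, h1⟩ := h.1.cp.exists_forall_le' (a := 0)
    (f := fun z => min (Real.exp z.1.2) ‖mn z.2‖) (Continuous.continuousOn (by fun_prop))
    fun z hz => lt_min (Real.exp_pos _) (norm_pos_iff.2 hz.1.1)
  obtain ⟨C, h2⟩ := h.1.cp.exists_bound_of_continuousOn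
    (f := fun z => max (Real.exp z.1.2) ‖mn z.2‖) (Continuous.continuousOn (by fun_prop))
  refine ⟨ε, h0, C, fun b w s o s0 n e => ?_⟩
  have sp : 0 < s := lt_of_le_of_ne s0 fun c => n (h.2 _ o (by simpa [← c] using e))
  have z : ((b, Real.log s), w) ∈ A.Ec.Z := ⟨⟨n, o⟩, by
    change A.P (b, w) + Real.exp (Real.log s) • A.n b (mn w) = 0
    rwa [Real.exp_log sp]⟩
  have p := h1 _ z
  have q := (le_abs_self _).trans (h2 _ z)
  simp only [Real.exp_log sp, le_min_iff, max_le_iff] at p q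
  exact ⟨p.1, q.1, p.2, q.2⟩

theorem Zr.ab (z : Zr A b y t ρ) (h : AB A b ε C) (h0 : 0 < t) (h1 : 0 ≤ ρ) :
    ε * t ≤ ρ ∧ ρ ≤ C * t ∧ ε ≤ t * ‖mn y‖ ∧ t * ‖mn y‖ ≤ C := by
  obtain ⟨p, q, r⟩ := z.nrm h0
  obtain ⟨a, c, d, e⟩ := h _ _ z.mem (div_nonneg h1 h0.le) p r
  rw [q] at d e
  exact ⟨(le_div_iff₀ h0).1 a, (div_le_iff₀ h0).1 c, d, e⟩

/-- the bound of `Bd` -/
def BD (A : PM B k E) (R : ℝ) : Prop := ∀ x ∈ A.O, ∀ s : ℝ, 0 ≤ s →
  A.P x + s • A.n x.1 (mn x.2) = 0 → (1 + s) * ‖mn x.2‖ ≤ R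

theorem Zr.bd {R : ℝ} (z : Zr A b y t (1 - t)) (h : BD A R) (h0 : 0 < t) (h1 : t ≤ 1) :
    ‖mn y‖ ≤ R := by
  obtain ⟨p, q, r⟩ := z.nrm h0
  have := h _ z.mem _ (div_nonneg (sub_nonneg.2 h1) h0.le) r
  rw [q] at this
  refine le_of_eq_of_le ?_ this
  field_simp
  ring

/-- the normalising function at `δ = e^l` -/
def tl (l : ℝ) (y : V k E) : ℝ := cl (2 * ‖mn y‖ / Real.exp l - 1)

@[fun_prop] theorem cont_tl {T : Type} [TopologicalSpace T] {l : T → ℝ} {y : T → V k E}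
    (h : Continuous l) (h' : Continuous y) : Continuous fun x => tl (l x) (y x) :=
  cont_cl ((Continuous.div (by fun_prop) (by fun_prop) fun _ => (Real.exp_pos _).ne').sub
    continuous_const)
theorem tl_mem (l : ℝ) (y : V k E) : tl l y ∈ Icc (0 : ℝ) 1 := cl_mem _
theorem tl_sh (l : ℝ) (y : V k E) : tl l (sh k E y) = tl l y := by simp only [tl, mn_sh, norm_sh]
theorem tl_zero {l : ℝ} (h : 2 * ‖mn y‖ ≤ Real.exp l) : tl l y = 0 :=
  cl_of_le (by rw [sub_nonpos, div_le_one (Real.exp_pos l)]; exact h)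
theorem tl_one {l : ℝ} (h : Real.exp l ≤ ‖mn y‖) : tl l y = 1 :=
  cl_of_ge (by rw [le_sub_iff_add_le, le_div_iff₀ (Real.exp_pos l)]; linarith)
theorem tl_log {δ : ℝ} (h : 0 < δ) (x : B × V k E) : tl (Real.log δ) x.2 = tau δ x := by
  rw [tl, Real.exp_log h]; rfl

theorem Zr.tl {l R : ℝ} (z : Zr A b y (tl l y) (1 - tl l y)) (h : A.Ok) (hR : BD A R) :
    Real.exp l < 2 * ‖mn y‖ ∧ ‖mn y‖ ≤ R ∧ l < 2 * |R| := by
  have p := z.pos h (tl_mem l y).1 le_rfl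
  have a : Real.exp l < 2 * ‖mn y‖ := lt_of_not_ge fun c => p.ne' (tl_zero c)
  have c := z.bd hR p (tl_mem l y).2
  exact ⟨a, c, by linarith [Real.add_one_le_exp l, le_abs_self R]⟩

theorem Zr.lt {l : ℝ} (z : Zr A b y (Ecf.tl l y) (1 - Ecf.tl l y)) (h : A.Ok) (hε : 0 < ε)
    (hb : AB A b ε C) : ε < Real.exp l := by
  have m := tl_mem l y
  have p := z.pos h m.1 le_rfl
  obtain ⟨a, -, c, -⟩ := z.ab hb p (sub_nonneg.2 m.2)
  refine lt_of_not_ge fun e => ?_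
  have : Ecf.tl l y = 1 := tl_one (by nlinarith [m.2, norm_nonneg (mn y)])
  rw [this] at a
  linarith

variable {X : Type} [TopologicalSpace X] [CompactSpace X] [T2Space X] [FiniteDimensional ℝ E]

/-- the path `δ ↦ F (tau δ)` -/
def Lam (A : PM X k E) (φ : ℝ → ℝ) (c : ℝ) : Pb (X × ℝ) k E :=
  (A.pull Prod.fst).F fun x => tl (φ x.1.2 + c) x.2

/-- the path `δ ↦ F (tau δ)` is the canonical problem -/
theorem interp {A : PM X k E} (h : A.Ok) (ha : A.Adm) {φ : ℝ → ℝ} (cφ : Continuous φ)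
    (hφ : ∀ u, |φ u| = |u|) (c : ℝ) :
    (Lam A φ c).Ok ∧ (Lam A φ c).Eqv (A.Ec.pull fun b => (b.1, φ b.2)) := by
  obtain ⟨ε, hε, C, hb⟩ := adm_bd ha
  let τ : ((X × ℝ) × I) × V k E → ℝ := fun x => (1 - x.1.2) * tl (φ x.1.1.2 + c) x.2 + x.1.2
  let ρ : ((X × ℝ) × I) × V k E → ℝ := fun x =>
    (1 - x.1.2) * (1 - tl (φ x.1.1.2 + c) x.2) + x.1.2 * Real.exp (φ x.1.1.2)
  have hA := h.pull (φ := fun b : (X × ℝ) × I => b.1.1) (by fun_prop)
  have ok : (G (A.pull fun b : (X × ℝ) × I => b.1.1) τ ρ).Ok := by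
    refine gok hA (by fun_prop) (by fun_prop) (fun x => by simp only [τ, tl_sh])
      (fun x => by simp only [ρ, tl_sh]) (d := ε) (R := (1 + C) * C)
      ((isCompact_univ.prod (isCompact_closedBall (0 : ℝ)
        (2 * ((1 + C) * C) + C + |c| + |Real.log ε|))).prod isCompact_univ) hε fun x hx => ?_
    have z := Zr.of hx
    obtain ⟨⟨⟨x, u⟩, r, r0, r1⟩, y⟩ := x
    have m := tl_mem (φ u + c) y
    have ep := Real.exp_pos (φ u)
    simp only [τ, ρ] at z ⊢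
    have k0 : 2 * ‖mn y‖ ≤ Real.exp (φ u + c) → tl (φ u + c) y = 0 := tl_zero
    have k1 : Real.exp (φ u + c) ≤ ‖mn y‖ → tl (φ u + c) y = 1 := tl_one
    generalize tl (φ u + c) y = s at *
    have n0 := norm_nonneg (mn y)
    have t1 : (1 - r) * s + r ≤ 1 := by nlinarith [m.2]
    have t0 : 0 ≤ (1 - r) * s + r := by nlinarith [m.1]
    have q1 : 1 - ((1 - r) * s + r) ≤ (1 - r) * (1 - s) + r * Real.exp (φ u) := by nlinarith
    have p := z.pos hA t0 q1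
    obtain ⟨a1, a2, a3, a4⟩ := z.ab (hb x) p (by linarith)
    have C0 : 0 ≤ C := le_trans (by positivity) a4
    have b1 : ‖mn y‖ ≤ (1 + C) * C := by nlinarith
    have b2 : ε ≤ ‖mn y‖ := by nlinarith
    refine ⟨⟨⟨trivial, mem_closedBall_zero_iff.2 ?_⟩, trivial⟩, b2, ?_, ?_⟩
    · rw [Real.norm_eq_abs, ← hφ, abs_le]
      have c1 := le_abs_self c
      have c2 := neg_abs_le c
      have c3 := neg_abs_le (Real.log ε)
      have c4 := abs_nonneg (Real.log ε)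
      have c5 := Real.add_one_le_exp (φ u)
      have c6 := Real.add_one_le_exp (φ u + c)
      constructor
      · rcases le_total (Real.exp (φ u + c)) ε with e | e
        · rw [k1 (e.trans b2)] at a1
          have : Real.log ε ≤ φ u := (Real.log_le_iff_le_exp hε).2 (by nlinarith)
          linarith
        · have : Real.log ε ≤ φ u + c := (Real.log_le_iff_le_exp hε).2 e
          linarith
      · rcases le_total (2 * ‖mn y‖) (Real.exp (φ u + c)) with e | e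
        · rw [k0 e] at a2 p
          have : Real.exp (φ u) ≤ C := le_of_mul_le_mul_left (by nlinarith) p
          linarith
        · linarith
    · rw [norm_smul, Real.norm_of_nonneg (by linarith)]
      nlinarith
    · rw [norm_smul, Real.norm_of_nonneg (by linarith)]
      nlinarith
  have e0 : (G (A.pull fun b : (X × ℝ) × I => b.1.1) τ ρ).pull (fun b => (b, 0)) = Lam A φ c := by
    simp [G, Lam, PM.F, PM.pull, Pb.pull, τ, ρ]
  have e1 : (G (A.pull fun b : (X × ℝ) × I => b.1.1) τ ρ).pull (fun b => (b, 1)) =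
      A.Ec.pull fun b => (b.1, φ b.2) := by
    simp [G, PM.Ec, PM.pull, Pb.pull, τ, ρ]
  exact ⟨e0 ▸ ok.sl 0, e0 ▸ e1 ▸ ok.eqv⟩

theorem emp {A : Type} [AddCommGroup A] (T : Th X A) (S : Sp) (hk : 16 ≤ k)
    {P : Pb (X × ℝ) k S.E} (h : P.Ok) (z : ∀ x, x ∉ P.Z) : T.pa k S P = 0 := by
  obtain ⟨a, b⟩ := h.eqv_rs isOpen_empty (fun _ a => a) fun x a => z x a
  have := T.pa_sum k S P ∅ ∅ hk h a a (by simp) fun x a => (z x a).elim
  rw [← T.pa_eqv k S _ _ hk b] at this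
  exact left_eq_add.1 this

/-- agreement over two points of the base -/
def Ag (Q : PM B k E) (b b' : B) : Prop :=
  ∀ y, ((b, y) ∈ Q.O ↔ (b', y) ∈ Q.O) ∧ ((b, y) ∈ Q.O → Q.P (b, y) = Q.P (b', y)) ∧ Q.n b = Q.n b'

theorem Ag.ab {Q : PM (X × ℝ) k E} {x : X} {u a : ℝ} (h : Ag Q (x, u) (x, a))
    (hb : AB (Q.pull fun x => (x, a)) x ε C) : AB Q (x, u) ε C := fun w s o s0 n e =>
  hb w s ((h w).1.1 o) s0 n (by rw [(h w).2.1 o, (h w).2.2] at e; exact e)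

theorem Ag.germ {Q : PM (X × ℝ) k E} {x : (X × ℝ) × V k E} {a c : ℝ} {φ : ℝ → ℝ}
    {τ : (X × ℝ) × V k E → ℝ} {N : Set ((X × ℝ) × V k E)} (hx : x ∈ N)
    (h : Ag Q x.1 (x.1.1, a)) (e : τ x = tl (φ x.1.2 + c) x.2) :
    (x ∈ ((Q.F τ).rs N).O ↔ x ∈ (Lam (Q.pull fun x => (x, a)) φ c).O) ∧
      (x ∈ ((Q.F τ).rs N).O → ((Q.F τ).rs N).h x = (Lam (Q.pull fun x => (x, a)) φ c).h x) := by
  simp only [Pb.rs, Lam, PM.F, PM.pull, mem_inter_iff, mem_ofPred_eq, hx, and_true, e]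
  exact ⟨and_congr_right fun _ => (h _).1, fun o => by rw [(h _).2.1 o.2, (h x.2).2.2]⟩

theorem tent {A : Type} [AddCommGroup A] (T : Th X A) (S : Sp) (hk : 16 ≤ k) {a b : ℝ}
    {Q : PM (X × ℝ) k S.E} (ab : a ≤ b) (h : Q.Ok) (ha : ∀ x s, s ≤ a → Ag Q (x, s) (x, a))
    (hb : ∀ x s, b ≤ s → Ag Q (x, s) (x, b)) (da : (Q.pull fun x => (x, a)).Adm)
    (db : (Q.pull fun x => (x, b)).Adm) (bd : Q.Bd) :
    ∃ δ₀ > 0, ∀ δ, 0 < δ → δ < δ₀ → (Q.F (tau δ)).Ok ∧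
      (∀ x ∈ (Q.F (tau δ)).Z, a < x.1.2 ∧ x.1.2 < b) ∧
      T.pa k S (Q.F (tau δ)) = T.pa k S (Q.pull fun x => (x, a)).Ec +
        T.pa k S ((Q.pull fun x => (x, b)).Ec.pull fun z => (z.1, -z.2)) := by
  obtain ⟨R, hR⟩ := bd
  obtain ⟨ε, ε0, C, hC⟩ := adm_bd da
  obtain ⟨ε', ε0', C', hC'⟩ := adm_bd db
  refine ⟨min ε ε', lt_min ε0 ε0', fun δ δ0 δ1 => ?_⟩
  have key : ∀ x u y l, Zr Q (x, u) y (tl l y) (1 - tl l y) → Real.log δ < l ∨ (a < u ∧ u < b) :=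
    fun x u y l z => by
      by_contra n
      rw [not_or, not_and_or, not_lt, not_lt, not_lt] at n
      have e : Real.exp l ≤ δ := (Real.le_log_iff_exp_le δ0).1 n.1
      rcases n.2 with c | c
      · linarith [z.lt h ε0 ((ha x u c).ab (hC x)), min_le_left ε ε']
      · linarith [z.lt h ε0' ((hb x u c).ab (hC' x)), min_le_right ε ε']
  obtain ⟨c, hc⟩ : ∃ c, c = (a + b) / 2 := ⟨_, rfl⟩
  obtain ⟨H, hH⟩ : ∃ H, H = (b - a) / 2 + 2 * |R| := ⟨_, rfl⟩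
  obtain ⟨l, hl⟩ : ∃ l, l = Real.log δ := ⟨_, rfl⟩
  rw [← hl] at key
  let τ : ((X × ℝ) × I) × V k S.E → ℝ := fun x =>
    tl ((1 - x.1.2) * l + x.1.2 * (H - |x.1.1.2 - c|)) x.2
  have ok : ((Q.pull Prod.fst).F τ).Ok := by
    refine PM.fok0 (h.pull continuous_fst) (by fun_prop) (fun x => by simp only [τ, tl_sh])
      ((isCompact_univ.prod (isCompact_closedBall c ((b - a) / 2 + |H - l|))).prod isCompact_univ)
      (d := Real.exp (min l (H - ((b - a) / 2 + |H - l|))) / 2) (R := R) (by positivity)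
      fun x hx => ?_
    obtain ⟨⟨⟨x, u⟩, r, r0, r1⟩, y⟩ := x
    have z : Zr Q (x, u) y (tl ((1 - r) * l + r * (H - |u - c|)) y)
      (1 - tl ((1 - r) * l + r * (H - |u - c|)) y) := ⟨hx.1.1, hx.1.2, hx.2⟩
    obtain ⟨p, q, -⟩ := z.tl h hR
    have u1 : |u - c| ≤ (b - a) / 2 + |H - l| := by
      rcases key _ _ _ _ z with e | e
      · have : |u - c| < H - l := by
          by_contra n
          nlinarith
        linarith [le_abs_self (H - l)]
      · have : |u - c| ≤ (b - a) / 2 := abs_le.2 ⟨by linarith [e.1], by linarith [e.2]⟩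
        linarith [abs_nonneg (H - l)]
    refine ⟨⟨⟨trivial, u1⟩, trivial⟩, ?_, ?_⟩
    · have : min l (H - ((b - a) / 2 + |H - l|)) ≤ (1 - r) * l + r * (H - |u - c|) := by
        have m1 := min_le_left l (H - ((b - a) / 2 + |H - l|))
        have m2 := min_le_right l (H - ((b - a) / 2 + |H - l|))
        nlinarith
      have := Real.exp_le_exp.2 this
      change _ ≤ ‖mn y‖
      linarith
    · have m := tl_mem ((1 - r) * l + r * (H - |u - c|)) y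
      change ‖(1 - tl ((1 - r) * l + r * (H - |u - c|)) y) • mn y‖ ≤ R
      rw [norm_smul, Real.norm_of_nonneg (sub_nonneg.2 m.2)]
      nlinarith [m.1, norm_nonneg (mn y)]
  have t0 : (fun x : (X × ℝ) × V k S.E => tl l x.2) = tau δ := funext fun x => hl ▸ tl_log δ0 x
  have e0 : ((Q.pull Prod.fst).F τ).pull (fun b => (b, 0)) = Q.F (tau δ) := by
    rw [← t0]; simp [PM.F, PM.pull, Pb.pull, τ]
  have e1 : ((Q.pull Prod.fst).F τ).pull (fun b => (b, 1)) =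
      Q.F fun x => tl (H - |x.1.2 - c|) x.2 := by
    simp [PM.F, PM.pull, Pb.pull, τ]
  have o1 := e1 ▸ ok.sl 1
  have z1 : ∀ x ∈ (Q.F fun x => tl (H - |x.1.2 - c|) x.2).Z, x.1.2 < a ∨ b < x.1.2 := fun x hx => by
    have := (Zr.tl ⟨hx.1.1, hx.1.2, hx.2⟩ h hR).2.2
    rcases abs_cases (x.1.2 - c) with e | e
    · exact .inr (by linarith [e.1])
    · exact .inl (by linarith [e.1])
  have n1 : IsOpen {x : (X × ℝ) × V k S.E | x.1.2 < a} := isOpen_lt (by fun_prop) (by fun_prop)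
  have n2 : IsOpen {x : (X × ℝ) × V k S.E | b < x.1.2} := isOpen_lt (by fun_prop) (by fun_prop)
  have r1 := o1.rs n1 (fun _ a => a) (by
    convert o1.cp.inter_right (isClosed_le (f := fun x => x.1.2) (g := fun _ => a)
      (by fun_prop) (by fun_prop)) using 1
    exact Set.ext fun x => and_congr_right fun z =>
      ⟨fun e => (le_of_lt e : x.1.2 ≤ a), fun e => (z1 x z).resolve_right (not_lt.2 (le_trans e ab))⟩)
  have r2 := o1.rs n2 (fun _ a => a) (by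
    convert o1.cp.inter_right (isClosed_le (f := fun _ => b) (g := fun x => x.1.2)
      (by fun_prop) (by fun_prop)) using 1
    exact Set.ext fun x => and_congr_right fun z =>
      ⟨fun e => (le_of_lt e : b ≤ x.1.2), fun e => (z1 x z).resolve_left (not_lt.2 (le_trans ab e))⟩)
  obtain ⟨i1, i2⟩ := interp (h.pull (φ := fun x => (x, a)) (by fun_prop)) da continuous_id
    (fun _ => rfl) (H - c)
  obtain ⟨j1, j2⟩ := interp (h.pull (φ := fun x => (x, b)) (by fun_prop)) db continuous_neg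
    abs_neg (H + c)
  have g1 := r1.eqv_germ i1 n1 (fun _ a => a) (fun x hx => hx.1.2) (fun x hx => by
    have := (Zr.tl (A := Q) (b := (x.1.1, a)) ⟨hx.1.1, hx.1.2, hx.2⟩ h hR).2.2
    change x.1.2 + _ < _ at this
    change x.1.2 < a
    linarith) fun x hx => Ag.germ hx (ha _ _ (le_of_lt hx)) (by
      have : x.1.2 < a := hx
      rw [abs_of_nonpos (by linarith)]; congr 1; simp only [id]; ring)
  have g2 := r2.eqv_germ j1 n2 (fun _ a => a) (fun x hx => hx.1.2) (fun x hx => by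
    have := (Zr.tl (A := Q) (b := (x.1.1, b)) ⟨hx.1.1, hx.1.2, hx.2⟩ h hR).2.2
    change b < x.1.2
    linarith) fun x hx => Ag.germ hx (hb _ _ (le_of_lt hx)) (by
      have : b < x.1.2 := hx
      rw [abs_of_nonneg (by linarith)]; congr 1; ring)
  refine ⟨e0 ▸ ok.sl 0, fun x hx => ?_, ?_⟩
  · rw [← t0] at hx
    exact (key x.1.1 x.1.2 x.2 l ⟨hx.1.1, hx.1.2, hx.2⟩).resolve_left (lt_irrefl _)
  · rw [T.pa_eqv k S _ _ hk (e0 ▸ e1 ▸ ok.eqv), T.pa_sum k S _ _ _ hk o1 r1 r2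
      (disjoint_left.2 fun x p q => lt_asymm (lt_of_lt_of_le p ab) q) z1,
      T.pa_eqv k S _ _ hk (g1.trans i2), T.pa_eqv k S _ _ hk (g2.trans j2)]
    rfl

end Ecf

/-- **EcF** -/
theorem ecf : ECF := by
  intro X _ _ _ A _ T k S a b Q hk ab h ha hb da db bd
  obtain ⟨δ₀, p, q⟩ := Ecf.tent T S hk ab h ha hb da db bd
  refine ⟨δ₀, p, fun δ s t => ⟨(q δ s t).1, .inr ?_⟩⟩
  obtain ⟨δ₁, p', q'⟩ := Ecf.tent T S hk (Q := Q.pull fun z : X × ℝ => (z.1, b)) (le_refl b)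
    (h.pull (by fun_prop)) (fun _ _ _ _ => ⟨Iff.rfl, fun _ => rfl, rfl⟩)
    (fun _ _ _ _ => ⟨Iff.rfl, fun _ => rfl, rfl⟩) db db (bd.imp fun R hR x => hR _)
  obtain ⟨u, v, w⟩ := q' (δ₁ / 2) (by positivity) (by linarith)
  rw [Ecf.emp T S hk u fun x hx => lt_asymm (v x hx).1 (v x hx).2] at w
  rw [(q δ s t).2.2, neg_sub, sub_eq_add_neg]
  exact congrArg _ (eq_neg_of_add_eq_zero_right w.symm)

end Crest.Agent.N218.Pm

end
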