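import Crest.Agent.N218.Pm.Kit2
import Crest.Agent.N218.Pm.Adm0

/-!
# Row 218 (helper41): kit, part 3: admissibility criteria, periodic-point maps
-/

set_option autoImplicit false
set_option linter.unusedVariables false
set_option linter.unusedSectionVars false

open Set Topology unitInterval Filter Metric

noncomputable section

namespace Crest.Agent.N218.Pm

variable {B B' : Type} [TopologicalSpace B] [TopologicalSpace B'] {k : ℕ} {E : Type}
  [NormedAddCommGroup E] [NormedSpace ℝ E]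

namespace PM
variable {A : PM B k E}

/-- no free zero at the point `x`, for any multiplier -/
def Nf (A : PM B k E) (x : B × V k E) : Prop :=
  x ∈ A.O → ∀ s : ℝ, 0 ≤ s → A.P x + s • A.n x.1 (mn x.2) = 0 → mn x.2 = 0

/-- `NoZ` from the multiplier form -/
theorem noz_of_s (h : A.Ok) {δ : ℝ} (hδ : 0 ≤ δ) {b : B} (z : ∀ w (s : ℝ), (b, w) ∈ A.O → 0 ≤ s →
    ‖s • mn w‖ ≤ δ → A.P (b, w) + s • A.n b (mn w) = 0 → mn w = 0) : A.NoZ δ b := by
  intro y t ht a o e
  rcases ht.1.eq_or_lt with rfl | t0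
  · exact h.t0 o e
  have m : ((1 - t) / t) • mn (y - (1 - t) • mn y) = (1 - t) • mn y := by
    rw [mn_nrm, smul_smul, div_mul_cancel₀ _ t0.ne']
  have := z _ ((1 - t) / t) o (div_nonneg (sub_nonneg.2 ht.2) t0.le) (by
    rw [m]
    rcases a with rfl | a
    · simpa using hδ
    · rw [norm_smul, Real.norm_of_nonneg (sub_nonneg.2 ht.2)]
      nlinarith [norm_nonneg (mn y)]) (by rw [← map_smul, m, map_smul]; exact e)
  rw [mn_nrm] at this
  exact (smul_eq_zero.1 this).resolve_left t0.ne'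
theorem noz_of_nf (h : A.Ok) {b : B} (z : ∀ w, A.Nf (b, w)) {δ : ℝ} (hδ : 0 ≤ δ) : A.NoZ δ b :=
  noz_of_s h hδ fun w s o s0 _ e => z w o s s0 e
/-- the multiplier form from `NoZ` -/
theorem NoZ.mul {δ : ℝ} {b : B} (z : A.NoZ δ b) {w : V k E} {s : ℝ} (o : (b, w) ∈ A.O) (s0 : 0 ≤ s)
    (a : s = 0 ∨ (1 + s) * ‖mn w‖ ≤ δ) (e : A.P (b, w) + s • A.n b (mn w) = 0) : mn w = 0 := by
  have p : 0 < 1 + s := by positivity
  have m : mn (w + s • mn w) = (1 + s) • mn w := by rw [mn_add, mn_smul, mn_mn]; module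
  have u : (1 - (1 + s)⁻¹) • mn (w + s • mn w) = s • mn w := by
    rw [m, smul_smul]; congr 1; field_simp; ring
  have := z (w + s • mn w) (1 + s)⁻¹ ⟨by positivity, inv_le_one_of_one_le₀ (by linarith)⟩
    (a.imp (fun a => by simp [a]) fun a => by rwa [m, norm_smul, Real.norm_of_nonneg p.le])
    (by rwa [u, add_sub_cancel_right]) (by rwa [← map_smul, u, add_sub_cancel_right, map_smul])
  rw [m] at this
  exact (smul_eq_zero.1 this).resolve_left p.ne'
theorem Bd.pull (h : A.Bd) (φ : B' → B) : (A.pull φ).Bd :=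
  h.imp fun _ a x => a (φ x.1, x.2)
theorem Adm.noz (h : A.Adm) (o : A.Ok) : ∃ δ > 0, ∀ b, A.NoZ δ b := by
  obtain ⟨d, d0, hd⟩ := h.1.cp.exists_forall_le' (f := fun x => ‖(1 - Real.exp (-Real.exp x.1.2)) •
    mn x.2‖ ⊓ ‖Real.exp x.1.2 • mn x.2‖) (by fun_prop) (a := 0) fun x hx => by
      have := norm_pos_iff.2 hx.1.1
      have : 0 < 1 - Real.exp (-Real.exp x.1.2) := by
        simpa using Real.exp_pos x.1.2
      simp only [norm_smul, Real.norm_eq_abs]; positivity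
  refine ⟨d / 2, by positivity, fun b => noz_of_s o (by positivity) fun w s a s0 c e => ?_⟩
  rcases s0.eq_or_lt with rfl | s0
  · exact h.2 _ a (by simpa using e)
  by_contra n
  have := (hd ((b, Real.log s), w) ⟨⟨n, a⟩, by
    simp only [Ec, Real.exp_log s0]; exact e⟩).trans inf_le_right
  simp only [Real.exp_log s0] at this
  linarith

variable [FiniteDimensional ℝ E] [T2Space B]

/-- **admissibility** from `NoZ` and a bound -/
theorem adm_of [CompactSpace B] (h : A.Ok) {δ : ℝ} (hδ : 0 < δ) (z : ∀ b, A.NoZ δ b) (bd : A.Bd) :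
    A.Adm := by
  refine ⟨?_, fun x a e => (z x.1).mul a le_rfl (.inl rfl) (by simpa using e)⟩
  obtain ⟨R, hR⟩ := bd
  have nc := h.nc
  have o : ((A.pull Prod.fst).F fun x : (B × I) × V k E => (x.1.2 : ℝ)).Ok := by
    refine fok0 (h.pull continuous_fst) (by fun_prop) (fun _ => rfl) isCompact_univ hδ (R := R)
      fun x hx => ⟨mem_univ _, le_of_not_gt fun n => hx.1.1
        (z x.1.1 x.2 x.1.2 x.1.2.2 (.inr n.le) hx.1.2 hx.2), ?_⟩
    rcases x.1.2.2.1.eq_or_lt with e | t0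
    · have u := hx.1.2
      have v := hx.2
      simp only [F, pull, ← e] at u v
      exact (hx.1.1 (h.t0 u v)).elim
    have := hR (x.1.1, _) hx.1.2 ((1 - x.1.2) / x.1.2)
      (div_nonneg (sub_nonneg.2 x.1.2.2.2) t0.le) (by
        rw [← map_smul, mn_nrm, smul_smul, div_mul_cancel₀ _ t0.ne', map_smul]; exact hx.2)
    rw [mn_nrm, norm_smul, Real.norm_of_nonneg t0.le, ← mul_assoc,
      show (1 + (1 - (x.1.2 : ℝ)) / x.1.2) * x.1.2 = 1 by field_simp; ring, one_mul] at this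
    rw [norm_smul, Real.norm_of_nonneg (sub_nonneg.2 x.1.2.2.2)]
    nlinarith [norm_nonneg (mn x.2)]
  have c : Continuous fun x : (B × ℝ) × V k E => (x.1.1, x.2) := by fun_prop
  refine ⟨(isOpen_ne_fun (by fun_prop) continuous_const).inter (h.op.preimage c),
    fun x hx => ⟨sh_ne hx.1, h.inv _ hx.2⟩, (h.ct.comp c.continuousOn fun x hx => hx.2).add
      (Continuous.continuousOn (by fun_prop)), fun x hx => ?_, ?_, fun x hx => hx.1⟩
  · have := h.eq _ hx.2
    simp only [Ec, map_add, map_smul] at this ⊢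
    rw [this, mn_sh, h.ne]
  have t : ∀ x ∈ ((A.pull Prod.fst).F fun x : (B × I) × V k E => (x.1.2 : ℝ)).Z,
      0 < (x.1.2 : ℝ) ∧ (x.1.2 : ℝ) < 1 := fun x hx => by
    refine ⟨x.1.2.2.1.lt_of_ne fun e => ?_, x.1.2.2.2.lt_of_ne fun e =>
      hx.1.1 (z x.1.1 x.2 x.1.2 x.1.2.2 (.inl e) hx.1.2 hx.2)⟩
    have u := hx.1.2
    have v := hx.2
    simp only [F, pull, ← e] at u v
    exact hx.1.1 (h.t0 u v)
  convert o.cp.image_of_continuousOn (f := fun x => ((x.1.1, Real.log ((1 - x.1.2) / x.1.2)),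
    x.2 - (1 - (x.1.2 : ℝ)) • mn x.2)) ?_ using 1
  · ext x
    constructor
    · intro hx
      have p := Real.exp_pos x.1.2
      have q : 0 < 1 + Real.exp x.1.2 := by positivity
      have m : mn (x.2 + Real.exp x.1.2 • mn x.2) = (1 + Real.exp x.1.2) • mn x.2 := by
        rw [mn_add, mn_smul, mn_mn]; module
      have u : (1 - (1 + Real.exp x.1.2)⁻¹) • mn (x.2 + Real.exp x.1.2 • mn x.2) =
          Real.exp x.1.2 • mn x.2 := by rw [m, smul_smul]; congr 1; field_simp; ring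
      refine ⟨((x.1.1, ⟨(1 + Real.exp x.1.2)⁻¹, by positivity,
        inv_le_one_of_one_le₀ (by linarith)⟩), x.2 + Real.exp x.1.2 • mn x.2), ⟨⟨?_, ?_⟩, ?_⟩, ?_⟩
      · simp only [m]; exact smul_ne_zero q.ne' hx.1.1
      · simp only [u, add_sub_cancel_right]; exact hx.1.2
      · simp only [F, pull, u, add_sub_cancel_right, ← map_smul]
        rw [map_smul]; exact hx.2
      · simp only [u, add_sub_cancel_right]
        rw [show (1 - (1 + Real.exp x.1.2)⁻¹) / (1 + Real.exp x.1.2)⁻¹ = Real.exp x.1.2 by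
          field_simp; ring, Real.log_exp]
    · rintro ⟨x, hx, rfl⟩
      obtain ⟨a, b⟩ := t x hx
      refine ⟨⟨?_, hx.1.2⟩, ?_⟩
      · simp only [mn_nrm]; exact smul_ne_zero a.ne' hx.1.1
      · simp only [Ec, mn_nrm]
        rw [Real.exp_log (div_pos (sub_pos.2 b) a), ← map_smul, smul_smul, div_mul_cancel₀ _ a.ne',
          map_smul]
        exact hx.2
  · refine ContinuousOn.prodMk (ContinuousOn.prodMk (by fun_prop) (ContinuousOn.log
      (ContinuousOn.div (by fun_prop) (by fun_prop) fun x hx => (t x hx).1.ne') fun x hx =>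
        (div_pos (sub_pos.2 (t x hx).2) (t x hx).1).ne')) (by fun_prop)

theorem Adm.pull [CompactSpace B'] (h : A.Adm) {φ : B' → B} (hφ : Continuous φ) : (A.pull φ).Adm := by
  obtain ⟨M, -, hM⟩ := h.1.bd
  exact ⟨h.1.pull (φ := fun b : B' × ℝ => (φ b.1, b.2)) (by fun_prop)
    (isCompact_univ.prod (isCompact_Icc (a := -M) (b := M)))
    fun x hx => ⟨mem_univ _, (hM _ hx).1.le, (hM _ hx).2.le⟩, fun x => h.2 (φ x.1, x.2)⟩
/-- **homotopy of canonical problems** -/
theorem eqv_Ec {A : PM (B × I) k E} (h : A.Ec.Ok) :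
    (A.pull fun b => (b, 0)).Ec.Eqv (A.pull fun b => (b, 1)).Ec :=
  h.eqv_pull (H := fun x : (B × ℝ) × I => ((x.1.1, x.2), x.1.2)) (by fun_prop)
    (h.cp.image (f := fun x => (x.1.1.1, x.1.2)) (by fun_prop)) fun b s y hx => ⟨_, hx, rfl⟩

/-- **globalisation**: no free zero near the exact zeros over the compact set `K` -/
theorem noz_of_loc (h : A.Ok) {K : Set B} (hK : IsCompact K)
    (z : ∀ x ∈ A.O, x.1 ∈ K → A.P x = 0 → ∀ᶠ y in 𝓝 x, y.1 ∈ K → A.Nf y) :
    ∃ δ > 0, ∀ b ∈ K, A.NoZ δ b := by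
  obtain ⟨d, d0, hd⟩ := Ad.glob (O := {x ∈ A.O | x.1 ∈ K}) (h.ct.mono fun _ a => a.1) one_pos
    (by simpa only [mem_ofPred_eq, and_assoc] using h.pp K hK 1) fun x a => z x a.1 a.2
  obtain ⟨C, hC⟩ := hK.exists_bound_of_continuousOn h.nc.continuousOn
  refine ⟨d / (|C| + 1), by positivity, fun b hb => noz_of_s h (by positivity)
    fun w s o s0 a e => hd (b, w) ⟨o, hb⟩ ?_ hb o s s0 e⟩
  rw [eq_neg_of_add_eq_zero_left e, norm_neg, ← map_smul]
  refine ((A.n b).le_opNorm _).trans ((mul_le_mul ((hC _ hb).trans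
    ((le_abs_self C).trans (le_add_of_nonneg_right zero_le_one))) a (norm_nonneg _)
    (by positivity)).trans (le_of_eq ?_))
  field_simp
/-- the only exact zero is `0`, and a uniform ball has no free zero -/
theorem noz_of_ball (h : A.Ok) {K : Set B} (hK : IsCompact K) {ρ : ℝ} (hρ : 0 < ρ)
    (z : ∀ b ∈ K, ∀ w, (b, w) ∈ A.O → A.P (b, w) = 0 → w = 0)
    (l : ∀ b ∈ K, ∀ w, ‖w‖ < ρ → A.Nf (b, w)) : ∃ δ > 0, ∀ b ∈ K, A.NoZ δ b :=
  noz_of_loc h hK fun x a b e => by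
    have : ∀ᶠ y : B × V k E in 𝓝 x, ‖y.2‖ < ρ :=
      (continuous_snd.norm.tendsto x).eventually (gt_mem_nhds (by simpa [z x.1 b x.2 a e] using hρ))
    exact this.mono fun y c d => l y.1 d y.2 c

/-- the pencil condition on odd vectors -/
def Pen (D n : V k E →L[ℝ] V k E) : Prop :=
  ∀ (a b : ℝ) (v : V k E), 0 ≤ a → 0 ≤ b → a + b = 1 → mn v = v → a • D v + b • n v = 0 → v = 0

/-- **local ADM** -/
theorem nf_of_sd (h : A.Ok) {x : B × V k E} (hx : mn x.2 = 0) {D : V k E →L[ℝ] V k E}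
    (hD : Ad.Sd A.P D x) (p : Pen D (A.n x.1)) : ∀ᶠ y in 𝓝 x, A.Nf y := by
  refine (Ad.loc (tL k E) tL_tL h.nc.continuousAt hD (mn_eq_zero.1 hx)
    fun a b v a0 b0 e o => p a b v a0 b0 e (mn_eq_self.2 o)).mono fun y q o s s0 e => ?_
  refine mn_eq_zero.2 (q s s0 ?_)
  have := congrArg mn e
  rw [mn_add, mn_smul, ← h.n_mn, mn_mn, mn_zero, mn_eq, mn_eq, map_smul, smul_comm, ← smul_add,
    smul_eq_zero] at this
  rw [(eqv_tL h.inv h.eq o).2]
  exact this.resolve_left (by norm_num)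
/-- **ADM** -/
theorem noz_of_sd (h : A.Ok) {K : Set B} (hK : IsCompact K)
    (z : ∀ x ∈ A.O, x.1 ∈ K → A.P x = 0 → mn x.2 = 0 ∧ ∃ D, Ad.Sd A.P D x ∧ Pen D (A.n x.1)) :
    ∃ δ > 0, ∀ b ∈ K, A.NoZ δ b :=
  noz_of_loc h hK fun x a b e =>
    let ⟨c, _, d, p⟩ := z x a b e; (nf_of_sd h c d p).mono fun _ q _ => q
/-- a point where the family is linear -/
theorem nf_of_lin (h : A.Ok) {x : B × V k E} {L : V k E →L[ℝ] V k E}
    (hL : ∀ y, L (sh k E y) = sh k E (L y)) (e : x ∈ A.O → mn (A.P x) = mn (L x.2))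
    (p : Pen L (A.n x.1)) : A.Nf x := fun o s s0 z => by
  have := congrArg mn z
  rw [mn_add, e o, mn_smul, ← h.n_mn, mn_mn, mn_zero, ← comm_mn hL] at this
  refine p (1 + s)⁻¹ (s / (1 + s)) _ (by positivity) (by positivity) (by field_simp) (mn_mn _) ?_
  rw [div_eq_inv_mul, mul_smul, ← smul_add, this, smul_zero]
end PM

/-! ## uniform linear estimates -/
section lin
variable {W W' : Type} [NormedAddCommGroup W] [NormedSpace ℝ W] [FiniteDimensional ℝ W]
  [NormedAddCommGroup W'] [NormedSpace ℝ W']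

theorem unif_inj {L : B → W →L[ℝ] W'} {K : Set B} (hK : IsCompact K) (hL : ContinuousOn L K)
    {S : Submodule ℝ W} (h : ∀ b ∈ K, ∀ v ∈ S, L b v = 0 → v = 0) :
    ∃ c > 0, ∀ b ∈ K, ∀ v ∈ S, c * ‖v‖ ≤ ‖L b v‖ := by
  obtain ⟨c, c0, hc⟩ := (hK.prod ((isCompact_sphere (0 : W) 1).inter_right
    S.closed_of_finiteDimensional)).exists_forall_le' (f := fun x => ‖L x.1 x.2‖)
    ((hL.comp continuousOn_fst fun _ a => a.1).clm_apply continuousOn_snd).norm (a := 0)
    fun x hx => norm_pos_iff.2 fun e => by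
      have := hx.2.1
      rw [h _ hx.1 _ hx.2.2 e] at this
      simp at this
  refine ⟨c, c0, fun b hb v hv => ?_⟩
  rcases eq_or_ne v 0 with rfl | v0
  · simp
  have p := norm_pos_iff.2 v0
  have := hc (b, ‖v‖⁻¹ • v) ⟨hb, by simp [norm_smul, p.ne'], S.smul_mem _ hv⟩
  simp only [map_smul, norm_smul, norm_inv, norm_norm] at this
  rwa [← le_div_iff₀ p, div_eq_inv_mul]
end lin

namespace PM
variable [FiniteDimensional ℝ E] [T2Space B] {A : PM B k E}

/-- properness from an a priori bound, total maps -/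
theorem pp_of_bd (hP : Continuous A.P) (hO : A.O = univ)
    (bd : ∀ K, IsCompact K → ∀ R : ℝ, ∃ M, ∀ b ∈ K, ∀ y, ‖A.P (b, y)‖ ≤ R → ‖y‖ ≤ M)
    (K : Set B) (hK : IsCompact K) (R : ℝ) : IsCompact {x ∈ A.O | x.1 ∈ K ∧ ‖A.P x‖ ≤ R} := by
  obtain ⟨M, hM⟩ := bd K hK R
  refine (hK.prod (isCompact_closedBall (0 : V k E) M)).of_isClosed_subset ?_ fun x hx =>
    ⟨hx.2.1, mem_closedBall_zero_iff.2 (hM _ hx.2.1 _ hx.2.2)⟩
  simp only [hO, mem_univ, true_and]
  exact (hK.isClosed.preimage continuous_fst).inter (isClosed_le hP.norm continuous_const)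
/-- properness: injective linear part plus a locally bounded term -/
theorem pp_of_lin (hP : Continuous A.P) (hO : A.O = univ) {L : B → V k E →L[ℝ] V k E}
    (hL : Continuous L) (inj : ∀ b v, L b v = 0 → v = 0)
    (bd : ∀ K, IsCompact K → ∃ C, ∀ b ∈ K, ∀ y, ‖A.P (b, y) - L b y‖ ≤ C) (K : Set B)
    (hK : IsCompact K) (R : ℝ) : IsCompact {x ∈ A.O | x.1 ∈ K ∧ ‖A.P x‖ ≤ R} := by
  refine pp_of_bd hP hO (fun K hK R => ?_) K hK R
  obtain ⟨C, hC⟩ := bd K hK
  obtain ⟨c, c0, hc⟩ := unif_inj hK hL.continuousOn (S := ⊤) fun b _ v _ => inj b v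
  refine ⟨(R + C) / c, fun b hb y e => (le_div_iff₀' c0).2 ((hc b hb y trivial).trans ?_)⟩
  linarith [norm_sub_norm_le (L b y) (A.P (b, y)), norm_sub_rev (L b y) (A.P (b, y)), hC b hb y]
/-- the bound `Bd`: equivariant linear part with an injective pencil plus a bounded term -/
theorem bd_of_lin [CompactSpace B] (h : A.Ok) {L : B → V k E →L[ℝ] V k E} (hL : Continuous L)
    (eq : ∀ b y, L b (sh k E y) = sh k E (L b y)) (p : ∀ b, Pen (L b) (A.n b)) {C : ℝ}
    (bd : ∀ x ∈ A.O, ‖A.P x - L x.1 x.2‖ ≤ C) : A.Bd := by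
  have nc := h.nc
  obtain ⟨c, c0, hc⟩ := unif_inj (K := univ ×ˢ Icc (0 : ℝ) 1) (isCompact_univ.prod isCompact_Icc)
    (L := fun x : B × ℝ => (1 - x.2) • L x.1 + x.2 • A.n x.1) (by fun_prop)
    (S := LinearMap.ker (mnL k E - 1 : V k E →L[ℝ] V k E).toLinearMap) fun b hb v hv e =>
      p b.1 _ _ v (sub_nonneg.2 hb.2.2) hb.2.1 (sub_add_cancel _ _) (sub_eq_zero.1 hv) e
  refine ⟨C / c, fun x o s s0 e => (le_div_iff₀' c0).2 ?_⟩
  have q : 0 < 1 + s := by positivity
  have a := hc (x.1, s / (1 + s)) ⟨mem_univ _, by positivity, (div_le_one q).2 (by linarith)⟩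
    ((1 + s) • mn x.2) (sub_eq_zero.2 (by simp))
  have z := congrArg mn e
  rw [mn_add, mn_smul, ← h.n_mn, mn_mn, mn_zero] at z
  have u : ((1 - s / (1 + s)) • L x.1 + (s / (1 + s)) • A.n x.1) ((1 + s) • mn x.2) =
      -mn (A.P x - L x.1 x.2) := by
    rw [mn_sub, eq_neg_of_add_eq_zero_left z, ← comm_mn (eq x.1)]
    simp only [add_apply, smul_apply, map_smul, smul_smul, smul_add]
    rw [show (1 + s) * (1 - s / (1 + s)) = 1 by field_simp; ring,
      show (1 + s) * (s / (1 + s)) = s by field_simp]; module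
  rw [u, norm_neg, norm_smul, Real.norm_of_nonneg q.le] at a
  exact a.trans ((norm_mn _).trans (bd x o))
end PM

/-! ## periodic-point maps -/

variable (k) in
/-- the linear periodic-point map -/
def PsL (A : E →L[ℝ] E) : V k E →L[ℝ] V k E :=
  1 - ContinuousLinearMap.pi fun i => A.comp (ContinuousLinearMap.proj (i - 1))
@[simp] theorem PsL_apply (A : E →L[ℝ] E) (y : V k E) (i : Ix k) :
    PsL k A y i = y i - A (y (i - 1)) := rfl
theorem PsL_sh (A : E →L[ℝ] E) (y : V k E) : PsL k A (sh k E y) = sh k E (PsL k A y) := rfl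
theorem cont_PsL {A : B → E →L[ℝ] E} [FiniteDimensional ℝ E] (h : Continuous A) :
    Continuous fun b => PsL k (A b) :=
  continuous_clm_apply.2 fun y => continuous_pi fun i => by simp only [PsL_apply]; fun_prop

/-- no twisted antiperiodic sequence of even half period (the same as `Rd.Nn`) -/
def Nap (L : E →L[ℝ] E) : Prop := ∀ (c : ℝ) (z : ℕ → E) (j : ℕ),
  (∀ i, z (i + 1) = c • L (z i)) → z (2 * j) = -z 0 → z 0 = 0
theorem Nap.of_sym {E : Type} [NormedAddCommGroup E] [InnerProductSpace ℝ E] {L : E →L[ℝ] E}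
    (h : ∀ y y', inner ℝ (L y) y' = inner ℝ y (L y')) : Nap L := fun c z j a b =>
  Ad.sym_seq (M := c • (L : E →ₗ[ℝ] E)) (LinearMap.IsSymmetric.smul (by simp) h) one_ne_zero
    (fun i => by simpa using a i) b
theorem Nap.conj {E' : Type} [NormedAddCommGroup E'] [NormedSpace ℝ E'] {L : E →L[ℝ] E}
    {L' : E' →L[ℝ] E'} (h : Nap L) (e : E' →L[ℝ] E) (inj : ∀ y, e y = 0 → y = 0)
    (c : ∀ y, e (L' y) = L (e y)) : Nap L' := fun a z j u v =>
  inj _ (h a (fun i => e (z i)) j (fun i => by simp [u, c]) (by simp [v]))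
theorem Nap.prod {E' : Type} [NormedAddCommGroup E'] [NormedSpace ℝ E'] {L : E →L[ℝ] E}
    {L' : E' →L[ℝ] E'} (h : Nap L) (h' : Nap L') : Nap (L.prodMap L') := fun a z j u v =>
  Prod.ext (h a (fun i => (z i).1) j (fun i => by simp [u]) (by simp [v]))
    (h' a (fun i => (z i).2) j (fun i => by simp [u]) (by simp [v]))
theorem Nap.smul {L : E →L[ℝ] E} (h : Nap L) (a : ℝ) : Nap (a • L) := fun c z j u v =>
  h (c * a) z j (fun i => by simp [u, smul_smul]) v
theorem Nap.pen {L : E →L[ℝ] E} (h : Nap L) (hk : 1 ≤ k) : PM.Pen (PsL k L) 1 := by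
  intro a b v _ _ e o z
  funext i
  obtain ⟨j, rfl⟩ := Nat.exists_eq_add_of_le' hk
  have := h a (fun n => v (i + n)) (2 ^ j) (fun n => ?_) ?_
  · simpa using this
  · have := congrFun z (i + (n + 1 : ℕ))
    simp only [Pi.add_apply, Pi.smul_apply, PsL_apply, one_apply_eq_self, Pi.zero_apply, smul_sub] at this
    rw [sub_add_eq_add_sub, ← add_smul, e, one_smul, sub_eq_zero] at this
    rw [this]; congr 3; push_cast; ring
  · have := congrFun (mn_eq_self.1 o) i
    simpa [pow_succ, mul_comm] using this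

/-- `Psi` is a proper family -/
theorem psi_ok [T2Space B] {O : Set (B × E)} {f : B × E → E} (hO : IsOpen O) (hf : ContinuousOn f O)
    (pp : ∀ K, IsCompact K → ∀ R : ℝ, ∃ L, IsCompact L ∧ L ⊆ O ∧ ∀ b ∈ K, ∀ y : V k E,
      (∀ i, (b, y i) ∈ O) → (∀ i, ‖y i - f (b, y (i - 1))‖ ≤ R) → ∀ i, (b, y i) ∈ L) :
    (Psi k O f).Ok := by
  have c : ∀ i, Continuous fun x : B × V k E => (x.1, x.2 i) := fun i => by fun_prop
  have ct : ContinuousOn (Psi k O f).P (Psi k O f).O := continuousOn_pi.2 fun i =>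
    (Continuous.continuousOn (by fun_prop)).sub (hf.comp (c _).continuousOn fun x hx => hx _)
  refine ⟨?_, fun x hx i => hx _, ct, fun x hx => rfl, fun K hK R => ?_, continuous_const,
    fun _ _ => rfl, fun _ _ e => e⟩
  · simp only [Psi, ofPred_forall]
    exact isOpen_iInter_of_finite fun i => hO.preimage (c i)
  obtain ⟨L, l1, l2, l3⟩ := pp K hK R
  have cl : IsClosed {x : B × V k E | x.1 ∈ K ∧ ∀ i, (x.1, x.2 i) ∈ L} := by
    simp only [ofPred_and, ofPred_forall]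
    exact (hK.isClosed.preimage continuous_fst).inter
      (isClosed_iInter fun i => l1.isClosed.preimage (c i))
  have e : {x ∈ (Psi k O f).O | x.1 ∈ K ∧ ‖(Psi k O f).P x‖ ≤ R} =
      {x : B × V k E | x.1 ∈ K ∧ ∀ i, (x.1, x.2 i) ∈ L} ∩ (Psi k O f).P ⁻¹' closedBall 0 R :=
    Set.ext fun x => ⟨fun a => ⟨⟨a.2.1, l3 _ a.2.1 _ a.1 fun i =>
      (norm_le_pi_norm ((Psi k O f).P x) i).trans a.2.2⟩, mem_closedBall_zero_iff.2 a.2.2⟩,
      fun a => ⟨fun i => l2 (a.1.2 i), a.1.1, mem_closedBall_zero_iff.1 a.2⟩⟩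
  rw [e]
  refine (hK.prod (isCompact_univ_pi fun _ : Ix k => l1.image continuous_snd)).of_isClosed_subset
    ((ct.mono fun x a i => l2 (a.2 i)).preimage_isClosed_of_isClosed cl isClosed_closedBall)
    fun x a => ⟨a.1.1, fun i _ => ⟨_, a.1.2 i, rfl⟩⟩
/-- total maps with a linear part -/
theorem psi_ok_lin [T2Space B] [FiniteDimensional ℝ E] {f : B × E → E} (hf : Continuous f)
    {A : B → E →L[ℝ] E} (hA : Continuous A) (inj : ∀ b (v : V k E), (∀ i, v i = A b (v (i - 1))) → v = 0)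
    (bd : ∀ K, IsCompact K → ∃ C, ∀ b ∈ K, ∀ y, ‖f (b, y) - A b y‖ ≤ C) : (Psi k univ f).Ok := by
  have ct : Continuous (Psi k univ f).P := continuous_pi fun i => by simp only [Psi]; fun_prop
  have o : (Psi k univ f).O = univ := by simp [Psi]
  refine ⟨o ▸ isOpen_univ, fun x hx i => hx _, ct.continuousOn, fun x hx => rfl,
    PM.pp_of_lin ct o (cont_PsL hA) (fun b v e => inj b v fun i => sub_eq_zero.1 (congrFun e i))
      fun K hK => ?_, continuous_const, fun _ _ => rfl, fun _ _ e => e⟩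
  obtain ⟨C, hC⟩ := bd K hK
  refine ⟨C, fun b hb y => (pi_norm_le_iff_of_nonempty _).2 fun i => ?_⟩
  simpa [Psi, norm_sub_rev] using hC b hb (y (i - 1))
/-- the strict derivative of `Psi` at a constant sequence -/
theorem psi_sd [FiniteDimensional ℝ E] {O : Set (B × E)} {f : B × E → E} {x : B × V k E} {y : E}
    (hx : ∀ i, x.2 i = y) {A : E →L[ℝ] E} (h : Ad.Sd f A (x.1, y)) :
    Ad.Sd (Psi k O f).P (PsL k A) x := by
  intro ε e
  have : ∀ i : Ix k, Tendsto (fun z : B × V k E × V k E => (z.1, z.2.1 i, z.2.2 i))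
      (𝓝 (x.1, x.2, x.2)) (𝓝 (x.1, y, y)) := fun i =>
    Continuous.tendsto' (by fun_prop) _ _ (by simp [hx])
  filter_upwards [eventually_all.2 fun i => (this i).eventually (h ε e)] with z hz
  refine (pi_norm_le_iff_of_nonempty _).2 fun i => ?_
  have a := (hz (i - 1)).trans (mul_le_mul_of_nonneg_left (norm_le_pi_norm (z.2.1 - z.2.2) (i - 1)) e.le)
  rw [← norm_neg] at a
  refine le_of_eq_of_le (congrArg _ ?_) a
  simp only [Psi, Pi.sub_apply, PsL_apply]; abel
/-- **ADM for `Psi`**: periodic points are fixed, with a strict derivative of type `Nap` -/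
theorem psi_noz [T2Space B] [FiniteDimensional ℝ E] {O : Set (B × E)} {f : B × E → E}
    (h : (Psi k O f).Ok) (hk : 1 ≤ k) {K : Set B} (hK : IsCompact K)
    (z : ∀ b ∈ K, ∀ w : V k E, (∀ i, (b, w i) ∈ O) → (∀ i, w i = f (b, w (i - 1))) →
      ∃ y A, (∀ i, w i = y) ∧ Ad.Sd f A (b, y) ∧ Nap A) : ∃ δ > 0, ∀ b ∈ K, (Psi k O f).NoZ δ b :=
  PM.noz_of_sd h hK fun x a b e => by
    obtain ⟨y, A, c, d, p⟩ := z x.1 b x.2 a fun i => sub_eq_zero.1 (congrFun e i)
    exact ⟨mn_eq_zero.2 (funext fun i => by simp [c]), _, psi_sd c d, p.pen hk⟩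

end Crest.Agent.N218.Pm
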