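import Crest.Agent.N218.Pm.Defs

/-!
# Row 218, block ALG (helper45): the square, definitions and leaves
-/

set_option autoImplicit false
set_option linter.unusedVariables false

open Set Topology unitInterval

noncomputable section

namespace Crest.Agent.N218.Pm

section gen
variable {B X : Type} {k : ℕ} {E E' : Type} [NormedAddCommGroup E] [NormedSpace ℝ E]
  [NormedAddCommGroup E'] [NormedSpace ℝ E']

/-- replace the normal map -/
def PM.wn (A : PM B k E) (n : B → V k E →L[ℝ] V k E) : PM B k E := ⟨A.O, A.P, n⟩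
/-- a family of paths as a path of families; the base point is `((x, θ), s)` -/
def PM.fm (A : ℝ → PM (X × ℝ) k E) : PM ((X × ℝ) × ℝ) k E :=
  ⟨{w | ((w.1.1.1, w.1.2), w.2) ∈ (A w.1.1.2).O}, fun w => (A w.1.1.2).P ((w.1.1.1, w.1.2), w.2),
    fun b => (A b.1.2).n (b.1.1, b.2)⟩
variable (k) in
/-- slotwise linear maps -/
def NL (A : E →L[ℝ] E') : V k E →L[ℝ] V k E' :=
  ContinuousLinearMap.pi fun i => A.comp (ContinuousLinearMap.proj i)
@[simp] theorem NL_apply (A : E →L[ℝ] E') (y : V k E) (i : Ix k) : NL k A y i = A (y i) := rfl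
end gen

/-- the unitary path from `1` to the shift -/
def Tg (k : ℕ) (E : Type) [NormedAddCommGroup E] [NormedSpace ℂ E] (θ : ℝ) :
    V k E →L[ℝ] V k E := (Fo.g (-θ)).restrictScalars ℝ

/-- rotate the range of the projection `π` by the angle `a` -/
def rot {E : Type} [NormedAddCommGroup E] [NormedSpace ℂ E] (π : E →L[ℂ] E) (a : ℝ) :
    E →L[ℝ] E := (1 + (Complex.exp (a * Complex.I) - 1) • π).restrictScalars ℝ

namespace Data
variable {X E₁ E₂ : Type} [TopologicalSpace X] [NormedAddCommGroup E₁] [InnerProductSpace ℂ E₁]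
  [NormedAddCommGroup E₂] [InnerProductSpace ℂ E₂] (D : Data X E₁ E₂) (k : ℕ)

/-- the slotwise normal maps -/
def nu (x : X) (a b : ℝ) : V k (E₁ × E₂) →L[ℝ] V k (E₁ × E₂) :=
  NL k ((rot (D.π₁ x) a).prodMap (rot (D.π₂ x) b))

/-- the junction maps `(y - N u z, z - T_β N v T_α y)` over `(x, α, β)` -/
def K : PM (X × ℝ × ℝ) k (E₁ × E₂) :=
  ⟨{w | ∀ i, (w.1.1, Tg k E₁ w.1.2.1 (s1 w.2) i) ∈ D.Ov},
    fun w => pr (fun i => s1 w.2 i - D.u (w.1.1, s2 w.2 i))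
      (s2 w.2 - Tg k E₂ w.1.2.2 fun i => D.v (w.1.1, Tg k E₁ w.1.2.1 (s1 w.2) i)), fun _ => 1⟩

/-- the slotwise path `N γ` -/
def G : PM (X × ℝ) k (E₁ × E₂) :=
  (D.path k 1 1).wn fun b => D.nu k b.1 (Real.pi * (1 - cl (b.2 - 2))) (Real.pi * cl (b.2 - 2))

/-- the coupled orbit loop -/
def Lo : PM (X × UnitAddCircle) k (E₁ × E₂) :=
  ((D.K k).pull fun b => (b.1, rep b.2, -rep b.2)).wn fun b => D.nu k b.1 0 Real.pi
end Data

/-- **ARC** : the four arcs and the junction maps are proper families, jointly in the angle -/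
def ARC : Prop :=
  ∀ (X : Type) [TopologicalSpace X] [CompactSpace X] [T2Space X] (E₁ E₂ : Type)
    [NormedAddCommGroup E₁] [InnerProductSpace ℂ E₁] [FiniteDimensional ℂ E₁]
    [NormedAddCommGroup E₂] [InnerProductSpace ℂ E₂] [FiniteDimensional ℂ E₂]
    (D : Data X E₁ E₂) (c κ R₀ M : ℝ) (k : ℕ), D.Ok c κ R₀ M →
    (PM.fm fun θ => D.a₁ k (Tg k E₁ θ)).Ok ∧ (PM.fm fun θ => D.a₂ k (Tg k E₁ θ)).Ok ∧
      (PM.fm fun θ => D.a₃ k (Tg k E₂ θ)).Ok ∧ (PM.fm fun θ => D.a₄ k (Tg k E₂ θ)).Ok ∧ (D.K k).Ok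

/-- **D5** : the slotwise path has invariant zero -/
def D5 : Prop :=
  ∀ (X : Type) [TopologicalSpace X] [CompactSpace X] [T2Space X] (A : Type) [AddCommGroup A]
    (T : Th X A) (E₁ E₂ : Type) [NormedAddCommGroup E₁] [InnerProductSpace ℂ E₁]
    [FiniteDimensional ℂ E₁] [NormedAddCommGroup E₂] [InnerProductSpace ℂ E₂]
    [FiniteDimensional ℂ E₂] (D : Data X E₁ E₂) (c κ R₀ M : ℝ) (k : ℕ) (δ : ℝ),
    D.Ok c κ R₀ M → 21 ≤ k → 0 < δ →
    (∀ k, (D.G k).Ok ∧ ∀ x s δ', s ≤ 0 ∨ 6 ≤ s → (D.G k).NoZ δ' (x, s)) →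
    T.pa k (sp (E₁ × E₂)) ((D.G k).F (tau δ)) = 0

/-- **LOOP** : uncouple the orbit loop -/
def LOOP : Prop :=
  ∀ (X : Type) [TopologicalSpace X] [CompactSpace X] [T2Space X] (A : Type) [AddCommGroup A]
    (T : Th X A) (E₁ E₂ : Type) [NormedAddCommGroup E₁] [InnerProductSpace ℂ E₁]
    [FiniteDimensional ℂ E₁] [NormedAddCommGroup E₂] [InnerProductSpace ℂ E₂]
    [FiniteDimensional ℂ E₂] (D : Data X E₁ E₂) (c κ R₀ M : ℝ) (k : ℕ) (δ : ℝ),
    D.Ok c κ R₀ M → 16 ≤ k → 0 < δ →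
    ((D.Lo k).F (tau δ)).Ok ∧ ((D.Orb k).F (tau δ)).Ok ∧
      T.an k (sp (E₁ × E₂)) ((D.Lo k).F (tau δ)) = T.an k (sp (E₁ × E₂)) ((D.Orb k).F (tau δ))

end Crest.Agent.N218.Pm

end
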