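import Crest.Agent.N218.Pm.Sq1
import Crest.Agent.N218.Pm.Kit2

/-!
# Row 218, block D5 (helper45): products of families, linear factors
-/

set_option autoImplicit false
set_option linter.unusedVariables false
set_option linter.unusedSectionVars false

open Set Topology unitInterval

noncomputable section

namespace Crest.Agent.N218.Pm.Dh

variable {B : Type} [TopologicalSpace B] {k : ℕ} {E E' : Type} [NormedAddCommGroup E]
  [NormedSpace ℝ E] [NormedAddCommGroup E'] [NormedSpace ℝ E']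

theorem norm_s1 (w : V k (E × E')) : ‖s1 w‖ ≤ ‖w‖ :=
  (pi_norm_le_iff_of_nonneg (norm_nonneg _)).2 fun i => (norm_fst_le _).trans (norm_le_pi_norm w i)
theorem norm_s2 (w : V k (E × E')) : ‖s2 w‖ ≤ ‖w‖ :=
  (pi_norm_le_iff_of_nonneg (norm_nonneg _)).2 fun i => (norm_snd_le _).trans (norm_le_pi_norm w i)
theorem norm_pr {y : V k E} {z : V k E'} {R : ℝ} : ‖pr y z‖ ≤ R ↔ ‖y‖ ≤ R ∧ ‖z‖ ≤ R :=
  ⟨fun h => ⟨(norm_s1 (pr y z)).trans h, (norm_s2 (pr y z)).trans h⟩, fun h =>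
    (pi_norm_le_iff_of_nonneg ((norm_nonneg _).trans h.1)).2 fun i => norm_prod_le_iff.2
      ⟨(norm_le_pi_norm y i).trans h.1, (norm_le_pi_norm z i).trans h.2⟩⟩

/-- products -/
def pd (A : PM B k E) (A' : PM B k E') : PM B k (E × E') :=
  ⟨{w | (w.1, s1 w.2) ∈ A.O ∧ (w.1, s2 w.2) ∈ A'.O},
    fun w => pr (A.P (w.1, s1 w.2)) (A'.P (w.1, s2 w.2)), fun b =>
      (NL k (.inl ℝ E E')).comp ((A.n b).comp (NL k (.fst ℝ E E'))) +
        (NL k (.inr ℝ E E')).comp ((A'.n b).comp (NL k (.snd ℝ E E')))⟩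

theorem pd_n (A : PM B k E) (A' : PM B k E') (b : B) (w : V k (E × E')) :
    (pd A A').n b w = pr (A.n b (s1 w)) (A'.n b (s2 w)) :=
  funext fun i => Prod.ext (add_zero _) (zero_add _)

theorem pd_ok [T2Space B] {A : PM B k E} {A' : PM B k E'} (h : A.Ok) (h' : A'.Ok) :
    (pd A A').Ok := by
  have c1 : Continuous fun w : B × V k (E × E') => (w.1, s1 w.2) := by fun_prop
  have c2 : Continuous fun w : B × V k (E × E') => (w.1, s2 w.2) := by fun_prop
  refine ⟨(h.op.preimage c1).inter (h'.op.preimage c2), fun x m => ⟨h.inv _ m.1, h'.inv _ m.2⟩,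
    continuousOn_pi.2 fun i => ((continuousOn_pi.1 (h.ct.comp c1.continuousOn fun x m => m.1)) i).prodMk
      ((continuousOn_pi.1 (h'.ct.comp c2.continuousOn fun x m => m.2)) i),
    fun x m => ?_, fun K hK R => ?_, ?_, fun b y => ?_, fun b y e => ?_⟩
  · exact (congrArg₂ pr (h.eq _ m.1) (h'.eq _ m.2)).trans (pr_sh _ _)
  · convert (((h.pp K hK R).prod (h'.pp K hK R)).inter_right (isClosed_eq
      (f := fun p : (B × V k E) × B × V k E' => p.1.1) (g := fun p => p.2.1) (by fun_prop)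
      (by fun_prop))).image (f := fun p => (p.1.1, pr p.1.2 p.2.2)) (by fun_prop) using 1
    ext x
    constructor
    · rintro ⟨m, a, b⟩
      exact ⟨((x.1, s1 x.2), (x.1, s2 x.2)), ⟨⟨⟨m.1, a, (norm_pr.1 b).1⟩, m.2, a, (norm_pr.1 b).2⟩,
        rfl⟩, rfl⟩
    · rintro ⟨⟨⟨b, y⟩, b', z⟩, ⟨⟨m, m'⟩, e⟩, rfl⟩
      obtain rfl : b = b' := e
      exact ⟨⟨m.1, m'.1⟩, m.2.1, norm_pr.2 ⟨m.2.2, m'.2.2⟩⟩
  · exact (continuous_const.clm_comp (h.nc.clm_comp continuous_const)).add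
      (continuous_const.clm_comp (h'.nc.clm_comp continuous_const))
  · rw [pd_n, pd_n, s1_sh, s2_sh, h.ne, h'.ne, pr_sh]
  · rw [pd_n, s1_mn, s2_mn, pr_eq_zero] at e
    rw [← pr_s (mn y), s1_mn, s2_mn, h.ni _ _ e.1, h'.ni _ _ e.2]; rfl

theorem pd_noz {A : PM B k E} {A' : PM B k E'} {δ : ℝ} {b : B} (h : A.NoZ δ b) (h' : A'.NoZ δ b) :
    (pd A A').NoZ δ b := fun y t ht hy m e => by
  rw [pd_n] at e
  rw [← pr_s (mn y), s1_mn, s2_mn, h (s1 y) t ht (hy.imp_right (norm_s1 (mn y)).trans) m.1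
    (congrArg s1 e), h' (s2 y) t ht (hy.imp_right (norm_s2 (mn y)).trans) m.2 (congrArg s2 e)]
  rfl

theorem pd_ag {B' : Type} [TopologicalSpace B'] {A₁ : PM B k E} {A₂ : PM B k E'} {A₁' : PM B' k E}
    {A₂' : PM B' k E'} {b : B} {b' : B'} (h : A₁.Ag b A₁' b') (h' : A₂.Ag b A₂' b') :
    (pd A₁ A₂).Ag b (pd A₁' A₂') b' :=
  ⟨fun y => ⟨and_congr (h.1 _).1 (h'.1 _).1, fun m => congrArg₂ pr ((h.1 _).2 m.1) ((h'.1 _).2 m.2)⟩,
    by simp only [pd, h.2, h'.2]⟩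

variable (k) in
/-- slotwise linear families -/
def Ln (L n : B → E →L[ℝ] E) : PM B k E := ⟨univ, fun w => NL k (L w.1) w.2, fun b => NL k (n b)⟩

theorem nl_cont [FiniteDimensional ℝ E] {L : B → E →L[ℝ] E} (h : Continuous L) :
    Continuous fun b => NL k (L b) :=
  continuous_clm_apply.2 fun _ => continuous_pi fun _ => h.clm_apply continuous_const

theorem ln_ok [FiniteDimensional ℝ E] {L n : B → E →L[ℝ] E} (hL : Continuous L) (hn : Continuous n)
    (iL : ∀ b v, L b v = 0 → v = 0) (i_n : ∀ b v, n b v = 0 → v = 0) : (Ln k L n).Ok := by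
  have c : Continuous fun w : B × V k E => NL k (L w.1) w.2 :=
    ((nl_cont hL).comp continuous_fst).clm_apply continuous_snd
  refine ⟨isOpen_univ, fun _ _ => trivial, c.continuousOn, fun _ _ => rfl, fun K hK R => ?_,
    nl_cont hn, fun _ _ => rfl, fun b y e => funext fun i => i_n b _ (congrFun e i)⟩
  obtain ⟨a, a0, ha⟩ : ∃ a : ℝ, 0 < a ∧ ∀ p ∈ K ×ˢ Metric.sphere (0 : V k E) 1,
      a ≤ ‖NL k (L p.1) p.2‖ := by
    rcases (K ×ˢ Metric.sphere (0 : V k E) 1).eq_empty_or_nonempty with e | ne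
    · exact ⟨1, one_pos, fun p hp => by rw [e] at hp; exact hp.elim⟩
    · obtain ⟨p, hp, hm⟩ := (hK.prod (isCompact_sphere _ _)).exists_isMinOn ne c.norm.continuousOn
      refine ⟨_, norm_pos_iff.2 fun e => ?_, fun q hq => hm hq⟩
      have : p.2 = 0 := funext fun i => iL _ _ (congrFun e i)
      simpa [this] using hp.2
  convert (hK.prod (isCompact_closedBall (0 : V k E) (R / a))).inter_right
    (isClosed_le c.norm (continuous_const (y := R))) using 1
  ext ⟨b, y⟩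
  refine ⟨fun m => ⟨⟨m.2.1, mem_closedBall_zero_iff.2 ?_⟩, m.2.2⟩, fun m => ⟨trivial, m.1.1, m.2⟩⟩
  have r : ‖NL k (L b) y‖ ≤ R := m.2.2
  rcases eq_or_ne y 0 with rfl | y0
  · simpa using div_nonneg ((norm_nonneg _).trans r) a0.le
  · have n0 := norm_pos_iff.2 y0
    have := ha (b, ‖y‖⁻¹ • y) ⟨m.2.1, by simp [norm_smul, n0.ne']⟩
    rw [map_smul, norm_smul, norm_inv, norm_norm, le_inv_mul_iff₀ n0] at this
    exact (le_div_iff₀ a0).2 (this.trans r)

theorem ln_noz {L n : B → E →L[ℝ] E} {b : B} (h : ∀ t ∈ Icc (0 : ℝ) 1, ∀ v,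
    t • L b v + (1 - t) • n b v = 0 → v = 0) (δ : ℝ) : (Ln k L n).NoZ δ b :=
  Sq.noZ_lin (A := Ln k L n) (NL k (L b)) (fun _ => rfl) (Sq.mn_N (L b)) (Sq.mn_N (n b))
    (fun t ht w _ e => funext fun i => h t ht _ (congrFun e i)) δ

variable [FiniteDimensional ℝ E] [FiniteDimensional ℝ E'] [T2Space B]

/-- the product with the identity is the stabilisation -/
theorem f_st {A : PM B k E} (h : A.Ok) {δ : ℝ} (hδ : 0 < δ) (hc : A.Cs δ) :
    ((pd A (Ln k (fun _ => 1) fun _ => (1 : E' →L[ℝ] E'))).F (tau δ)).Eqv ((A.F (tau δ)).st E') := by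
  have o := PM.fok h (tau_ok hδ) hc
  obtain ⟨K, hK, hz⟩ := hc
  have l : (Ln k (fun _ : B => 1) fun _ => (1 : E' →L[ℝ] E')).Ok :=
    ln_ok continuous_const continuous_const (fun _ _ e => e) fun _ _ e => e
  have o' := PM.fok (pd_ok h l) (tau_ok hδ) ⟨K, hK, fun b hb => pd_noz (hz b hb) (ln_noz
    (fun t _ v e => by simpa [← add_smul] using e) δ)⟩
  let τ : (B × I) × V k (E × E') → ℝ := fun x => tau δ (x.1, pr (s1 x.2) ((x.1.2 : ℝ) • s2 x.2))
  have τc : Continuous τ := (tau_ok hδ).ct.comp (by fun_prop)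
  have τi : ∀ x, τ (x.1, sh k _ x.2) = τ x := fun x =>
    (tau_ok hδ).inv (x.1, pr (s1 x.2) ((x.1.2 : ℝ) • s2 x.2))
  have t0 : ∀ (b : B × I) (w : V k (E × E')), (b.2 : ℝ) • s2 w = 0 →
      τ (b, w) = tau δ (b.1, s1 w) := fun b w e => by
    have : ‖mn (pr (s1 w) (0 : V k E'))‖ = ‖mn (s1 w)‖ := le_antisymm (by
      rw [← pr_s (mn _), norm_pr, s1_mn, s2_mn]; simp) (norm_s1 (mn (pr (s1 w) (0 : V k E'))))
    simp only [τ, tau, e, this]
  let φ : (B × I) × V k (E × E') → B × V k E := fun x => (x.1.1, s1 x.2 - (1 - τ x) • mn (s1 x.2))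
  have φc : Continuous φ := by fun_prop
  have φi : ∀ x, φ (x.1, sh k _ x.2) = ((φ x).1, sh k _ (φ x).2) := fun x => by
    simp only [φ, τi, s1_sh, sh_nrm]
  let R : Pb (B × I) k (E × E') := ⟨{x | mn (s1 x.2) ≠ 0 ∧ φ x ∈ A.O},
    fun x => pr (A.P (φ x) + (1 - τ x) • A.n x.1.1 (mn (s1 x.2))) (s2 x.2)⟩
  have Ro : R.Ok := by
    refine ⟨(isOpen_ne_fun (by fun_prop) continuous_const).inter (h.op.preimage φc),
      fun x m => ⟨sh_ne m.1, (φi x).symm ▸ h.inv _ m.2⟩, continuousOn_pi.2 fun i =>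
        ((continuousOn_pi.1 ((h.ct.comp φc.continuousOn fun x m => m.2).add (Continuous.continuousOn
          ((continuous_const.sub τc).smul ((h.nc.comp (by fun_prop)).clm_apply (by fun_prop)))))) i).prodMk
        (Continuous.continuousOn (by unfold s2; fun_prop)), fun x m => ?_, ?_,
      fun x m e => m.1 (by rw [← s1_mn, e]; rfl)⟩
    · simp only [R, φi, τi, h.eq _ m.2, s1_sh, s2_sh, mn_sh, h.ne, ← pr_sh, map_add, map_smul]
    · convert (o.cp.prod (isCompact_univ (X := I))).image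
        (f := fun p => ((p.1.1, p.2), pr p.1.2 (0 : V k E'))) (by fun_prop) using 1
      ext ⟨b, w⟩
      constructor
      · rintro ⟨m, e⟩
        have e := pr_eq_zero.1 e
        have t := t0 b w (by rw [e.2, smul_zero])
        refine ⟨((b.1, s1 w), b.2), ⟨⟨⟨m.1, ?_⟩, ?_⟩, trivial⟩, by rw [← e.2]; rfl⟩
        · rw [← t]; exact m.2
        · have := e.1
          simp only [φ, t] at this
          exact this
      · rintro ⟨⟨⟨b', y⟩, r⟩, ⟨⟨m, e⟩, -⟩, x⟩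
        obtain ⟨rfl, rfl⟩ := Prod.ext_iff.1 x
        have t := t0 (b', r) (pr y 0) (smul_zero _)
        refine ⟨⟨m.1, ?_⟩, pr_eq_zero.2 ⟨?_, rfl⟩⟩
        · simp only [φ, t]; exact m.2
        · simp only [φ, t]; exact e
  have s0 : (R.pull fun b => (b, 0)).Sm ((A.F (tau δ)).st E') := by
    have t : ∀ x : B × V k (E × E'), τ ((x.1, 0), x.2) = tau δ (x.1, s1 x.2) := fun x =>
      t0 _ _ (zero_smul _ _)
    refine ⟨Set.ext fun x => ?_, fun x m => ?_⟩
    · simp only [Pb.pull, R, φ, t, mem_ofPred_eq]; rfl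
    · simp only [Pb.pull, R, φ, t]; rfl
  have t1 : ∀ x : B × V k (E × E'), τ ((x.1, 1), x.2) = tau δ x := fun x => by
    simp only [τ, Icc.coe_one, one_smul, pr_s]; rfl
  have v : ∀ x : B × V k (E × E'), ((pd A (Ln k (fun _ => 1) fun _ => (1 : E' →L[ℝ] E'))).F
      (tau δ)).h x = (R.pull fun b => (b, 1)).h x := fun x => by
    simp only [Pb.pull, R, φ, t1, PM.F, pd_n]
    exact funext fun i => Prod.ext rfl (sub_add_cancel _ _)
  refine Pb.Eqv.trans (Pb.Gm.eqv ⟨o', Ro.sl 1, fun x m => ⟨Ro.fr ((x.1, 1), x.2) m, ?_, trivial⟩,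
    fun x _ => (v x).symm, fun x m => ?_⟩) (Ro.eqv.symm.trans ((Ro.sl 0).eqv_sm s0))
  · have := m.2
    simp only [φ, t1] at this
    exact this
  · have e := pr_eq_zero.1 ((v x).symm.trans m.2)
    refine ⟨fun z => m.1.1 ?_, by simp only [φ, t1]; exact m.1.2.1⟩
    rw [← pr_s (mn x.2), s1_mn, s2_mn, z, show s2 x.2 = 0 from e.2, mn_zero]; rfl

end Crest.Agent.N218.Pm.Dh

end
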