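import Crest.Agent.N218.Pm.D5a

/-!
# Row 218, block D5 (helper45): doubling
-/

set_option autoImplicit false
set_option linter.unusedVariables false
set_option linter.unusedSectionVars false

open Set Topology unitInterval

noncomputable section

namespace Crest.Agent.N218.Pm.Dh

section dbl
variable {k : ℕ} {E : Type} [NormedAddCommGroup E] [NormedSpace ℝ E]

/-- doubling of indices -/
def db (k : ℕ) : Ix k →+ Ix (k + 1) :=
  ZMod.lift _ ⟨zmultiplesHom _ 2, by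
    have : ((2 ^ (k + 1 + 1) : ℕ) : Ix (k + 1)) = 0 := ZMod.natCast_self _
    simp only [zmultiplesHom_apply, zsmul_eq_mul]
    push_cast at this ⊢
    linear_combination this⟩

theorem db_int (n : ℤ) : db k (n : Ix k) = (n : Ix (k + 1)) * 2 := by
  rw [db, ZMod.lift_coe]; simp

theorem db_one : db k 1 = 2 := by simpa using db_int (k := k) 1
theorem db_half : db k (2 ^ k) = 2 ^ (k + 1) := by
  have := db_int (k := k) (2 ^ k)
  push_cast at this
  exact this.trans (pow_succ _ _).symm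

theorem db_surj (j : Ix (k + 1)) : (∃ i, j = db k i) ∨ ∃ i, j = db k i + 1 := by
  obtain ⟨n, rfl⟩ := ZMod.intCast_surjective j
  rcases Int.even_or_odd' n with ⟨m, rfl | rfl⟩
  · exact .inl ⟨m, by rw [db_int]; push_cast; ring⟩
  · exact .inr ⟨m, by rw [db_int]; push_cast; ring⟩

/-- split into even and odd sites -/
def spl : V (k + 1) E →ₗ[ℝ] V k (E × E) where
  toFun y := fun i => (y (db k i), y (db k i + 1))
  map_add' _ _ := rfl
  map_smul' _ _ := rfl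

theorem spl_inj : Function.Injective (spl : V (k + 1) E → _) := fun y z h => funext fun j => by
  rcases db_surj j with ⟨i, rfl⟩ | ⟨i, rfl⟩
  exacts [congrArg Prod.fst (congrFun h i), congrArg Prod.snd (congrFun h i)]

/-- the splitting isomorphism -/
def spE [FiniteDimensional ℝ E] : V (k + 1) E ≃L[ℝ] V k (E × E) :=
  (LinearEquiv.ofInjectiveOfFinrankEq spl spl_inj (by
    simp [Module.finrank_pi_fintype, ZMod.card]; ring)).toContinuousLinearEquiv

theorem spE_apply [FiniteDimensional ℝ E] (y : V (k + 1) E) : spE y = spl y := rfl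

attribute [irreducible] spE

theorem spl_sh (y : V (k + 1) E) : spl (sh _ E (sh _ E y)) = sh k _ (spl y) := funext fun i => by
  change (y (db k i - 1 - 1), y (db k i + 1 - 1 - 1)) = (y (db k (i - 1)), y (db k (i - 1) + 1))
  rw [map_sub, db_one]; congr 2 <;> ring

theorem spl_mn (y : V (k + 1) E) : spl (mn y) = mn (spl y) := funext fun i => by
  change (mn y _, mn y _) = (1 / 2 : ℝ) • ((y _, y _) - (y (db k (i + 2 ^ k)), y (db k (i + 2 ^ k) + 1)))
  rw [map_add, db_half, add_right_comm (db k i)]; rfl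

theorem norm_spl (y : V (k + 1) E) : ‖spl y‖ = ‖y‖ :=
  le_antisymm ((pi_norm_le_iff_of_nonneg (norm_nonneg _)).2 fun i => norm_prod_le_iff.2
    ⟨norm_le_pi_norm y _, norm_le_pi_norm y _⟩) ((pi_norm_le_iff_of_nonneg (norm_nonneg _)).2
      fun j => by
        rcases db_surj j with ⟨i, rfl⟩ | ⟨i, rfl⟩
        exacts [(norm_fst_le (spl y i)).trans (norm_le_pi_norm _ i),
          (norm_snd_le (spl y i)).trans (norm_le_pi_norm _ i)])
end dbl

section cj
variable {B : Type} [TopologicalSpace B] {k k' : ℕ} {E E' : Type} [NormedAddCommGroup E]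
  [NormedSpace ℝ E] [NormedAddCommGroup E'] [NormedSpace ℝ E']

/-- transport of the free part along an isometric isomorphism -/
theorem f_cj {A : PM B k E} {A' : PM B k' E'} (e : V k E ≃L[ℝ] V k' E')
    (hm : ∀ y, e (mn y) = mn (e y)) (hn : ∀ y, ‖e y‖ = ‖y‖)
    (hO : ∀ b y, (b, y) ∈ A.O ↔ (b, e y) ∈ A'.O) (hP : ∀ b y, e (A.P (b, y)) = A'.P (b, e y))
    (hN : ∀ b y, e (A.n b y) = A'.n b (e y)) (δ : ℝ) :
    (A.F (tau δ)).cj e.symm = A'.F (tau δ) := by
  have t : ∀ (b : B) y, tau δ (b, y) = tau δ (b, e y) := fun b y => by simp only [tau, ← hm, hn]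
  unfold Pb.cj PM.F
  congr 1
  · ext ⟨b, w⟩
    obtain ⟨y, rfl⟩ := e.surjective w
    simp only [mem_ofPred_eq, e.symm_apply_apply, hO, map_sub, map_smul, hm, ← t]
    rw [← hm]
    exact and_congr_left fun _ => e.map_eq_zero_iff.not.symm
  · funext ⟨b, w⟩
    obtain ⟨y, rfl⟩ := e.surjective w
    simp only [e.symm_symm, e.symm_apply_apply, map_add, map_smul, hP, hN, map_sub, hm, ← t]

variable (k) in
/-- slotwise families -/
def SW (o : Set (B × E)) (p : B × E → E) (ν : B → E →L[ℝ] E) : PM B k E :=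
  ⟨{w | ∀ i, (w.1, w.2 i) ∈ o}, fun w i => p (w.1, w.2 i), fun b => NL k (ν b)⟩

theorem sw_cj [FiniteDimensional ℝ E] (o : Set (B × E)) (p : B × E → E) (ν : B → E →L[ℝ] E)
    (δ : ℝ) : ((SW (k + 1) o p ν).F (tau δ)).cj spE.symm =
      (pd (SW k o p ν) (SW k o p ν)).F (tau δ) :=
  f_cj (A := SW (k + 1) o p ν) (A' := pd (SW k o p ν) (SW k o p ν)) spE (fun y => by rw [spE_apply, spE_apply, spl_mn]) (fun y => by rw [spE_apply, norm_spl])
    (fun b y => by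
      rw [spE_apply]
      refine ⟨fun h => ⟨fun _ => h _, fun _ => h _⟩, fun h j => ?_⟩
      rcases db_surj j with ⟨i, rfl⟩ | ⟨i, rfl⟩
      exacts [h.1 i, h.2 i]) (fun _ _ => by rw [spE_apply, spE_apply]; rfl)
    (fun b y => by rw [pd_n, spE_apply, spE_apply]; rfl) δ

variable (k E E') in
/-- swap the slots -/
def sw : V k (E × E') ≃L[ℝ] V k (E' × E) :=
  ContinuousLinearEquiv.piCongrRight fun _ => ContinuousLinearEquiv.prodComm ℝ E E'

theorem pd_sw (A : PM B k E) (A' : PM B k E') (δ : ℝ) :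
    ((pd A A').F (tau δ)).cj (sw k E E').symm = (pd A' A).F (tau δ) :=
  f_cj (A := pd A A') (A' := pd A' A) (sw k E E') (fun _ => rfl) (fun y => le_antisymm
    (norm_pr.2 ⟨norm_s2 y, norm_s1 y⟩) (norm_pr.2 ⟨norm_s2 (sw k E E' y), norm_s1 (sw k E E' y)⟩))
    (fun _ _ => ⟨fun h => ⟨h.2, h.1⟩, fun h => ⟨h.2, h.1⟩⟩) (fun _ _ => rfl) (fun b y => by rw [pd_n, pd_n]; rfl) δ
end cj

/-- linear ends that can be turned into the identity -/
structure Tv {X E : Type} [TopologicalSpace X] [NormedAddCommGroup E] [NormedSpace ℝ E]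
    (L n : X → E →L[ℝ] E) (ρ : X × ℝ → E →L[ℝ] E) : Prop where
  Lc : Continuous L
  nc : Continuous n
  rc : Continuous ρ
  ri : ∀ b v, ρ b v = 0 → v = 0
  r0 : ∀ x, ρ (x, 0) = n x
  r1 : ∀ x, ρ (x, 1) = 1
  nn : ∀ x v, n x (n x v) = v
  pe : ∀ x, ∀ t ∈ Icc (0 : ℝ) 1, ∀ v, t • L x v + (1 - t) • n x v = 0 → v = 0

variable {X : Type} [TopologicalSpace X] [CompactSpace X] [T2Space X] {A : Type} [AddCommGroup A]
  (T : Th X A) {k : ℕ} {E E' : Type} [NormedAddCommGroup E] [NormedSpace ℝ E]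
  [FiniteDimensional ℝ E] [NormedAddCommGroup E'] [NormedSpace ℝ E'] [FiniteDimensional ℝ E'] {δ : ℝ}

theorem pa_ln (hk : 16 ≤ k) (hδ : 0 < δ) {Q : PM (X × ℝ) k E} (h : Q.Ok) (hc : Q.Cs δ)
    {L n : X → E' →L[ℝ] E'} {ρ : X × ℝ → E' →L[ℝ] E'} (t : Tv L n ρ) :
    Pe (T.pa k (sp (E × E')) ((pd Q (Ln k (fun b => L b.1) fun b => n b.1)).F (tau δ)))
      (T.pa k (sp E) (Q.F (tau δ))) := by
  let Lr : (X × ℝ) × ℝ → E' →L[ℝ] E' := fun b => (ρ (b.1.1, b.2)).comp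
    ((1 - cl b.2) • (n b.1.1).comp (L b.1.1) + cl b.2 • 1)
  have pe : ∀ b, ∀ a ∈ Icc (0 : ℝ) 1, ∀ v, a • Lr b v + (1 - a) • ρ (b.1.1, b.2) v = 0 → v = 0 :=
    fun b a ha v e => by
      have c := cl_mem b.2
      have e1 := t.ri (b.1.1, b.2) (a • ((1 - cl b.2) • n b.1.1 (L b.1.1 v) + cl b.2 • v) +
        (1 - a) • v) (by rw [map_add, map_smul, map_smul]; exact e)
      have e2 := congrArg (n b.1.1) e1
      simp only [map_add, map_smul, t.nn, map_zero] at e2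
      refine t.pe b.1.1 (a * (1 - cl b.2)) ⟨mul_nonneg ha.1 (by linarith [c.2]),
        mul_le_one₀ ha.2 (by linarith [c.2]) (by linarith [c.1])⟩ v ?_
      linear_combination (norm := module) e2
  have rc : Continuous fun b : (X × ℝ) × ℝ => ρ (b.1.1, b.2) := t.rc.comp (by fun_prop)
  have cc : Continuous fun b : (X × ℝ) × ℝ => cl b.2 := by fun_prop
  have c1 : Continuous fun b : (X × ℝ) × ℝ => b.1.1 := by fun_prop
  have lo : (Ln k Lr fun b => ρ (b.1.1, b.2)).Ok := ln_ok (rc.clm_comp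
    (((continuous_const.sub cc).smul ((t.nc.comp c1).clm_comp
      (t.Lc.comp c1))).add (cc.smul continuous_const))) rc
    (fun b v e => pe b 1 (by simp) v (by simpa using e)) fun b => t.ri _
  obtain ⟨K, hK, hz⟩ := id hc
  have e := PM.eqv_R (pd_ok (h.pull continuous_fst) lo) hδ hK fun b hb u _ =>
    pd_noz (hz b hb) (ln_noz (pe (b, u)) δ)
  have e0 : ((pd (Q.pull Prod.fst) (Ln k Lr fun b => ρ (b.1.1, b.2))).pull fun b => (b, 0)) =
      pd Q (Ln k (fun b => L b.1) fun b => n b.1) := by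
    have : ∀ b : X × ℝ, Lr (b, 0) = L b.1 := fun b => ContinuousLinearMap.ext fun v => by
      simp [Lr, cl_of_le, t.r0, t.nn]
    simp only [PM.pull, pd, Ln, this, t.r0]; rfl
  have e1 : ((pd (Q.pull Prod.fst) (Ln k Lr fun b => ρ (b.1.1, b.2))).pull fun b => (b, 1)) =
      pd Q (Ln k (fun _ => 1) fun _ => 1) := by
    have : ∀ b : X × ℝ, Lr (b, 1) = 1 := fun b => ContinuousLinearMap.ext fun v => by
      simp [Lr, cl_of_ge, t.r1]
    simp only [PM.pull, pd, Ln, this, t.r1]; rfl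
  rw [e0, e1] at e
  rw [T.pa_eqv k (sp (E × E')) _ _ hk (e.trans (f_st h hδ hc))]
  exact T.pa_st k (sp E) (sp E') _ hk (PM.fok h (tau_ok hδ) hc)

theorem Tv.ok {L n : X → E →L[ℝ] E} {ρ : X × ℝ → E →L[ℝ] E} (t : Tv L n ρ) :
    (Ln k (fun b : X × ℝ => L b.1) fun b => n b.1).Ok :=
  ln_ok (t.Lc.comp continuous_fst) (t.nc.comp continuous_fst)
    (fun b v e => t.pe b.1 1 (by simp) v (by simpa using e))
    fun b v e => t.pe b.1 0 (by simp) v (by simpa using e)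

/-- **doubling** -/
theorem pa_pd (hk : 16 ≤ k) (hδ : 0 < δ) {Q : PM (X × ℝ) k E} (h : Q.Ok)
    {L n L' n' : X → E →L[ℝ] E} {ρ ρ' : X × ℝ → E →L[ℝ] E} (t : Tv L n ρ) (t' : Tv L' n' ρ')
    (l : ∀ x s, s ≤ 0 → Q.Ag (x, s) (Ln k (fun b : X × ℝ => L b.1) fun b => n b.1) (x, s))
    (r : ∀ x s, 6 ≤ s → Q.Ag (x, s) (Ln k (fun b : X × ℝ => L' b.1) fun b => n' b.1) (x, s)) :
    ∃ a b, Pe a (T.pa k (sp E) (Q.F (tau δ))) ∧ Pe b (T.pa k (sp E) (Q.F (tau δ))) ∧
      T.pa k (sp (E × E)) ((pd Q Q).F (tau δ)) = a + b := by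
  have zl : ∀ x s, s ≤ 0 → Q.NoZ δ (x, s) := fun x s m => (l x s m).noz (ln_noz (t.pe x) δ)
  have zr : ∀ x s, 6 ≤ s → Q.NoZ δ (x, s) := fun x s m => (r x s m).noz (ln_noz (t'.pe x) δ)
  have hc : Q.Cs δ := PM.cs_of 0 6 (fun x s m => zl x s m.le) fun x s m => zr x s m.le
  have e := PM.eqv_R (pd_ok (h.pull (φ := fun b : (X × ℝ) × ℝ => (b.1.1, b.1.2 + 6 * b.2))
    (by fun_prop)) (h.pull continuous_fst)) hδ (K := univ ×ˢ Icc (-6) 6)
    (isCompact_univ.prod isCompact_Icc) fun b hb u hu => by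
      rcases not_and_or.1 (fun d => hb ⟨trivial, d⟩ : ¬(-6 ≤ b.2 ∧ b.2 ≤ 6)) with d | d
      · exact pd_noz (zl b.1 (b.2 + 6 * u) (by linarith [not_le.1 d, hu.2]))
          (zl b.1 b.2 (by linarith [not_le.1 d]))
      · exact pd_noz (zr b.1 (b.2 + 6 * u) (by linarith [not_le.1 d, hu.1]))
          (zr b.1 b.2 (by linarith [not_le.1 d]))
  let Q₁ : PM (X × ℝ) k E := Q.pull fun b => (b.1, b.2 + 6 * 1)
  have h1 : Q₁.Ok := h.pull (by fun_prop)
  have c1 : Q₁.Cs δ := PM.cs_of (-6) 0 (fun x s m => zl x (s + 6 * 1) (by linarith)) fun x s m =>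
    zr x (s + 6 * 1) (by linarith)
  have e0 : ((pd (Q.pull fun b : (X × ℝ) × ℝ => (b.1.1, b.1.2 + 6 * b.2)) (Q.pull Prod.fst)).pull
      fun b => (b, 0)) = pd Q Q := by
    change pd (Q.pull fun b : X × ℝ => (b.1, b.2 + 6 * 0)) Q = _
    simp only [mul_zero, add_zero]; rfl
  rw [e0] at e
  have p1 : T.pa k (sp E) (Q₁.F (tau δ)) = T.pa k (sp E) (Q.F (tau δ)) :=
    (T.pa_eqv k (sp E) _ _ hk ((PM.fok h (tau_ok hδ) hc).eqv_tr _)).symm
  have cL : (pd Q₁ (Ln k (fun b : X × ℝ => L b.1) fun b => n b.1)).Cs δ :=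
    let ⟨K, hK, z⟩ := c1; ⟨K, hK, fun b hb => pd_noz (z b hb) (ln_noz (t.pe b.1) δ)⟩
  have cR : (pd (Ln k (fun b : X × ℝ => L' b.1) fun b => n' b.1) Q).Cs δ :=
    let ⟨K, hK, z⟩ := hc; ⟨K, hK, fun b hb => pd_noz (ln_noz (t'.pe b.1) δ) (z b hb)⟩
  have g := T.pa_glue (S := sp (E × E)) hk hδ (pd_ok h1 t.ok) (pd_ok t'.ok h) cL cR (c := 0)
    (fun x => pd_ag (r x (0 + 6 * 1) (by norm_num)) (l x 0 le_rfl).symm)
    (fun x s m => pd_noz (zr x (s + 6 * 1) (by linarith)) (ln_noz (t.pe x) δ))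
    fun x s m => pd_noz (ln_noz (t'.pe x) δ) (zl x s m)
  refine ⟨_, _, p1 ▸ pa_ln T hk hδ h1 c1 t, ?_, (T.pa_eqv k (sp (E × E)) _ _ hk e).trans
    ((T.pa_ag (S := sp (E × E)) hk hδ (pd_ok h1 h) (PM.cs_of (-6) 6
      (fun x s m => pd_noz (zl x (s + 6 * 1) (by linarith)) (zl x s (by linarith)))
      fun x s m => pd_noz (zr x (s + 6 * 1) (by linarith)) (zr x s (by linarith))) fun b => ?_).trans g)⟩
  · rw [← pd_sw]
    exact (T.pa_cj k (sp (E × E)) (sp (E × E)) _ _ hk (PM.fok (pd_ok h t'.ok) (tau_ok hδ)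
      (let ⟨K, hK, z⟩ := hc; ⟨K, hK, fun b hb => pd_noz (z b hb) (ln_noz (t'.pe b.1) δ)⟩))
      fun _ => rfl).trans (pa_ln T hk hδ h hc t')
  · rcases le_or_gt b.2 0 with m | m
    · exact (pd_ag (PM.Ag.rfl' _ _) (l b.1 b.2 m)).trans (PM.glue_le m).symm
    · have a : Q₁.Ag b (Ln k (fun b : X × ℝ => L' b.1) fun b => n' b.1) b :=
        r b.1 (b.2 + 6 * 1) (by linarith)
      exact (pd_ag a (PM.Ag.rfl' _ _)).trans (PM.glue_gt m).symm

end Crest.Agent.N218.Pm.Dh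

end
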