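import Crest.Agent.N218.Pm.AlgD
import Crest.Agent.N218.Fo.L2

/-!
# Row 218, block ALG (helper45): linear algebra of the ends
-/

set_option autoImplicit false
set_option linter.unusedVariables false
set_option linter.unusedSectionVars false

open Set Topology unitInterval Complex

noncomputable section

namespace Crest.Agent.N218.Pm.Sq

open Fo (g gs mu n2)

theorem symb {θ t μ b : ℝ} (hθ : θ ∈ Icc (0 : ℝ) 1) (ht : t ∈ Icc (0 : ℝ) 1) (hμ : 1 < μ)
    (b0 : 0 < b) (b1 : b < 2 * Real.pi) :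
    (t : ℂ) * (1 - μ * exp ((-(θ * b) : ℝ) * Complex.I)) +
      (1 - t) * exp ((Real.pi * (1 - θ) : ℝ) * Complex.I) ≠ 0 := fun h => by
  have hp := Real.pi_pos
  set A := θ * Real.pi with hA
  set o := θ * (Real.pi - b) with ho
  have e : (t : ℂ) * exp ((A : ℝ) * Complex.I) - t * μ * exp ((o : ℝ) * Complex.I) - (1 - t) = 0 := by
    have e1 : exp ((o : ℝ) * Complex.I) = exp ((-(θ * b) : ℝ) * Complex.I) * exp (A * Complex.I) := by
      rw [← exp_add]; congr 1; rw [ho, hA]; push_cast; ring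
    have e2 : exp ((Real.pi * (1 - θ) : ℝ) * Complex.I) * exp (A * Complex.I) = -1 := by
      rw [← exp_add, ← exp_pi_mul_I]; congr 1; rw [hA]; push_cast; ring
    rw [e1]
    linear_combination exp (A * Complex.I) * h - (1 - t) * e2
  have re := congrArg Complex.re e
  have im := congrArg Complex.im e
  simp only [sub_re, mul_re, ofReal_re, exp_ofReal_mul_I_re, ofReal_im, exp_ofReal_mul_I_im,
    zero_mul, sub_zero, one_re, zero_re, sub_im, mul_im, add_zero, one_im, zero_im, mul_zero] at re im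
  have a1 : |Real.pi - b| < Real.pi := abs_lt.2 ⟨by linarith, by linarith⟩
  have a2 : |o| ≤ A := by
    rw [ho, abs_mul, abs_of_nonneg hθ.1]; exact mul_le_mul_of_nonneg_left a1.le hθ.1
  have a3 : |o| < Real.pi := by
    rw [ho, abs_mul, abs_of_nonneg hθ.1]
    exact (mul_le_of_le_one_left (abs_nonneg _) hθ.2).trans_lt a1
  have c1 : Real.cos A ≤ Real.cos o := by
    rw [← Real.cos_abs o]
    exact Real.cos_le_cos_of_nonneg_of_le_pi (abs_nonneg _) (mul_le_of_le_one_left hp.le hθ.2) a2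
  have c2 : -1 < Real.cos o := by
    rw [← Real.cos_abs o, ← Real.cos_pi]
    exact Real.cos_lt_cos_of_nonneg_of_le_pi (abs_nonneg _) le_rfl a3
  rcases ht.1.eq_or_lt with rfl | t0
  · norm_num at re
  have i1 : Real.sin A = μ * Real.sin o := mul_left_cancel₀ t0.ne' (by linarith)
  have r1 : μ * Real.cos o ≤ Real.cos A := le_of_mul_le_mul_left (by linarith [ht.2]) t0
  have r2 : Real.cos o ≤ 0 := by nlinarith
  have s1 := Real.sin_sq_add_cos_sq A
  have s2 := Real.sin_sq_add_cos_sq o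
  have s3 : Real.cos o ^ 2 ≤ Real.cos A ^ 2 := by nlinarith
  have s4 : Real.cos o ^ 2 < 1 := by nlinarith
  rw [i1] at s1
  have : 1 < μ ^ 2 := by nlinarith
  nlinarith

variable {k : ℕ} {E F : Type} [NormedAddCommGroup E] [InnerProductSpace ℂ E]
  [NormedAddCommGroup F] [InnerProductSpace ℂ F]

theorem hq (k : ℕ) : 2 ^ (k + 1) = 2 ^ k + 2 ^ k := by ring

theorem mn_yk (y : V k E) : mn y = Yk.mn (Equiv.addRight ((2 ^ k : ℕ) : Ix k)) y := by
  funext i; simp [mn, Yk.mn]

theorem Tg_apply (θ : ℝ) (y : V k E) : Tg k E θ y = g (-θ) y := rfl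
theorem Tg_zero : Tg k E 0 = 1 := ContinuousLinearMap.ext fun y => by
  rw [Tg_apply, neg_zero, Fo.g_zero]; rfl
theorem Tg_one : Tg k E 1 = sh k E := ContinuousLinearMap.ext fun y => by
  rw [Tg_apply, Fo.g_neg_one]; funext i; simp [Fo.sh, sub_eq_add_neg]
theorem Tg_add (a b : ℝ) (y : V k E) : Tg k E (a + b) y = Tg k E a (Tg k E b y) := by
  rw [Tg_apply, neg_add, Fo.g_add]; rfl
theorem Tg_succ (a : ℝ) (y : V k E) : Tg k E (a + 1) y = sh k E (Tg k E a y) := by
  rw [add_comm, Tg_add, Tg_one]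
theorem Tg_succ' (a : ℝ) (y : V k E) : Tg k E (a + 1) y = Tg k E a (sh k E y) := by
  rw [Tg_add, Tg_one]
theorem n2_Tg (θ : ℝ) (y : V k E) : n2 (Tg k E θ y) = n2 y := Fo.n2_g _ _
theorem Tg_N (θ : ℝ) (A : E →L[ℂ] F) (y : V k E) :
    Tg k F θ (fun i => A (y i)) = fun i => A (Tg k E θ y i) := Fo.mu_N _ _ _

theorem rot_apply (π : E →L[ℂ] E) (a : ℝ) (y : E) :
    rot π a y = y + (exp (a * Complex.I) - 1) • π y := rfl
theorem rot_zero (π : E →L[ℂ] E) (y : E) : rot π 0 y = y := by simp [rot_apply]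
theorem pi_rot {π : E →L[ℂ] E} (h : ∀ y, π (π y) = π y) (a : ℝ) (y : E) :
    π (rot π a y) = exp (a * Complex.I) • π y := by
  rw [rot_apply, map_add, map_smul, h]; module
theorem rot_inj {π : E →L[ℂ] E} (h : ∀ y, π (π y) = π y) {a : ℝ} {y : E} (e : rot π a y = 0) :
    y = 0 := by
  have := pi_rot h a y
  rw [e, map_zero] at this
  rwa [rot_apply, (smul_eq_zero.1 this.symm).resolve_left (exp_ne_zero _), smul_zero, add_zero] at e
theorem rot_pi (π : E →L[ℂ] E) (y : E) : rot π Real.pi y = y - (2 : ℝ) • π y := by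
  rw [rot_apply, exp_pi_mul_I, ← Complex.coe_smul]; push_cast; module
theorem rot_cont {T : Type} [TopologicalSpace T] {π : T → E →L[ℂ] E} {a : T → ℝ}
    (hπ : Continuous π) (ha : Continuous a) : Continuous fun t => rot (π t) (a t) :=
  (ContinuousLinearMap.restrictScalarsL ℂ E E ℝ ℝ).continuous.comp
    (f := fun t => 1 + (exp (a t * Complex.I) - 1) • π t) (by fun_prop)

/-- the expanding block of the pencil -/
theorem pen {θ t μ : ℝ} (hθ : θ ∈ Icc (0 : ℝ) 1) (ht : t ∈ Icc (0 : ℝ) 1) (hμ : 1 < μ) {p : V k E}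
    (hp : mn p = p) (h : t • (p - μ • Tg k E θ p) +
      (1 - t) • exp ((Real.pi * (1 - θ) : ℝ) * Complex.I) • p = 0) : p = 0 := by
  refine Fo.D_zero fun j => ?_
  by_cases hj : Odd j.val
  · have e := congrFun (congrArg (Fo.D _ E) h) j
    rw [← Complex.coe_smul, ← Complex.coe_smul, ← Complex.coe_smul] at e
    simp only [map_add, map_smul, map_sub, Pi.add_apply, Pi.smul_apply, Pi.sub_apply, Tg_apply, g,
      Fo.D_mu, map_zero, Pi.zero_apply] at e
    have q0 : (0 : ℝ) < (2 ^ (k + 1) : ℕ) := by positivity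
    have j0 : (0 : ℝ) < j.val := Nat.cast_pos.2 hj.pos
    have j1 : (j.val : ℝ) < (2 ^ (k + 1) : ℕ) := Nat.cast_lt.2 (ZMod.val_lt j)
    have s := symb hθ ht hμ (b := 2 * Real.pi * (j.val / (2 ^ (k + 1) : ℕ))) (by positivity)
      (mul_lt_of_lt_one_right (by positivity) ((div_lt_one q0).2 j1))
    refine (smul_eq_zero.1 ?_).resolve_left s
    have e2 : gs (-θ) j =
        exp ((-(θ * (2 * Real.pi * (j.val / (2 ^ (k + 1) : ℕ)))) : ℝ) * Complex.I) := by
      rw [gs]; congr 1; push_cast; ring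
    rw [← e2, ← e]; push_cast; module
  · have := Fo.D_mn (hq k) p j
    rwa [← mn_yk, hp, if_neg hj] at this

theorem mn_N {E' F' : Type} [NormedAddCommGroup E'] [NormedSpace ℝ E'] [NormedAddCommGroup F']
    [NormedSpace ℝ F'] (A : E' →L[ℝ] F') (y : V k E') : mn (fun i => A (y i)) = fun i => A (mn y i) :=
  funext fun i => by simp [mn]

/-- the pencil of the left end -/
theorem penL {θ t μ c : ℝ} (hθ : θ ∈ Icc (0 : ℝ) 1) (ht : t ∈ Icc (0 : ℝ) 1) (hμ : 1 < μ)
    (hc : c < 1) {π : E →L[ℂ] E} (hπ : ∀ y, π (π y) = π y) {C : E →L[ℝ] E} (hC : ‖C‖ ≤ c)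
    (h1 : ∀ y, π (C y) = 0) {y : V k E} (hy : mn y = y)
    (h : ∀ i, t • (y i - (C (Tg k E θ y i) + μ • π (Tg k E θ y i))) +
      (1 - t) • rot π (Real.pi * (1 - θ)) (y i) = 0) : y = 0 := by
  have hp : (fun i => π (y i)) = 0 := pen hθ ht hμ
    ((mn_N (π.restrictScalars ℝ) y).trans (by rw [hy]; rfl)) (funext fun i => by
      have := congrArg π (h i)
      simp only [map_add, π.map_smul_of_tower, map_sub, h1, hπ, pi_rot hπ, map_zero, zero_add] at this
      rw [Tg_N]; exact this)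
  have hp' : ∀ i, π (Tg k E θ y i) = 0 := fun i => by
    have := Tg_N θ π y
    rw [hp, map_zero] at this
    exact (congrFun this i).symm
  have e : ∀ i, ‖y i‖ ≤ ‖(c • Tg k E θ y) i‖ := fun i => by
    have a := h i
    rw [hp', rot_apply, congrFun hp i] at a
    have b : y i = t • C (Tg k E θ y i) := by
      simp only [Pi.zero_apply, smul_zero, add_zero] at a
      linear_combination (norm := module) a
    have c0 : 0 ≤ c := (norm_nonneg _).trans hC
    rw [Pi.smul_apply, norm_smul, Real.norm_of_nonneg c0]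
    refine (congrArg norm b).trans_le ?_
    rw [norm_smul, Real.norm_of_nonneg ht.1]
    exact (mul_le_of_le_one_left (norm_nonneg _) ht.2).trans ((C.le_opNorm _).trans
      (mul_le_mul_of_nonneg_right hC (norm_nonneg _)))
  have := Fo.n2_mono e
  rw [Fo.n2_smul, n2_Tg, Real.norm_of_nonneg ((norm_nonneg _).trans hC)] at this
  exact Fo.n2_eq_zero (by nlinarith [Fo.n2_nonneg y])

/-- the pencil of the right end -/
theorem penR {θ t μ : ℝ} (hθ : θ ∈ Icc (0 : ℝ) 1) (ht : t ∈ Icc (0 : ℝ) 1) (hμ : 1 < μ)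
    {π : E →L[ℂ] E} (hπ : ∀ y, π (π y) = π y) {y : V k E} (hy : mn y = y)
    (h : ∀ i, t • (y i - Tg k E θ (fun i => μ • π (y i)) i) +
      (1 - t) • rot π (Real.pi * (1 - θ)) (y i) = 0) : y = 0 :=
  penL (C := 0) (c := 0) hθ ht hμ one_pos hπ (by simp) (by simp) hy fun i => by
    refine Eq.trans ?_ (h i)
    have : (fun i => μ • π (y i)) = μ • fun i => π (y i) := rfl
    rw [this, map_smul, Tg_N]; simp

end Crest.Agent.N218.Pm.Sq

end
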