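import Crest.Agent.N218.Pm.Sq0
import Crest.Agent.N218.Pm.Kit1

/-!
# Row 218, block ALG (helper45): seams and ends of the arcs
-/

set_option autoImplicit false
set_option linter.unusedVariables false
set_option linter.unusedSectionVars false

open Set Topology unitInterval

noncomputable section

namespace Crest.Agent.N218.Pm.Sq

section gen
variable {B B' B'' : Type} [TopologicalSpace B] [TopologicalSpace B'] {k : ℕ} {E : Type}
  [NormedAddCommGroup E] [NormedSpace ℝ E]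

/-- the same partial map over `b` and over `b'` -/
def At (A : PM B k E) (b : B) (A' : PM B' k E) (b' : B') : Prop :=
  ∀ y, ((b, y) ∈ A.O ↔ (b', y) ∈ A'.O) ∧ ((b, y) ∈ A.O → A.P (b, y) = A'.P (b', y))

theorem At.rfl' (A : PM B k E) (b : B) : At A b A b := fun _ => ⟨Iff.rfl, fun _ => rfl⟩
theorem At.symm {A : PM B k E} {b : B} {A' : PM B' k E} {b' : B'} (h : At A b A' b') :
    At A' b' A b := fun y => ⟨(h y).1.symm, fun m => ((h y).2 ((h y).1.2 m)).symm⟩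
theorem At.trans {A : PM B k E} {b : B} {A' : PM B' k E} {b' : B'} {A'' : PM B'' k E} {b'' : B''}
    (h : At A b A' b') (h' : ∀ y, ((b', y) ∈ A'.O ↔ (b'', y) ∈ A''.O) ∧
      ((b', y) ∈ A'.O → A'.P (b', y) = A''.P (b'', y))) :
    ∀ y, ((b, y) ∈ A.O ↔ (b'', y) ∈ A''.O) ∧ ((b, y) ∈ A.O → A.P (b, y) = A''.P (b'', y)) :=
  fun y => ⟨(h y).1.trans (h' y).1, fun m => ((h y).2 m).trans ((h' y).2 ((h y).1.1 m))⟩

theorem at_le {c : ℝ} (A A' : PM (B × ℝ) k E) {b : B × ℝ} (h : b.2 ≤ c) :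
    At (PM.glue c A A') b A b := fun y => by simp [PM.glue, h]
theorem at_gt {c : ℝ} (A A' : PM (B × ℝ) k E) {b : B × ℝ} (h : c < b.2) :
    At (PM.glue c A A') b A' b := fun y => by simp [PM.glue, not_le.2 h]

theorem At.noZ {A : PM B k E} {b : B} {A' : PM B' k E} {b' : B'} (h : At A b A' b')
    (hn : A.n b = A'.n b') {δ : ℝ} (z : A'.NoZ δ b') : A.NoZ δ b := fun y t ht hy m e =>
  z y t ht hy ((h _).1.1 m) (by rw [← (h _).2 m, ← hn]; exact e)

theorem At.F {A : PM B k E} {b : B} {A' : PM B' k E} {b' : B'} (h : At A b A' b')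
    (hn : A.n b = A'.n b') (δ : ℝ) (y : V k E) :
    ((b, y) ∈ (A.F (tau δ)).O ↔ (b', y) ∈ (A'.F (tau δ)).O) ∧
      ((b, y) ∈ (A.F (tau δ)).O → (A.F (tau δ)).h (b, y) = (A'.F (tau δ)).h (b', y)) :=
  ⟨and_congr_right fun _ => (h _).1, fun m => by
    change A.P _ + _ • A.n b _ = A'.P _ + _ • A'.n b' _
    rw [(h _).2 m.2, hn]; rfl⟩

theorem sm_F {A A' : PM B k E} (h : ∀ b, At A b A' b ∧ A.n b = A'.n b) (δ : ℝ) :
    Pb.Sm (A.F (tau δ)) (A'.F (tau δ)) :=
  ⟨Set.ext fun x => ((h x.1).1.F (h x.1).2 δ x.2).1, fun x m => ((h x.1).1.F (h x.1).2 δ x.2).2 m⟩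

theorem glue_ok {c : ℝ} {A A' : PM (B × ℝ) k E} (hA : A.Ok) (hA' : A'.Ok)
    (h : ∀ b, At A (b, c) A' (b, c)) (hn : ∀ b, A.n (b, c) = A'.n (b, c)) :
    (PM.glue c A A').Ok := by
  have cs : Continuous fun x : (B × ℝ) × V k E => x.1.2 := by fun_prop
  have le : ∀ x ∈ (PM.glue c A A').O, x.1.2 ≤ c → x ∈ A.O ∧ (PM.glue c A A').P x = A.P x :=
    fun x m l => ⟨(at_le A A' l x.2).1.1 m, (at_le A A' l x.2).2 m⟩
  have ge : ∀ x ∈ (PM.glue c A A').O, c ≤ x.1.2 → x ∈ A'.O ∧ (PM.glue c A A').P x = A'.P x := by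
    rintro ⟨⟨b, s⟩, y⟩ m l
    rcases l.eq_or_lt with rfl | l
    · exact ⟨(h b y).1.1 (le _ m le_rfl).1, (le _ m le_rfl).2.trans ((h b y).2 (le _ m le_rfl).1)⟩
    · exact ⟨(at_gt A A' l y).1.1 m, (at_gt A A' l y).2 m⟩
  have le' : ∀ x ∈ A.O, x.1.2 ≤ c → x ∈ (PM.glue c A A').O := fun x m l => (at_le A A' l x.2).1.2 m
  have ge' : ∀ x ∈ A'.O, c ≤ x.1.2 → x ∈ (PM.glue c A A').O := by
    rintro ⟨⟨b, s⟩, y⟩ m l
    rcases l.eq_or_lt with rfl | l
    · exact le' _ ((h b y).1.2 m) le_rfl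
    · exact (at_gt A A' l y).1.2 m
  refine ⟨?_, fun x m => ?_, ?_, fun x m => ?_, fun K hK R => ?_, ?_, fun b y => ?_, fun b y => ?_⟩
  · have : (PM.glue c A A').O =
        (A.O ∩ {x | x.1.2 < c}) ∪ (A'.O ∩ {x | c < x.1.2}) ∪ (A.O ∩ A'.O) := by
      ext x
      constructor
      · intro m
        rcases lt_trichotomy x.1.2 c with l | l | l
        · exact .inl (.inl ⟨(le x m l.le).1, l⟩)
        · exact .inr ⟨(le x m l.le).1, (ge x m l.ge).1⟩
        · exact .inl (.inr ⟨(ge x m l.le).1, l⟩)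
      · rintro ((⟨a, l⟩ | ⟨a, l⟩) | ⟨a, b⟩)
        exacts [le' x a (le_of_lt l), ge' x a (le_of_lt l),
          (le_total x.1.2 c).elim (le' x a) (ge' x b)]
    rw [this]
    exact ((hA.op.inter (isOpen_lt cs continuous_const)).union
      (hA'.op.inter (isOpen_lt continuous_const cs))).union (hA.op.inter hA'.op)
  · exact (le_total x.1.2 c).elim (fun l => le' _ (hA.inv x (le x m l).1) l)
      fun l => ge' _ (hA'.inv x (ge x m l).1) l
  · classical
    refine ContinuousOn.if (p := fun x : (B × ℝ) × V k E => x.1.2 ≤ c) (fun x m => ?_)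
      (hA.ct.mono fun x m => (le x m.1 ?_).1) (hA'.ct.mono fun x m => (ge x m.1 ?_).1)
    · have e : x.1.2 = c := frontier_le_subset_eq cs continuous_const m.2
      exact (le x m.1 e.le).2.symm.trans (ge x m.1 e.ge).2
    · exact (isClosed_le cs continuous_const).closure_subset m.2
    · exact closure_minimal (t := {x : (B × ℝ) × V k E | c ≤ x.1.2}) (fun x l => (not_le.1 l).le)
        (isClosed_le continuous_const cs) m.2
  · rcases le_total x.1.2 c with l | l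
    · rw [(le x m l).2, (le _ (le' _ (hA.inv x (le x m l).1) l) l).2, hA.eq x (le x m l).1]
    · rw [(ge x m l).2, (ge _ (ge' _ (hA'.inv x (ge x m l).1) l) l).2, hA'.eq x (ge x m l).1]
  · convert ((hA.pp K hK R).inter_right (isClosed_le cs (continuous_const (y := c)))).union
      ((hA'.pp K hK R).inter_right (isClosed_le (continuous_const (y := c)) cs)) using 1
    ext x
    constructor
    · rintro ⟨m, a, b⟩
      rcases le_total x.1.2 c with l | l
      · exact .inl ⟨⟨(le x m l).1, a, (le x m l).2 ▸ b⟩, l⟩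
      · exact .inr ⟨⟨(ge x m l).1, a, (ge x m l).2 ▸ b⟩, l⟩
    · rintro (⟨⟨m, a, b⟩, l⟩ | ⟨⟨m, a, b⟩, l⟩)
      · exact ⟨le' x m l, a, (le x (le' x m l) l).2 ▸ b⟩
      · exact ⟨ge' x m l, a, (ge x (ge' x m l) l).2 ▸ b⟩
  · exact hA.nc.if_le hA'.nc continuous_snd continuous_const fun b e => by
      obtain ⟨b, s⟩ := b
      obtain rfl : s = c := e
      exact hn b
  · simp only [PM.glue]; split_ifs; exacts [hA.ne b y, hA'.ne b y]
  · simp only [PM.glue]; split_ifs; exacts [hA.ni b y, hA'.ni b y]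

theorem wn_ok {A : PM B k E} (hA : A.Ok) {n : B → V k E →L[ℝ] V k E} (h1 : Continuous n)
    (h2 : ∀ b y, n b (sh k E y) = sh k E (n b y)) (h3 : ∀ b y, n b y = 0 → y = 0) : (A.wn n).Ok :=
  ⟨hA.op, hA.inv, hA.ct, hA.eq, hA.pp, h1, h2, fun b y => h3 b _⟩

theorem mn_mn' (y : V k E) : mn (mn y) = mn y := by
  have h : ∀ i : Ix k, i + 2 ^ k + 2 ^ k = i := fun i => by
    have : ((2 ^ (k + 1) : ℕ) : Ix k) = 0 := ZMod.natCast_self _
    push_cast at this
    linear_combination this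
  funext i; simp only [mn, h]; module

theorem mn_lin (t : ℝ) (a b : V k E) : mn (a + t • b) = mn a + t • mn b := by
  funext i; simp only [mn, Pi.add_apply, Pi.smul_apply]; module

/-- a linear member of a family whose pencil is injective on odd vectors has no free zero -/
theorem noZ_lin {A : PM B k E} {b : B} (L : V k E →L[ℝ] V k E) (hP : ∀ y, A.P (b, y) = L y)
    (hL : ∀ y, mn (L y) = L (mn y)) (hn : ∀ y, mn (A.n b y) = A.n b (mn y))
    (h : ∀ t ∈ Icc (0 : ℝ) 1, ∀ w, mn w = w → t • L w + (1 - t) • A.n b w = 0 → w = 0) (δ : ℝ) :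
    A.NoZ δ b := fun y t ht _ _ e => h t ht _ (mn_mn' y) (by
  have := congrArg mn e
  rw [mn_lin, hP, hL, hn, mn_mn', sub_eq_add_neg y, ← neg_smul, mn_lin, mn_mn', map_add,
    map_smul] at this
  refine Eq.trans ?_ (this.trans (funext fun i => by simp [mn]))
  module)
end gen

theorem cl_le {t : ℝ} (h : t ≤ 0) : cl t = 0 := max_eq_left ((min_le_right _ _).trans h)
theorem cl_ge {t : ℝ} (h : 1 ≤ t) : cl t = 1 := by rw [cl, min_eq_left h, max_eq_right zero_le_one]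
theorem cl_mid {t : ℝ} (h : t ∈ Icc (0 : ℝ) 1) : cl t = t := by
  rw [cl, min_eq_right h.2, max_eq_right h.1]

variable {X E₁ E₂ : Type} [TopologicalSpace X] [NormedAddCommGroup E₁] [InnerProductSpace ℂ E₁]
  [NormedAddCommGroup E₂] [InnerProductSpace ℂ E₂] {D : Data X E₁ E₂} {c κ R₀ M : ℝ} {k : ℕ}

theorem seam1 (hD : D.Ok c κ R₀ M) (T : V k E₁ →L[ℝ] V k E₁) (x : X) :
    At (D.a₁ k T) (x, 1) (D.a₂ k T) (x, 1) := fun w =>
  ⟨forall_congr' fun i => (hD.r₁ x 1 _ le_rfl).1, fun m => by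
    simp only [Data.a₁, Data.a₂, sub_self, cl_le (le_refl (0 : ℝ)), cl_le (t := 1 - 2) (by norm_num),
      zero_smul, zero_add, sub_zero, one_smul]
    congr 1
    funext i
    rw [(hD.r₁ x 1 _ le_rfl).2 ((hD.r₁ x 1 _ le_rfl).1.1 (m i))]⟩

theorem seam2 (θ : ℝ) (x : X) {s : ℝ} (hs : 3 ≤ s) :
    At (D.a₂ k (Tg k E₁ θ)) (x, s) (D.K k) (x, θ, 0) := fun w =>
  ⟨Iff.rfl, fun m => by
    simp only [Data.a₂, Data.K, cl_ge (t := s - 1) (by linarith), cl_ge (t := s - 2) (by linarith),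
      one_smul, sub_self, zero_smul, add_zero, Tg_zero]
    rfl⟩

theorem seam3 (θ : ℝ) (x : X) {s : ℝ} (hs : s ≤ 3) :
    At (D.a₃ k (Tg k E₂ θ)) (x, s) (D.K k) (x, 0, θ) := fun w => by
  simp only [Data.a₃, Data.K, cl_le (t := s - 4) (by linarith), cl_le (t := s - 3) (by linarith),
    one_smul, sub_zero, zero_smul, add_zero, Tg_zero, mem_ofPred_eq]
  exact ⟨Iff.rfl, fun _ => rfl⟩

theorem seam4 (hD : D.Ok c κ R₀ M) (T : V k E₂ →L[ℝ] V k E₂) (x : X) :
    At (D.a₃ k T) (x, 5) (D.a₄ k T) (x, 5) := fun w => by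
  simp only [Data.a₃, Data.a₄, cl_ge (t := 5 - 4) (by norm_num), cl_ge (t := 5 - 3) (by norm_num),
    one_smul, sub_zero, zero_smul, zero_add, sub_self, mem_ofPred_eq]
  refine ⟨forall_congr' fun i => (hD.l₂ x 0 _ le_rfl).1.symm, fun m => ?_⟩
  congr 3
  funext i
  exact ((hD.l₂ x 0 _ le_rfl).2 (m i)).symm

theorem seam5 (x : X) (a b : ℝ) : At (D.K k) (x, a + 1, b) (D.K k) (x, a, b + 1) := fun w => by
  simp only [Data.K, mem_ofPred_eq, Tg_succ (E := E₁), Tg_succ' (E := E₂), sh_apply]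
  exact ⟨⟨fun h i => by simpa using h (i + 1), fun h i => h _⟩, fun _ => rfl⟩

theorem nu_cont (hD : D.Ok c κ R₀ M) {T : Type} [TopologicalSpace T] [FiniteDimensional ℂ E₁]
    [FiniteDimensional ℂ E₂] {x : T → X} {a b : T → ℝ} (hx : Continuous x) (ha : Continuous a)
    (hb : Continuous b) : Continuous fun t => D.nu k (x t) (a t) (b t) :=
  continuous_clm_apply.2 fun w => continuous_pi fun i =>
    ((rot_cont (hD.p₁.ct.comp hx) ha).clm_apply continuous_const).prodMk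
      ((rot_cont (hD.p₂.ct.comp hx) hb).clm_apply continuous_const)

theorem nu_inj (hD : D.Ok c κ R₀ M) (x : X) (a b : ℝ) (w : V k (E₁ × E₂)) (h : D.nu k x a b w = 0) :
    w = 0 := funext fun i => Prod.ext (rot_inj (hD.p₁.id x) (congrArg Prod.fst (congrFun h i)))
      (rot_inj (hD.p₂.id x) (congrArg Prod.snd (congrFun h i)))

theorem nu_zero (x : X) : D.nu k x 0 0 = 1 := ContinuousLinearMap.ext fun w => funext fun i =>
  Prod.ext (rot_zero _ _) (rot_zero _ _)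

theorem mn_Tg {E : Type} [NormedAddCommGroup E] [InnerProductSpace ℂ E] (θ : ℝ) (y : V k E) :
    mn (Tg k E θ y) = Tg k E θ (mn y) := by
  rw [mn_yk, mn_yk]; exact Fo.mn_mu (hq k) _ _

/-- no free zero at the left end -/
theorem noZ_L (hD : D.Ok c κ R₀ M) {θ : ℝ} (hθ : θ ∈ Icc (0 : ℝ) 1) (x : X) {s : ℝ} (hs : s ≤ 0)
    (δ : ℝ) : ((D.a₁ k (Tg k E₁ θ)).wn fun b => D.nu k b.1 (Real.pi * (1 - θ)) 0).NoZ δ (x, s) := by
  let S : V k (E₁ × E₂) →L[ℝ] V k E₁ := NL k (ContinuousLinearMap.fst ℝ E₁ E₂)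
  let A : E₁ →L[ℝ] E₁ × E₂ := (ContinuousLinearMap.inl ℝ E₁ E₂).comp
    (D.C x + D.μ • (D.π₁ x).restrictScalars ℝ)
  refine noZ_lin (1 - (NL k A).comp ((Tg k E₁ θ).comp S)) (fun w => funext fun i => ?_)
    (fun w => ?_) (fun w => mn_N ((rot (D.π₁ x) _).prodMap (rot (D.π₂ x) _)) w)
    (fun t ht w hw e => ?_) δ
  · simp only [PM.wn, Data.a₁, (hD.l₁ x s _ hs).2]
    exact Prod.ext rfl (sub_zero _).symm
  · change mn (w - fun i => A (Tg k E₁ θ (fun i => _) i)) = mn w - fun i => A (Tg k E₁ θ (S (mn w)) i)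
    rw [sub_eq_add_neg, ← neg_one_smul ℝ, mn_lin, mn_N, mn_Tg, neg_one_smul, ← sub_eq_add_neg]
    exact congrArg (fun v => mn w - fun i => A (Tg k E₁ θ v i))
      (mn_N (ContinuousLinearMap.fst ℝ E₁ E₂) w)
  · have h1 : s1 w = 0 := penL hθ ht hD.hμ hD.hc (hD.p₁.id x) (hD.Cn x) (fun y => (hD.Cp x y).1)
      ((mn_N (ContinuousLinearMap.fst ℝ E₁ E₂) w).trans (by rw [hw]; rfl))
      fun i => congrArg Prod.fst (congrFun e i)
    refine funext fun i => Prod.ext (congrFun h1 i) ?_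
    have : t • ((w i).2 - 0) + (1 - t) • rot (D.π₂ x) 0 (w i).2 = 0 :=
      congrArg Prod.snd (congrFun e i)
    rw [rot_zero] at this
    change (w i).2 = 0
    linear_combination (norm := module) this

/-- no free zero at the right end -/
theorem noZ_R (hD : D.Ok c κ R₀ M) {θ : ℝ} (hθ : θ ∈ Icc (0 : ℝ) 1) (x : X) {s : ℝ} (hs : 6 ≤ s)
    (δ : ℝ) : ((D.a₄ k (Tg k E₂ θ)).wn fun b => D.nu k b.1 0 (Real.pi * (1 - θ))).NoZ δ (x, s) := by
  let A : E₁ × E₂ →L[ℝ] E₂ := (D.μ • (D.π₂ x).restrictScalars ℝ).comp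
    (ContinuousLinearMap.snd ℝ E₁ E₂)
  let J : E₂ →L[ℝ] E₁ × E₂ := ContinuousLinearMap.inr ℝ E₁ E₂
  refine noZ_lin (1 - (NL k J).comp ((Tg k E₂ θ).comp (NL k A))) (fun w => funext fun i => ?_)
    (fun w => ?_) (fun w => mn_N ((rot (D.π₁ x) _).prodMap (rot (D.π₂ x) _)) w)
    (fun t ht w hw e => ?_) δ
  · simp only [PM.wn, Data.a₄, (hD.r₂ x (s - 5) _ (by linarith)).2]
    exact Prod.ext (sub_zero _).symm rfl
  · change mn (w - fun i => J (Tg k E₂ θ (fun i => A (w i)) i)) =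
      mn w - fun i => J (Tg k E₂ θ (fun i => A (mn w i)) i)
    rw [sub_eq_add_neg, ← neg_one_smul ℝ, mn_lin, mn_N, mn_Tg, mn_N, neg_one_smul, ← sub_eq_add_neg]
  · have h1 : s2 w = 0 := penR hθ ht hD.hμ (hD.p₂.id x)
      ((mn_N (ContinuousLinearMap.snd ℝ E₁ E₂) w).trans (by rw [hw]; rfl))
      fun i => congrArg Prod.snd (congrFun e i)
    refine funext fun i => Prod.ext ?_ (congrFun h1 i)
    have : t • ((w i).1 - 0) + (1 - t) • rot (D.π₁ x) 0 (w i).1 = 0 :=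
      congrArg Prod.fst (congrFun e i)
    rw [rot_zero] at this
    change (w i).1 = 0
    linear_combination (norm := module) this

end Crest.Agent.N218.Pm.Sq

end
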